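import Vale.Agent.P205.Full.Global.Transition

/-!
# P205 holes: normal acceleration of maps into or near a sphere
-/

namespace Vale.Agent.P205.Full

open Set Function Filter
open scoped ContDiff Topology RealInnerProductSpace

noncomputable section

variable {f x : E2 → E4} {y u : E2}

theorem inner_accel_of_norm (hf : ContDiffAt ℝ ∞ f y) {c : ℝ}
    (hc : ∀ᶠ z in 𝓝 y, ‖f z‖ = c) (v : E2) :
    ⟪f y, fderiv ℝ f y v⟫ = 0 ∧
      ⟪f y, fderiv ℝ (fderiv ℝ f) y v v⟫ = -‖fderiv ℝ f y v‖ ^ 2 := by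
  have hd : ∀ᶠ z in 𝓝 y, DifferentiableAt ℝ f z := by
    filter_upwards [(hf.of_le (show (1 : ℕ∞ω) ≤ ∞ by simp)).eventually (by simp)] with z hz
    exact hz.differentiableAt (by simp)
  have hperp : ∀ᶠ z in 𝓝 y, ⟪f z, fderiv ℝ f z v⟫ = 0 := by
    filter_upwards [hc.eventually_nhds, hd] with z hz hdz
    have hconst : (fun w => ⟪f w, f w⟫) =ᶠ[𝓝 z] fun _ => c ^ 2 := by
      filter_upwards [hz] with w hw
      rw [real_inner_self_eq_norm_sq, hw]
    have h := fderiv_inner_apply ℝ hdz hdz v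
    rw [hconst.fderiv_eq, fderiv_const_apply, _root_.zero_apply,
      real_inner_comm (f z)] at h
    linarith
  refine ⟨hperp.self_of_nhds, ?_⟩
  have hd' : DifferentiableAt ℝ (fderiv ℝ f) y :=
    (hf.fderiv_right (m := ∞) (by simp)).differentiableAt (by simp)
  have hdv : DifferentiableAt ℝ (fun z => fderiv ℝ f z v) y :=
    hd'.clm_apply (differentiableAt_const v)
  have h := fderiv_inner_apply ℝ hd.self_of_nhds hdv v
  rw [Filter.EventuallyEq.fderiv_eq (f := fun _ => (0 : ℝ)) hperp, fderiv_const_apply,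
    _root_.zero_apply, fderiv_clm_apply hd' (differentiableAt_const v),
    real_inner_self_eq_norm_sq] at h
  simp only [fderiv_fun_const, Pi.zero_apply, ContinuousLinearMap.comp_zero, zero_add,
    ContinuousLinearMap.flip_apply] at h
  linarith

/-- An immersion into a sphere has normal acceleration in every direction. -/
theorem normalAccel_of_norm (hf : ContDiffAt ℝ ∞ f y) {c : ℝ} (hc : ∀ᶠ z in 𝓝 y, ‖f z‖ = c)
    (hu : fderiv ℝ f y u ≠ 0) : NormalAccel f y u := by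
  rw [normalAccel_iff hf]
  rintro ⟨t, ht⟩
  have h := (inner_accel_of_norm hf hc u).2
  rw [← ht, (inner_accel_of_norm hf hc t).1] at h
  have : 0 < ‖fderiv ℝ f y u‖ ^ 2 := by positivity
  linarith

/-- A map close in second order to a flat immersion into the unit sphere is an immersion with
normal acceleration in every direction. -/
theorem normalAccel_near (hf : ContDiffAt ℝ ∞ f y) (hx : ContDiffAt ℝ ∞ x y)
    (hone : ∀ᶠ z in 𝓝 y, ‖f z‖ = 1) (hiso : ∀ v, ‖fderiv ℝ f y v‖ = ‖v‖) {C δ : ℝ}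
    (hC : ‖fderiv ℝ (fderiv ℝ f) y‖ ≤ C) (hδ : δ * (4 * (C + 2)) ≤ 1)
    (h1 : ‖fderiv ℝ x y‖ ≤ δ) (h2 : ‖fderiv ℝ (fderiv ℝ x) y‖ ≤ δ) :
    Injective (fderiv ℝ (fun z => f z + x z) y) ∧
      ∀ v, v ≠ 0 → NormalAccel (fun z => f z + x z) y v := by
  have hδ0 : 0 ≤ δ := (norm_nonneg _).trans h1
  have hC0 : 0 ≤ C := (norm_nonneg (fderiv ℝ (fderiv ℝ f) y)).trans hC
  have hhalf : δ ≤ 1 / 2 := by nlinarith
  have hd1 : fderiv ℝ (fun z => f z + x z) y = fderiv ℝ f y + fderiv ℝ x y :=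
    fderiv_fun_add (hf.differentiableAt (by simp)) (hx.differentiableAt (by simp))
  have hlow : ∀ v, ‖v‖ / 2 ≤ ‖fderiv ℝ (fun z => f z + x z) y v‖ := fun v => by
    rw [hd1, add_apply]
    have h := norm_sub_le_norm_add (fderiv ℝ f y v) (fderiv ℝ x y v)
    have h' := (fderiv ℝ x y).le_of_opNorm_le h1 v
    rw [hiso] at h
    nlinarith [norm_nonneg v]
  refine ⟨(injective_iff_map_eq_zero _).2 fun v hv => ?_, fun v hv => ?_⟩
  · have := hlow v
    rw [hv, norm_zero] at this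
    exact norm_eq_zero.1 (le_antisymm (by linarith) (norm_nonneg v))
  rw [normalAccel_iff (hf.add hx)]
  rintro ⟨t, ht⟩
  have hd2 : fderiv ℝ (fderiv ℝ fun z => f z + x z) y v v
      = fderiv ℝ (fderiv ℝ f) y v v + fderiv ℝ (fderiv ℝ x) y v v := by
    have he : (fderiv ℝ fun z => f z + x z) =ᶠ[𝓝 y] fun z => fderiv ℝ f z + fderiv ℝ x z := by
      filter_upwards [(hf.of_le (show (1 : ℕ∞ω) ≤ ∞ by simp)).eventually (by simp),
        (hx.of_le (show (1 : ℕ∞ω) ≤ ∞ by simp)).eventually (by simp)] with z a b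
      exact fderiv_fun_add (a.differentiableAt (by simp)) (b.differentiableAt (by simp))
    rw [he.fderiv_eq, fderiv_fun_add ((hf.fderiv_right (m := ∞) (by simp)).differentiableAt (by simp))
      ((hx.fderiv_right (m := ∞) (by simp)).differentiableAt (by simp))]
    rfl
  rw [hd2] at ht
  have a1 := (inner_accel_of_norm hf hone v).2
  have a2 := (inner_accel_of_norm hf hone t).1
  have hy : ‖f y‖ = 1 := hone.self_of_nhds
  have b1 : |⟪f y, fderiv ℝ (fderiv ℝ x) y v v⟫| ≤ δ * ‖v‖ ^ 2 := by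
    refine (abs_real_inner_le_norm _ _).trans ?_
    rw [hy, one_mul]
    refine ((fderiv ℝ (fderiv ℝ x) y).le_opNorm₂ v v).trans ?_
    nlinarith [norm_nonneg v, mul_le_mul_of_nonneg_right h2 (sq_nonneg ‖v‖)]
  have b2 : |⟪f y, fderiv ℝ x y t⟫| ≤ δ * ‖t‖ := by
    refine (abs_real_inner_le_norm _ _).trans ?_
    rw [hy, one_mul]
    exact (fderiv ℝ x y).le_of_opNorm_le h1 t
  have e : ⟪f y, fderiv ℝ x y t⟫ = -‖v‖ ^ 2 + ⟪f y, fderiv ℝ (fderiv ℝ x) y v v⟫ := by
    rw [hd1, add_apply] at ht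
    have := congrArg (fun w => ⟪f y, w⟫) ht
    simp only [inner_add_right, a1, a2, hiso, zero_add] at this
    exact this
  have ht' : ‖t‖ / 2 ≤ (C + δ) * ‖v‖ ^ 2 := by
    refine (hlow t).trans ?_
    rw [ht]
    refine (norm_add_le _ _).trans ?_
    have c1 := (fderiv ℝ (fderiv ℝ f) y).le_opNorm₂ v v
    have c2 := (fderiv ℝ (fderiv ℝ x) y).le_opNorm₂ v v
    nlinarith [mul_le_mul_of_nonneg_right hC (sq_nonneg ‖v‖),
      mul_le_mul_of_nonneg_right h2 (sq_nonneg ‖v‖), norm_nonneg v]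
  have hv2 : 0 < ‖v‖ ^ 2 := by positivity
  have k1 := mul_le_mul_of_nonneg_left ht' hδ0
  have k2 := mul_le_mul_of_nonneg_right hδ hv2.le
  nlinarith [abs_le.1 b1, abs_le.1 b2, mul_nonneg (mul_nonneg hδ0 hδ0) hv2.le,
    mul_le_mul_of_nonneg_right (mul_le_mul_of_nonneg_left hhalf hδ0) hv2.le]

/-- Normal acceleration does not see linear changes of four-space. -/
theorem NormalAccel.clm_comp (L : E4 ≃L[ℝ] E4) (h : NormalAccel f y u) :
    NormalAccel (fun z => L (f z)) y u := by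
  unfold NormalAccel at *
  have e : ∀ g : E2 → E4, ∀ z, fderiv ℝ (fun w => L (g w)) z = (L : E4 →L[ℝ] E4).comp (fderiv ℝ g z) :=
    fun g z => L.comp_fderiv
  simp only [e, ContinuousLinearMap.comp_apply, ContinuousLinearEquiv.coe_coe]
  rintro ⟨t, ht⟩
  exact h ⟨t, L.injective ht⟩

end

end Vale.Agent.P205.Full
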