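import Vale.Agent.P205.Full.Holes.Newton

/-!
# P205 holes: planting the model at the centre of an immersed disc in the sphere

`exists_blend`: near the origin an immersion `h` of the disc into the unit sphere can be replaced by
`A ∘ ψ ∘ N`, with `A` an isometry of four-space, `ψ` the model and `N` the positive root of the
metric of `h` at the origin, keeping an immersion into the sphere.
-/

namespace Vale.Agent.P205.Holes

open Set Filter Metric Function
open scoped ContDiff Topology RealInnerProductSpace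
open Vale.Agent.P205 Vale.Agent.P205.Full

noncomputable section

/-- A map of norm one is orthogonal to its derivative. -/
theorem inner_fderiv_of_norm_one {f : E2 → E4} {w : E2} (hd : DifferentiableAt ℝ f w)
    (h1 : ∀ᶠ z in 𝓝 w, ‖f z‖ = 1) (v : E2) : ⟪f w, fderiv ℝ f w v⟫ = 0 := by
  have h := hd.hasFDerivAt.inner ℝ hd.hasFDerivAt
  have h' : HasFDerivAt (fun z => ⟪f z, f z⟫) (0 : E2 →L[ℝ] ℝ) w :=
    (hasFDerivAt_const (1 : ℝ) w).congr_of_eventuallyEq (h1.mono fun z hz => by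
      show ⟪f z, f z⟫ = 1
      rw [real_inner_self_eq_norm_sq, hz, one_pow])
  have e := DFunLike.congr_fun (h.unique h') v
  simp [real_inner_comm (fderiv ℝ f w v) (f w)] at e
  linarith [real_inner_comm (fderiv ℝ f w v) (f w)]

/-- The positive root of the metric pulled back by an injective linear map. -/
theorem exists_root (L : E2 →L[ℝ] E4) (hL : Injective L) :
    ∃ (N : E2 →L[ℝ] E2) (n₀ : ℝ), 0 < n₀ ∧ (∀ u, n₀ * ‖u‖ ^ 2 ≤ ⟪u, N u⟫) ∧
      ∀ u v, ⟪N u, N v⟫ = ⟪L u, L v⟫ := by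
  set e₀ : E2 := !₂[1, 0] with he₀
  set e₁ : E2 := !₂[0, 1] with he₁
  have dec : ∀ u : E2, u = u 0 • e₀ + u 1 • e₁ := fun u => by
    ext i; fin_cases i <;> simp [he₀, he₁]
  set A := ⟪L e₀, L e₀⟫ with hA
  set B := ⟪L e₀, L e₁⟫ with hB
  set C := ⟪L e₁, L e₁⟫ with hC
  have exp : ∀ u v : E2, ⟪L u, L v⟫
      = A * (u 0 * v 0) + B * (u 0 * v 1 + u 1 * v 0) + C * (u 1 * v 1) := fun u v => by
    conv_lhs => rw [dec u, dec v]
    simp only [map_add, map_smul, inner_add_left, inner_add_right, real_inner_smul_left,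
      real_inner_smul_right, real_inner_comm (L e₀) (L e₁), hA, hB, hC]
    ring
  have hC0 : 0 < C := by
    refine real_inner_self_pos.2 fun h => ?_
    have := congrFun (congrArg WithLp.ofLp (hL (h.trans (map_zero L).symm))) 1
    simp [he₁] at this
  have hdet : 0 < A * C - B ^ 2 := by
    have hne : L (C • e₀ - B • e₁) ≠ 0 := fun h => by
      have := congrFun (congrArg WithLp.ofLp (hL (h.trans (map_zero L).symm))) 0
      simp [he₀, he₁, hC0.ne'] at this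
    have h := real_inner_self_pos.2 hne
    rw [exp] at h
    simp [he₀, he₁] at h
    nlinarith
  set s := Real.sqrt (A * C - B ^ 2) with hs
  have hs0 : 0 < s := Real.sqrt_pos.2 hdet
  have hA0 : 0 ≤ A := real_inner_self_nonneg
  set t := Real.sqrt (A + C + 2 * s) with ht
  have ht0 : 0 < t := Real.sqrt_pos.2 (by linarith)
  have hs2 : s ^ 2 = A * C - B ^ 2 := Real.sq_sqrt hdet.le
  have ht2 : t ^ 2 = A + C + 2 * s := Real.sq_sqrt (by linarith)
  let Nl : E2 →ₗ[ℝ] E2 :=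
    { toFun := fun u => !₂[((A + s) * u 0 + B * u 1) / t, (B * u 0 + (C + s) * u 1) / t]
      map_add' := fun u v => by ext i; fin_cases i <;> simp <;> ring
      map_smul' := fun c u => by ext i; fin_cases i <;> simp <;> ring }
  refine ⟨LinearMap.toContinuousLinearMap Nl, s / t, div_pos hs0 ht0, fun u => ?_, fun u v => ?_⟩
  · have e : ⟪u, Nl u⟫ = (⟪L u, L u⟫ + s * ‖u‖ ^ 2) / t := by
      rw [exp, ← real_inner_self_eq_norm_sq]
      simp [Nl, PiLp.inner_apply, Fin.sum_univ_two, -inner_self_eq_norm_sq_to_K]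
      field_simp
      ring
    show s / t * ‖u‖ ^ 2 ≤ ⟪u, Nl u⟫
    rw [e, div_mul_eq_mul_div]
    gcongr
    linarith [real_inner_self_nonneg (F := E4) (x := L u)]
  · show ⟪Nl u, Nl v⟫ = ⟪L u, L v⟫
    rw [exp]
    simp [Nl, PiLp.inner_apply, Fin.sum_univ_two]
    field_simp
    linear_combination (u 0 * v 0 + u 1 * v 1) * hs2
      - (A * (u 0 * v 0) + B * (u 0 * v 1 + u 1 * v 0) + C * (u 1 * v 1)) * ht2

/-- An isometry of four-space matching two frames with the same products. -/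
theorem exists_isometry {V : Type*} [AddCommGroup V] [Module ℝ V] (P Q : V →ₗ[ℝ] E4)
    (hP : Injective P) (h : ∀ x y, ⟪Q x, Q y⟫ = ⟪P x, P y⟫) :
    ∃ A : E4 ≃ₗᵢ[ℝ] E4, ∀ x, A (P x) = Q x := by
  set e := LinearEquiv.ofInjective P hP
  let L : LinearMap.range P →ₗᵢ[ℝ] E4 := (Q.comp e.symm.toLinearMap).isometryOfInner fun x y => by
    obtain ⟨a, rfl⟩ := e.surjective x
    obtain ⟨b, rfl⟩ := e.surjective y
    simp only [LinearMap.coe_comp, LinearEquiv.coe_coe, comp_apply, LinearEquiv.symm_apply_apply]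
    rw [h]
    rfl
  refine ⟨L.extend.toLinearIsometryEquiv rfl, fun x => ?_⟩
  rw [LinearIsometry.toLinearIsometryEquiv_apply]
  calc L.extend (P x) = L.extend ((e x : LinearMap.range P) : E4) := rfl
    _ = L (e x) := L.extend_apply _
    _ = Q x := by simp [L]

/-- Projecting a small perturbation of an immersion into the sphere back to the sphere gives an
immersion. -/
theorem injective_normalize {u : E2 → E4} {w : E2} (hu : DifferentiableAt ℝ u w) {y : E4}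
    {Y : E2 →L[ℝ] E4} (hy : ‖y‖ = 1) (hperp : ∀ v, ⟪y, Y v⟫ = 0) {m η : ℝ}
    (hm : ∀ v, m * ‖v‖ ≤ ‖Y v‖) (hη0 : 0 ≤ η) (hη : 5 * η < m) (hη2 : η ≤ 1 / 2)
    (h0 : ‖u w - y‖ ≤ η) (h1 : ‖fderiv ℝ u w - Y‖ ≤ η) :
    u w ≠ 0 ∧ Injective (fderiv ℝ (fun z => ‖u z‖⁻¹ • u z) w) := by
  have hu0 : u w ≠ 0 := fun h => by
    rw [h, zero_sub, norm_neg, hy] at h0; linarith
  have hn : DifferentiableAt ℝ (fun z => ‖u z‖⁻¹) w := (hu.norm ℝ hu0).inv (norm_ne_zero_iff.2 hu0)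
  refine ⟨hu0, (injective_iff_map_eq_zero _).2 fun v hv => ?_⟩
  rw [fderiv_fun_smul hn hu] at hv
  simp only [add_apply, smul_apply, ContinuousLinearMap.smulRight_apply] at hv
  set c := -(‖u w‖ * fderiv ℝ (fun z => ‖u z‖⁻¹) w v) with hc
  have hDu : fderiv ℝ u w v = c • u w := by
    have := congrArg (fun q => ‖u w‖ • q) hv
    simp only [smul_add, smul_smul, mul_inv_cancel₀ (norm_ne_zero_iff.2 hu0), one_smul,
      smul_zero] at this
    rw [hc, neg_smul]
    exact eq_neg_of_add_eq_zero_left this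
  set d := u w - y with hd
  set e := fderiv ℝ u w v - Y v with he
  have hev : ‖e‖ ≤ η * ‖v‖ := by
    rw [he, ← sub_apply]
    exact ((fderiv ℝ u w - Y).le_opNorm v).trans (mul_le_mul_of_nonneg_right h1 (norm_nonneg v))
  have key : Y v = c • y + c • d - e := by
    rw [he, hd, hDu]; module
  have hi := hperp v
  rw [key, inner_sub_right, inner_add_right, real_inner_smul_right, real_inner_smul_right,
    real_inner_self_eq_norm_sq, hy] at hi
  have b1 : |⟪y, d⟫| ≤ η := (abs_real_inner_le_norm y d).trans (by rw [hy, one_mul]; exact h0)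
  have b2 : |⟪y, e⟫| ≤ η * ‖v‖ := (abs_real_inner_le_norm y e).trans (by rw [hy, one_mul]; exact hev)
  have hcd : |c * ⟪y, d⟫| ≤ |c| * η := by
    rw [abs_mul]; exact mul_le_mul_of_nonneg_left b1 (abs_nonneg c)
  have hcb : |c| ≤ 2 * η * ‖v‖ := by
    have e1 : c = ⟪y, e⟫ - c * ⟪y, d⟫ := by linarith
    have e2 := abs_sub ⟪y, e⟫ (c * ⟪y, d⟫)
    rw [← e1] at e2
    nlinarith [mul_le_mul_of_nonneg_left hη2 (abs_nonneg c)]
  have hY : ‖Y v‖ ≤ |c| + |c| * η + η * ‖v‖ := by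
    rw [key]
    have t1 := norm_sub_le (c • y + c • d) e
    have t2 := norm_add_le (c • y) (c • d)
    rw [norm_smul, norm_smul, hy, mul_one, Real.norm_eq_abs] at t2
    nlinarith [mul_le_mul_of_nonneg_left h0 (abs_nonneg c)]
  have := hm v
  have hv0 : ‖v‖ ≤ 0 := by
    by_contra hpos
    push Not at hpos
    nlinarith [mul_le_mul_of_nonneg_right hcb (add_nonneg zero_le_one hη0),
      mul_lt_mul_of_pos_right hη hpos, mul_nonneg hη0 (norm_nonneg v)]
  exact norm_le_zero_iff.1 hv0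

/-- A perturbation which vanishes to first order at the origin can be planted there by a small
change. -/
theorem exists_patch {h D : E2 → E4} (hs : ContDiff ℝ ∞ h) (hDs : ContDiff ℝ ∞ D) (hD0 : D 0 = 0)
    (hD1 : fderiv ℝ D 0 = 0) {W η m : ℝ} (hW : 0 < W) (hη : 0 < η) (hm : 0 < m)
    (hLb : ∀ v, 2 * m * ‖v‖ ≤ ‖fderiv ℝ h 0 v‖) :
    ∃ (ρ : ℝ) (u : E2 → E4), 0 < ρ ∧ ρ < W ∧ ContDiff ℝ ∞ u ∧ (∀ z, ρ ≤ ‖z‖ → u z = h z) ∧
      (∀ z, ‖z‖ ≤ ρ / 2 → u z = h z + D z) ∧ ∀ z, ‖z‖ ≤ ρ → ‖u z - h z‖ ≤ η ∧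
        ‖fderiv ℝ u z - fderiv ℝ h z‖ ≤ η ∧ ∀ v, m * ‖v‖ ≤ ‖fderiv ℝ h z v‖ := by
  have hd : Differentiable ℝ h := hs.differentiable (by simp)
  have hDd : Differentiable ℝ D := hDs.differentiable (by simp)
  let χ : ContDiffBump (0 : E2) := ⟨1 / 2, 1, by norm_num, by norm_num⟩
  obtain ⟨C, hC⟩ := (χ.hasCompactSupport.fderiv (𝕜 := ℝ)).exists_bound_of_continuous
    ((χ.contDiff (n := 1)).continuous_fderiv one_ne_zero)
  have hC0 : 0 ≤ C := (norm_nonneg _).trans (hC 0)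
  set ε := η / (C + 1) with hεdef
  have hε : 0 < ε := by positivity
  have hεη : ε * (C + 1) = η := div_mul_cancel₀ _ (by positivity)
  have cD : Continuous (fderiv ℝ D) := hDs.continuous_fderiv (by simp)
  have ch : Continuous (fderiv ℝ h) := hs.continuous_fderiv (by simp)
  obtain ⟨r₁, hr₁, hr₁D⟩ := Metric.continuousAt_iff.1 cD.continuousAt ε hε
  obtain ⟨r₂, hr₂, hr₂h⟩ := Metric.continuousAt_iff.1 ch.continuousAt m hm
  set ρ := min (min r₁ r₂) (min W 1) / 2 with hρdef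
  have hρ : 0 < ρ := by positivity
  have hρb : ρ < r₁ ∧ ρ < r₂ ∧ ρ < W ∧ ρ ≤ 1 := by
    have a1 := min_le_left (min r₁ r₂) (min W 1)
    have a2 := min_le_right (min r₁ r₂) (min W 1)
    have b1 := min_le_left r₁ r₂
    have b2 := min_le_right r₁ r₂
    have c1 := min_le_left W 1
    have c2 := min_le_right W 1
    exact ⟨by linarith, by linarith, by linarith, by linarith⟩
  have hDsmall : ∀ z, ‖z‖ ≤ ρ → ‖fderiv ℝ D z‖ ≤ ε := fun z hz => by
    have := hr₁D (show dist z 0 < r₁ by rw [dist_zero_right]; linarith [hρb.1])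
    rw [hD1, dist_zero_right] at this
    exact this.le
  have hDval : ∀ z, ‖z‖ ≤ ρ → ‖D z‖ ≤ ε * ‖z‖ := fun z hz => by
    have := (convex_closedBall (0 : E2) ρ).norm_image_sub_le_of_norm_fderiv_le (fun y _ => hDd y)
      (fun y hy => hDsmall y (mem_closedBall_zero_iff.1 hy)) (mem_closedBall_self hρ.le)
      (mem_closedBall_zero_iff.2 hz)
    simpa [hD0] using this
  have hhm : ∀ z, ‖z‖ ≤ ρ → ∀ v, m * ‖v‖ ≤ ‖fderiv ℝ h z v‖ := fun z hz v => by
    have h2 := hr₂h (show dist z 0 < r₂ by rw [dist_zero_right]; linarith [hρb.2.1])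
    rw [dist_eq_norm] at h2
    have h3 := (fderiv ℝ h z - fderiv ℝ h 0).le_opNorm v
    rw [sub_apply] at h3
    have h4 := norm_sub_norm_le (fderiv ℝ h 0 v) (fderiv ℝ h z v)
    rw [norm_sub_rev] at h4
    nlinarith [hLb v, mul_le_mul_of_nonneg_right h2.le (norm_nonneg v)]
  set u : E2 → E4 := fun z => h z + χ (ρ⁻¹ • z) • D z with hu
  have hχs : ContDiff ℝ ∞ fun z : E2 => χ (ρ⁻¹ • z) := χ.contDiff.comp (contDiff_id.const_smul _)
  have hus : ContDiff ℝ ∞ u := hs.add (hχs.smul hDs)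
  have hud : Differentiable ℝ u := hus.differentiable (by simp)
  have outer : ∀ z, ρ ≤ ‖z‖ → u z = h z := fun z hz => by
    have : χ (ρ⁻¹ • z) = 0 := χ.zero_of_le_dist (by
      rw [dist_zero_right, norm_smul, Real.norm_eq_abs, abs_of_pos (inv_pos.2 hρ),
        le_inv_mul_iff₀ hρ]
      simpa [χ] using hz)
    simp [hu, this]
  have inner' : ∀ z, ‖z‖ ≤ ρ / 2 → u z = h z + D z := fun z hz => by
    have : χ (ρ⁻¹ • z) = 1 := χ.one_of_mem_closedBall (by
      rw [mem_closedBall_zero_iff, norm_smul, Real.norm_eq_abs, abs_of_pos (inv_pos.2 hρ),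
        inv_mul_le_iff₀ hρ]
      simp [χ]; linarith)
    simp [hu, this]
  have near : ∀ z, ‖z‖ ≤ ρ → ‖u z - h z‖ ≤ η ∧ ‖fderiv ℝ u z - fderiv ℝ h z‖ ≤ η := fun z hz => by
    have hχ : |χ (ρ⁻¹ • z)| ≤ 1 := by rw [abs_of_nonneg χ.nonneg]; exact χ.le_one
    have hχd : HasFDerivAt (fun z : E2 => χ (ρ⁻¹ • z))
        ((fderiv ℝ χ (ρ⁻¹ • z)).comp (ρ⁻¹ • ContinuousLinearMap.id ℝ E2)) z :=
      ((χ.contDiff (n := 1)).differentiable one_ne_zero _).hasFDerivAt.comp z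
        ((hasFDerivAt_id z).const_smul ρ⁻¹)
    refine ⟨?_, ?_⟩
    · simp only [hu, add_sub_cancel_left, norm_smul, Real.norm_eq_abs]
      have := hDval z hz
      nlinarith [norm_nonneg (D z), mul_le_mul_of_nonneg_right hχ (norm_nonneg (D z)),
        mul_le_mul_of_nonneg_left (hz.trans hρb.2.2.2) hε.le, mul_nonneg hε.le hC0]
    · have hfd : HasFDerivAt u (fderiv ℝ h z + (χ (ρ⁻¹ • z) • fderiv ℝ D z +
          ((fderiv ℝ χ (ρ⁻¹ • z)).comp (ρ⁻¹ • ContinuousLinearMap.id ℝ E2)).smulRight (D z))) z :=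
        (hd z).hasFDerivAt.add (hχd.smul (hDd z).hasFDerivAt)
      rw [hfd.fderiv, add_sub_cancel_left]
      refine (norm_add_le _ _).trans ?_
      rw [norm_smul, ContinuousLinearMap.norm_smulRight_apply, Real.norm_eq_abs]
      have e1 : ‖(fderiv ℝ χ (ρ⁻¹ • z)).comp (ρ⁻¹ • ContinuousLinearMap.id ℝ E2)‖ ≤ C * ρ⁻¹ := by
        refine (ContinuousLinearMap.opNorm_comp_le _ _).trans
          (mul_le_mul (hC _) ?_ (norm_nonneg _) hC0)
        rw [norm_smul, Real.norm_eq_abs, abs_of_pos (inv_pos.2 hρ)]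
        exact mul_le_of_le_one_right (inv_pos.2 hρ).le ContinuousLinearMap.norm_id_le
      have e2 : ‖D z‖ ≤ ε * ρ := (hDval z hz).trans (mul_le_mul_of_nonneg_left hz hε.le)
      calc _ ≤ 1 * ε + C * ρ⁻¹ * (ε * ρ) := add_le_add
            (mul_le_mul hχ (hDsmall z hz) (norm_nonneg _) zero_le_one)
            (mul_le_mul e1 e2 (norm_nonneg _) (by positivity))
        _ = η := by rw [← hεη]; field_simp; ring
  exact ⟨ρ, u, hρ, hρb.2.2.1, hus, outer, inner', fun z hz =>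
    ⟨(near z hz).1, (near z hz).2, hhm z hz⟩⟩

/-- Planting the model at the centre of an immersed disc in the sphere. -/
theorem exists_blend (Φ : Model) {h : E2 → E4} {W : ℝ} (hW : 0 < W) (hs : ContDiff ℝ ∞ h)
    (h1 : ∀ w, ‖w‖ < W → ‖h w‖ = 1) (hi : ∀ w, ‖w‖ < W → Injective (fderiv ℝ h w)) :
    ∃ (A : E4 ≃ₗᵢ[ℝ] E4) (N : E2 →L[ℝ] E2) (n₀ ρ ρ₀ : ℝ) (h' : E2 → E4),
      0 < n₀ ∧ (∀ u, n₀ * ‖u‖ ^ 2 ≤ ⟪u, N u⟫) ∧ 0 < ρ₀ ∧ ρ₀ < ρ ∧ ρ < W ∧ ContDiff ℝ ∞ h' ∧
        (∀ w, ρ ≤ ‖w‖ → h' w = h w) ∧ (∀ w, ‖w‖ ≤ ρ₀ → h' w = A (Φ.ψ (N w))) ∧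
        ∀ w, ‖w‖ < W → ‖h' w‖ = 1 ∧ Injective (fderiv ℝ h' w) := by
  have hd : Differentiable ℝ h := hs.differentiable (by simp)
  have hnb : ∀ {w : E2}, ‖w‖ < W → ∀ᶠ z in 𝓝 w, ‖h z‖ = 1 := fun {w} hw => by
    filter_upwards [(continuous_norm (E := E2)).continuousAt.preimage_mem_nhds (Iio_mem_nhds hw)]
      with z hz using h1 z hz
  have h0W : ‖(0 : E2)‖ < W := by simpa using hW
  set L := fderiv ℝ h 0 with hLdef
  obtain ⟨N, n₀, hn₀, hNpos, hN⟩ := exists_root L (hi 0 h0W)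
  have hNinj : ∀ u, N u = 0 → u = 0 := fun u hu => by
    have := hNpos u
    rw [hu, inner_zero_right] at this
    have e : ‖u‖ ^ 2 = 0 := le_antisymm (by nlinarith) (sq_nonneg _)
    exact norm_eq_zero.1 ((pow_eq_zero_iff two_ne_zero).1 e)
  have hψd : Differentiable ℝ Φ.ψ := Φ.contDiff_ψ.differentiable (by simp)
  have hψp : ∀ u, ⟪Φ.ψ 0, fderiv ℝ Φ.ψ 0 u⟫ = 0 :=
    inner_fderiv_of_norm_one (hψd 0) (.of_forall Φ.norm_ψ)
  have hhp : ∀ u, ⟪h 0, L u⟫ = 0 := inner_fderiv_of_norm_one (hd 0) (hnb h0W)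
  set P : ℝ × E2 →ₗ[ℝ] E4 := (LinearMap.id.smulRight (Φ.ψ 0)).coprod
    ((fderiv ℝ Φ.ψ 0).comp N).toLinearMap with hPdef
  set Q : ℝ × E2 →ₗ[ℝ] E4 := (LinearMap.id.smulRight (h 0)).coprod L.toLinearMap with hQdef
  have hPx : ∀ x, P x = x.1 • Φ.ψ 0 + fderiv ℝ Φ.ψ 0 (N x.2) := fun x => rfl
  have hQx : ∀ x, Q x = x.1 • h 0 + L x.2 := fun x => rfl
  have hPi : ∀ x y : ℝ × E2, ⟪P x, P y⟫ = x.1 * y.1 + ⟪L x.2, L y.2⟫ := fun x y => by
    rw [hPx, hPx]
    simp only [inner_add_left, inner_add_right, real_inner_smul_left, real_inner_smul_right,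
      real_inner_self_eq_norm_sq, Φ.norm_ψ, hψp, Φ.inner_ψ, hN,
      real_inner_comm (Φ.ψ 0) (fderiv ℝ Φ.ψ 0 (N x.2))]
    ring
  obtain ⟨A, hA⟩ := exists_isometry P Q
    ((injective_iff_map_eq_zero _).2 fun x hx => by
      have := hPi x x
      rw [hx, inner_zero_left] at this
      have hN' : ⟪N x.2, N x.2⟫ = ⟪L x.2, L x.2⟫ := hN _ _
      have p1 := real_inner_self_nonneg (F := E4) (x := L x.2)
      have e1 : x.1 = 0 := by nlinarith [sq_nonneg x.1]
      have e2 : ⟪N x.2, N x.2⟫ = 0 := by nlinarith [sq_nonneg x.1]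
      exact Prod.ext e1 (hNinj _ (inner_self_eq_zero (𝕜 := ℝ).1 e2)))
    (fun x y => by
      rw [hPi, hQx, hQx]
      simp only [inner_add_left, inner_add_right, real_inner_smul_left, real_inner_smul_right,
        real_inner_self_eq_norm_sq, h1 0 h0W, hhp, real_inner_comm (h 0) (L x.2)]
      ring)
  set G : E2 → E4 := fun w => A (Φ.ψ (N w)) with hG
  have hGs : ContDiff ℝ ∞ G := A.contDiff.comp (Φ.contDiff_ψ.comp N.contDiff)
  set D : E2 → E4 := fun w => G w - h w with hD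
  have hDs : ContDiff ℝ ∞ D := hGs.sub hs
  have hDd : Differentiable ℝ D := hDs.differentiable (by simp)
  have hD0 : D 0 = 0 := by
    have := hA (1, 0)
    rw [hPx, hQx] at this
    simp at this
    simp [hD, hG, this]
  have hD1 : fderiv ℝ D 0 = 0 := by
    have hψ0 : HasFDerivAt Φ.ψ (fderiv ℝ Φ.ψ 0) (N 0) := by
      rw [map_zero]; exact (hψd 0).hasFDerivAt
    have hGd : HasFDerivAt G
        ((A.toContinuousLinearEquiv : E4 →L[ℝ] E4).comp ((fderiv ℝ Φ.ψ 0).comp N)) 0 :=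
      (A.toContinuousLinearEquiv : E4 →L[ℝ] E4).hasFDerivAt.comp 0
        (hψ0.comp 0 N.hasFDerivAt)
    have hDd : HasFDerivAt D _ 0 := hGd.sub (hd 0).hasFDerivAt
    rw [hDd.fderiv]
    ext1 u
    have := hA (0, u)
    rw [hPx, hQx] at this
    simp at this
    simp [this, hLdef]
  obtain ⟨m₀, hm₀⟩ := L.injective_iff_antilipschitz.1 (hi 0 h0W)
  set m := ((m₀ : ℝ))⁻¹ / 2 with hmdef
  have hm : 0 < m := by have := hm₀.1; positivity
  have hLb : ∀ v, 2 * m * ‖v‖ ≤ ‖L v‖ := fun v => by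
    have := hm₀.2.le_mul_dist v 0
    simp only [dist_zero_right, map_zero] at this
    have hp : (0 : ℝ) < m₀ := NNReal.coe_pos.2 hm₀.1
    rw [hmdef, show 2 * ((m₀ : ℝ)⁻¹ / 2) * ‖v‖ = (m₀ : ℝ)⁻¹ * ‖v‖ by ring]
    rw [inv_mul_le_iff₀ hp]
    exact this
  set η := min (m / 6) (1 / 2) with hηdef
  have hη : 0 < η := lt_min (by positivity) (by norm_num)
  obtain ⟨ρ, u, hρ, hρW, hus, outer, innr, near⟩ := exists_patch hs hDs hD0 hD1 hW hη hm hLb
  have hud : Differentiable ℝ u := hus.differentiable (by simp)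
  have inner' : ∀ z, ‖z‖ ≤ ρ / 2 → u z = G z := fun z hz => by
    rw [innr z hz, hD]; exact add_sub_cancel _ _
  have good : ∀ z, ‖z‖ ≤ ρ → u z ≠ 0 ∧ Injective (fderiv ℝ (fun q => ‖u q‖⁻¹ • u q) z) :=
    fun z hz => injective_normalize (hud z) (h1 z (by linarith [hρW]))
      (inner_fderiv_of_norm_one (hd z) (hnb (by linarith [hρW]))) (near z hz).2.2 hη.le
      (by linarith [min_le_left (m / 6) (1 / 2 : ℝ)]) (min_le_right _ _) (near z hz).1 (near z hz).2.1
  have une : ∀ z, ‖z‖ < W → u z ≠ 0 := fun z hz => by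
    rcases le_total ‖z‖ ρ with h' | h'
    · exact (good z h').1
    · rw [outer z h']; exact fun h0 => one_ne_zero ((h1 z hz).symm.trans (by rw [h0, norm_zero]))
  classical
  set h' : E2 → E4 := fun z => if ‖z‖ < W then ‖u z‖⁻¹ • u z else h z with hh'
  have out' : ∀ z, ρ ≤ ‖z‖ → h' z = h z := fun z hz => by
    simp only [hh']
    split_ifs with hc
    · rw [outer z hz, h1 z hc, inv_one, one_smul]
    · rfl
  have eIn : ∀ {z}, ‖z‖ < W → h' =ᶠ[𝓝 z] fun q => ‖u q‖⁻¹ • u q := fun {z} hz => by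
    filter_upwards [(continuous_norm (E := E2)).continuousAt.preimage_mem_nhds (Iio_mem_nhds hz)]
      with q hq
    simp [hh', show ‖q‖ < W from hq]
  have eOut : ∀ {z}, ρ < ‖z‖ → h' =ᶠ[𝓝 z] h := fun {z} hz => by
    filter_upwards [(continuous_norm (E := E2)).continuousAt.preimage_mem_nhds (Ioi_mem_nhds hz)]
      with q hq using out' q (le_of_lt hq)
  refine ⟨A, N, n₀, ρ, ρ / 2, h', hn₀, hNpos, by linarith, by linarith, hρW,
    contDiff_iff_contDiffAt.2 fun z => ?_, out', fun w hw => ?_, fun w hw => ⟨?_, ?_⟩⟩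
  · rcases lt_or_ge ‖z‖ W with hz | hz
    · exact ((hus.contDiffAt.norm ℝ (une z hz)).inv (norm_ne_zero_iff.2 (une z hz))
        |>.smul hus.contDiffAt).congr_of_eventuallyEq (eIn hz)
    · exact hs.contDiffAt.congr_of_eventuallyEq (eOut (by linarith [hρW]))
  · have hg : ‖G w‖ = 1 := by simp [hG, Φ.norm_ψ]
    simp [hh', show ‖w‖ < W by linarith [hρW], inner' w hw, hg]
    rfl
  · simp [hh', hw, norm_smul, une w hw]
  · rcases le_or_gt ‖w‖ ρ with hc | hc
    · rw [(eIn hw).fderiv_eq]; exact (good w hc).2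
    · rw [(eOut hc).fderiv_eq]; exact hi w hw

end

end Vale.Agent.P205.Holes
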