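import Mathlib

/-!
# P205 holes: the contraction of the zoomed plane

`exists_contract`: maps `K a` of the plane, the identity on a small disc and `a N` far away, with
positive symmetric part, differential of norm at most `1 + C a` everywhere and `O(a)` at zoomed
distances `≥ ρ / a`.
-/

namespace Vale.Agent.P205.Holes

open Set Filter Real
open scoped ContDiff Topology RealInnerProductSpace

noncomputable section

/-- The smooth step from `a` to `b`. -/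
def ramp (a b x : ℝ) : ℝ := smoothTransition ((x - a) / (b - a))

theorem contDiff_ramp (a b : ℝ) : ContDiff ℝ ∞ (ramp a b) :=
  smoothTransition.contDiff.comp ((contDiff_id.sub contDiff_const).div_const _)

theorem ramp_mem (a b x : ℝ) : 0 ≤ ramp a b x ∧ ramp a b x ≤ 1 :=
  ⟨smoothTransition.nonneg _, smoothTransition.le_one _⟩

variable {a b x : ℝ}

theorem ramp_zero (h : a < b) (hx : x ≤ a) : ramp a b x = 0 :=
  smoothTransition.zero_of_nonpos (div_nonpos_of_nonpos_of_nonneg (by linarith) (by linarith))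

theorem ramp_one (h : a < b) (hx : b ≤ x) : ramp a b x = 1 :=
  smoothTransition.one_of_one_le ((one_le_div (by linarith)).2 (by linarith))

theorem ramp_pos (h : a < b) (hx : a < x) : 0 < ramp a b x :=
  smoothTransition.pos_of_pos (div_pos (by linarith) (by linarith))

theorem ramp_lt_one (h : a < b) (hx : x < b) : ramp a b x < 1 :=
  smoothTransition.lt_one_of_lt_one ((div_lt_one (by linarith)).2 (by linarith))

theorem ramp_eq_zero_iff (h : a < b) : ramp a b x = 0 ↔ x ≤ a :=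
  ⟨fun h0 => not_lt.1 fun hx => (ramp_pos h hx).ne' h0, ramp_zero h⟩

/-- The slope of the smooth step. -/
def slope' : ℝ → ℝ := deriv smoothTransition

theorem slope'_eq_zero (hx : x ≤ 0 ∨ 1 ≤ x) : slope' x = 0 := by
  rcases hx with hx | hx
  · exact IsLocalMin.deriv_eq_zero (Eventually.of_forall fun y =>
      show smoothTransition x ≤ smoothTransition y by
        rw [smoothTransition.zero_of_nonpos hx]; exact smoothTransition.nonneg y)
  · exact IsLocalMax.deriv_eq_zero (Eventually.of_forall fun y =>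
      show smoothTransition y ≤ smoothTransition x by
        rw [smoothTransition.one_of_one_le hx]; exact smoothTransition.le_one y)

theorem slope'_nonneg (x : ℝ) : 0 ≤ slope' x := smoothTransition.monotone.deriv_nonneg

theorem exists_slope_bound : ∃ C, 0 ≤ C ∧ ∀ x, slope' x ≤ C := by
  have hc : Continuous slope' :=
    (smoothTransition.contDiff (n := ⊤)).continuous_deriv (by simp)
  obtain ⟨C, hC⟩ := isCompact_Icc.exists_bound_of_continuousOn
    (hc.continuousOn (s := Icc (0 : ℝ) 1))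
  refine ⟨|C|, abs_nonneg C, fun x => ?_⟩
  by_cases hx : x ∈ Icc (0 : ℝ) 1
  · exact ((le_abs_self _).trans (hC x hx)).trans (le_abs_self C)
  · rw [mem_Icc, not_and_or, not_le, not_le] at hx
    rw [slope'_eq_zero (hx.imp le_of_lt le_of_lt)]
    exact abs_nonneg C

theorem hasDerivAt_ramp (a b x : ℝ) :
    HasDerivAt (ramp a b) (slope' ((x - a) / (b - a)) / (b - a)) x := by
  have h := ((smoothTransition.contDiff (n := ⊤)).differentiable (by simp)
    ((x - a) / (b - a))).hasDerivAt.comp x (((hasDerivAt_id x).sub_const a).div_const (b - a))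
  convert h using 1
  all_goals first | rfl | simp [slope', div_eq_mul_inv]

/-- The slope of `ramp a b`. -/
def dRamp (a b x : ℝ) : ℝ := slope' ((x - a) / (b - a)) / (b - a)

theorem dRamp_nonneg (h : a < b) (x : ℝ) : 0 ≤ dRamp a b x :=
  div_nonneg (slope'_nonneg _) (by linarith)

theorem dRamp_eq_zero (h : a < b) (hx : x ≤ a ∨ b ≤ x) : dRamp a b x = 0 := by
  rw [dRamp, slope'_eq_zero, zero_div]
  exact hx.imp (fun hx => div_nonpos_of_nonpos_of_nonneg (by linarith) (by linarith))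
    fun hx => (one_le_div (by linarith)).2 (by linarith)

theorem dRamp_le (h : a < b) {C : ℝ} (hC : ∀ y, slope' y ≤ C) (x : ℝ) :
    dRamp a b x ≤ C / (b - a) := by
  unfold dRamp
  exact (div_le_div_iff_of_pos_right (by linarith)).2 (hC _)

/-- The radial factor: one up to `T`, then decreasing like `1 / √s`. -/
def damp (T a₀ s : ℝ) : ℝ := (√(1 + a₀ * s * ramp T (2 * T) s))⁻¹

/-- The radial factor with the far cut. -/
def radFac (T a₀ k s : ℝ) : ℝ := damp T a₀ s * (1 - ramp 1 4 (k * s))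

/-- The data of the radial factor. -/
structure RadData (T a₀ C : ℝ) : Prop where
  T_pos : 0 < T
  a_pos : 0 < a₀
  bound : ∀ y, slope' y ≤ C
  small : 4 * T * C * a₀ ≤ 1

section
variable {T a₀ C k s : ℝ}

theorem one_le_den (D : RadData T a₀ C) (s : ℝ) : 1 ≤ 1 + a₀ * s * ramp T (2 * T) s := by
  rcases le_or_gt s T with h | h
  · rw [ramp_zero (by linarith [D.T_pos]) h]; simp
  · have := (ramp_mem T (2 * T) s).1
    have := D.a_pos
    have : 0 < s := D.T_pos.trans h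
    nlinarith [mul_nonneg (mul_pos D.a_pos this).le (ramp_mem T (2 * T) s).1]

theorem contDiff_radFac (D : RadData T a₀ C) (k : ℝ) : ContDiff ℝ ∞ (radFac T a₀ k) := by
  have h : ∀ s, 0 < 1 + a₀ * s * ramp T (2 * T) s := fun s => by linarith [one_le_den D s]
  exact ((((contDiff_const.add ((contDiff_const.mul contDiff_id).mul (contDiff_ramp _ _))).sqrt
    fun s => (h s).ne').inv fun s => (sqrt_pos.2 (h s)).ne').mul
      (contDiff_const.sub ((contDiff_ramp 1 4).comp (contDiff_const.mul contDiff_id))))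

theorem damp_mem (D : RadData T a₀ C) (s : ℝ) : 0 < damp T a₀ s ∧ damp T a₀ s ≤ 1 := by
  have h := one_le_den D s
  refine ⟨inv_pos.2 (sqrt_pos.2 (by linarith)), inv_le_one_of_one_le₀ ?_⟩
  rw [one_le_sqrt]
  exact h

theorem sqrt_mul_damp_le (D : RadData T a₀ C) (hs : 0 ≤ s) :
    √s * damp T a₀ s ≤ √(2 * T + 1 / a₀) := by
  have h := one_le_den D s
  have h0 : 0 < 1 + a₀ * s * ramp T (2 * T) s := by linarith
  rw [damp, ← div_eq_mul_inv, ← sqrt_div' _ h0.le]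
  refine sqrt_le_sqrt ((div_le_iff₀ h0).2 ?_)
  have ha := D.a_pos
  have hT := D.T_pos
  rcases le_or_gt s (2 * T) with hs' | hs'
  · have : s ≤ 2 * T + 1 / a₀ := le_add_of_le_of_nonneg hs' (by positivity)
    nlinarith [show 0 ≤ 2 * T + 1 / a₀ by positivity]
  · rw [ramp_one (by linarith) hs'.le]
    have : 1 / a₀ * (a₀ * s) = s := by field_simp
    nlinarith [mul_nonneg hT.le (mul_nonneg ha.le hs), show 0 < 1 / a₀ by positivity]

/-- The derivative of the radial factor and its bounds. -/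
theorem radFac_deriv (D : RadData T a₀ C) (hk : 0 ≤ k) (hs : 0 ≤ s) :
    ∃ f' : ℝ, HasDerivAt (radFac T a₀ k) f' s ∧ f' ≤ 0 ∧
      (s ≤ T → k * s ≤ 1 → f' = 0 ∧ radFac T a₀ k s = 1) ∧
      -(4 * √(2 * T + 1 / a₀) * C * √k) ≤ radFac T a₀ k s + 2 * s * f' := by
  have hT2 : T < 2 * T := by linarith [D.T_pos]
  set r := ramp T (2 * T) s
  set r' := dRamp T (2 * T) s
  set u := √(1 + a₀ * s * r) with hu
  have hden := one_le_den D s
  have hu1 : 1 ≤ u := one_le_sqrt.2 hden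
  have hu2 : u ^ 2 = 1 + a₀ * s * r := sq_sqrt (by linarith)
  set h' := a₀ * r + a₀ * s * r'
  have hh : HasDerivAt (fun t => 1 + a₀ * t * ramp T (2 * T) t) h' s := by
    have := ((((hasDerivAt_id s).const_mul a₀).mul (hasDerivAt_ramp T (2 * T) s))).const_add 1
    simpa [h', r', dRamp] using this
  set d' := -(h' / (2 * u)) / u ^ 2
  have hd : HasDerivAt (damp T a₀) d' s :=
    (hh.sqrt (by linarith : (0 : ℝ) ≠ 1 + a₀ * s * r).symm).inv (by positivity)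
  set θ := 1 - ramp 1 4 (k * s)
  set θ' := -(k * dRamp 1 4 (k * s))
  have hθ : HasDerivAt (fun t => 1 - ramp 1 4 (k * t)) θ' s := by
    have := ((hasDerivAt_ramp 1 4 (k * s)).comp s ((hasDerivAt_id s).const_mul k)).const_sub 1
    simpa [θ', dRamp, Function.comp_def, mul_comm] using this
  have hr' := dRamp_nonneg hT2 s
  have hr := (ramp_mem T (2 * T) s).1
  have hh' : 0 ≤ h' := by
    have := D.a_pos.le
    positivity
  have hd0 : d' ≤ 0 := div_nonpos_of_nonpos_of_nonneg (neg_nonpos.2 (by positivity)) (sq_nonneg _)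
  have hθ0 : 0 ≤ θ := by linarith [(ramp_mem 1 4 (k * s)).2]
  have hθ'0 : θ' ≤ 0 := neg_nonpos.2 (mul_nonneg hk (dRamp_nonneg (by norm_num) _))
  obtain ⟨hdp, hd1⟩ := damp_mem D s
  refine ⟨d' * θ + damp T a₀ s * θ', hd.mul hθ, ?_, fun h1 h2 => ?_, ?_⟩
  · exact add_nonpos (mul_nonpos_of_nonpos_of_nonneg hd0 hθ0)
      (mul_nonpos_of_nonneg_of_nonpos hdp.le hθ'0)
  · have e1 : r = 0 := ramp_zero hT2 h1
    have e2 : r' = 0 := dRamp_eq_zero hT2 (Or.inl h1)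
    refine ⟨?_, ?_⟩
    · simp [d', h', θ', e1, e2, dRamp_eq_zero (by norm_num : (1 : ℝ) < 4) (Or.inl h2)]
    · simp [radFac, damp, ramp_zero hT2 h1, ramp_zero (by norm_num : (1 : ℝ) < 4) h2]
  · have hs' : a₀ * s ^ 2 * r' ≤ 1 := by
      rcases le_or_gt (2 * T) s with h | h
      · rw [show r' = 0 from dRamp_eq_zero hT2 (Or.inr h)]; simp
      · have h1 : r' ≤ C / T := by
          have := dRamp_le hT2 D.bound s
          rwa [show 2 * T - T = T by ring] at this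
        have h2 : s ^ 2 ≤ 4 * T ^ 2 := by nlinarith [D.T_pos]
        calc a₀ * s ^ 2 * r' ≤ a₀ * (4 * T ^ 2) * (C / T) :=
              mul_le_mul (mul_le_mul_of_nonneg_left h2 D.a_pos.le) h1 hr'
                (mul_nonneg D.a_pos.le (by positivity))
          _ = 4 * T * C * a₀ := by field_simp [D.T_pos.ne']
          _ ≤ 1 := D.small
    have hmain : 0 ≤ damp T a₀ s + 2 * s * d' := by
      have : damp T a₀ s + 2 * s * d' = (u ^ 2 - s * h') / u ^ 3 := by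
        simp only [damp, d']
        field_simp
        ring
      rw [this]
      refine div_nonneg ?_ (by positivity)
      simp only [h', hu2]
      nlinarith
    have hcut : damp T a₀ s * (-θ') * (2 * s) ≤ 4 * √(2 * T + 1 / a₀) * C * √k := by
      have hC : 0 ≤ C := (slope'_nonneg 0).trans (D.bound 0)
      simp only [θ', neg_neg]
      rcases le_or_gt 4 (k * s) with h | h
      · rw [dRamp_eq_zero (by norm_num) (Or.inr h)]
        simp only [mul_zero, zero_mul]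
        positivity
      · have h1 : dRamp 1 4 (k * s) ≤ C := (dRamp_le (by norm_num) D.bound _).trans
          (div_le_self hC (by norm_num))
        have h2 : √s * √k ≤ 2 := by
          rw [← sqrt_mul hs, show (2 : ℝ) = √4 by
            rw [show (4 : ℝ) = 2 ^ 2 by norm_num, sqrt_sq (by norm_num)]]
          exact sqrt_le_sqrt (by linarith)
        calc damp T a₀ s * (k * dRamp 1 4 (k * s)) * (2 * s)
            = 2 * (√s * damp T a₀ s) * (√s * √k) * √k * dRamp 1 4 (k * s) := by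
              linear_combination (-(2 * damp T a₀ s * dRamp 1 4 (k * s))) *
                ((√k * √k) * (mul_self_sqrt hs) + s * mul_self_sqrt hk)
          _ ≤ 2 * √(2 * T + 1 / a₀) * 2 * √k * C := by
              refine mul_le_mul (mul_le_mul_of_nonneg_right (mul_le_mul
                (mul_le_mul_of_nonneg_left (sqrt_mul_damp_le D hs) (by norm_num)) h2
                (by positivity) (by positivity)) (sqrt_nonneg _)) h1
                (dRamp_nonneg (by norm_num) _) (by positivity)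
          _ = _ := by ring
    show _ ≤ damp T a₀ s * θ + _
    nlinarith [mul_nonneg hmain hθ0]

end

/-- The plane. -/
abbrev P2 := EuclideanSpace ℝ (Fin 2)

/-- A radial stretching. -/
theorem norm_radial_le {f b e : ℝ} (hf : 0 ≤ f) (hb : 0 ≤ b) (he : 0 ≤ e) (z u : P2)
    (h : b * ‖z‖ ^ 2 ≤ f + e) :
    ‖f • u - (b * ⟪z, u⟫) • z‖ ≤ (f + e) * ‖u‖ ∧
      -(e * ‖u‖ ^ 2) ≤ ⟪u, f • u - (b * ⟪z, u⟫) • z⟫ := by
  have hp : ⟪z, u⟫ ^ 2 ≤ ‖z‖ ^ 2 * ‖u‖ ^ 2 := by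
    have := abs_real_inner_le_norm z u
    calc ⟪z, u⟫ ^ 2 = |⟪z, u⟫| ^ 2 := (sq_abs _).symm
      _ ≤ (‖z‖ * ‖u‖) ^ 2 := pow_le_pow_left₀ (abs_nonneg _) this 2
      _ = _ := by ring
  have hbp : b * ⟪z, u⟫ ^ 2 ≤ (f + e) * ‖u‖ ^ 2 :=
    calc b * ⟪z, u⟫ ^ 2 ≤ b * (‖z‖ ^ 2 * ‖u‖ ^ 2) := mul_le_mul_of_nonneg_left hp hb
      _ = b * ‖z‖ ^ 2 * ‖u‖ ^ 2 := by ring
      _ ≤ _ := mul_le_mul_of_nonneg_right h (sq_nonneg _)
  have hin : ⟪u, f • u - (b * ⟪z, u⟫) • z⟫ = f * ‖u‖ ^ 2 - b * ⟪z, u⟫ ^ 2 := by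
    rw [inner_sub_right, inner_smul_right, inner_smul_right, real_inner_self_eq_norm_sq,
      real_inner_comm z u]
    ring
  refine ⟨?_, by rw [hin]; nlinarith⟩
  refine (pow_le_pow_iff_left₀ (norm_nonneg _) (by positivity) two_ne_zero).1 ?_
  have hn : ‖f • u - (b * ⟪z, u⟫) • z‖ ^ 2
      = f ^ 2 * ‖u‖ ^ 2 + b * ⟪z, u⟫ ^ 2 * (b * ‖z‖ ^ 2 - 2 * f) := by
    rw [norm_sub_sq_real, norm_smul, norm_smul, inner_smul_left, inner_smul_right,
      real_inner_comm z u, Real.norm_eq_abs, Real.norm_eq_abs, mul_pow, mul_pow, sq_abs, sq_abs]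
    simp only [conj_trivial]
    ring
  rw [hn]
  have h0 : 0 ≤ b * ⟪z, u⟫ ^ 2 := by positivity
  have h1 : b * ⟪z, u⟫ ^ 2 * (b * ‖z‖ ^ 2 - 2 * f) ≤ b * ⟪z, u⟫ ^ 2 * e :=
    mul_le_mul_of_nonneg_left (by linarith) h0
  have h2 := mul_le_mul_of_nonneg_right hbp he
  nlinarith [mul_nonneg (mul_nonneg hf he) (sq_nonneg ‖u‖)]

/-- The contraction. -/
def contr (R a₀ σ : ℝ) (N : P2 →L[ℝ] P2) (a : ℝ) (z : P2) : P2 :=
  ramp (R ^ 2) (4 * R ^ 2) (‖z‖ ^ 2) • a • N z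
    + radFac (4 * R ^ 2) a₀ (a ^ 2 / σ ^ 2) (‖z‖ ^ 2) • z

theorem fderiv_contr {R a₀ C σ : ℝ} (N : P2 →L[ℝ] P2) (D : RadData (4 * R ^ 2) a₀ C) (a : ℝ)
    (z u : P2) {f' : ℝ}
    (hf : HasDerivAt (radFac (4 * R ^ 2) a₀ (a ^ 2 / σ ^ 2)) f' (‖z‖ ^ 2)) :
    fderiv ℝ (contr R a₀ σ N a) z u
      = ramp (R ^ 2) (4 * R ^ 2) (‖z‖ ^ 2) • a • N u
        + (2 * dRamp (R ^ 2) (4 * R ^ 2) (‖z‖ ^ 2) * ⟪z, u⟫) • a • N z
        + (radFac (4 * R ^ 2) a₀ (a ^ 2 / σ ^ 2) (‖z‖ ^ 2) • u + (2 * f' * ⟪z, u⟫) • z) := by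
  have _h := D.T_pos
  have hs := (hasStrictFDerivAt_norm_sq z).hasFDerivAt
  have h1 := (hasDerivAt_ramp (R ^ 2) (4 * R ^ 2) (‖z‖ ^ 2)).comp_hasFDerivAt z hs
  have h2 := hf.comp_hasFDerivAt z hs
  have hNa : HasFDerivAt (fun y => a • N y) (a • N) z := (a • N).hasFDerivAt
  have h := (h1.smul hNa).add (h2.smul (hasFDerivAt_id z))
  have h' : HasFDerivAt (contr R a₀ σ N a) _ z := h
  rw [h'.fderiv]
  simp [dRamp, innerSL_apply_apply, smul_smul]
  ring_nf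

/-- The differential of the contraction near the hole. -/
theorem contr_near {R a₀ S σ n₀ : ℝ} (N : P2 →L[ℝ] P2) (D : RadData (4 * R ^ 2) a₀ S) {a : ℝ}
    (hR : 0 < R) (hn : 0 < n₀) (hN : ∀ u, n₀ * ‖u‖ ^ 2 ≤ ⟪u, N u⟫) (ha : 0 < a)
    (haD : a * (‖N‖ * (1 + 3 * S) + n₀) ≤ 1) {z : P2} (hz : ‖z‖ ^ 2 ≤ 4 * R ^ 2)
    (hk : a ^ 2 / σ ^ 2 * ‖z‖ ^ 2 ≤ 1) (u : P2) :
    a * n₀ / 2 * ‖u‖ ^ 2 ≤ ⟪u, fderiv ℝ (contr R a₀ σ N a) z u⟫ ∧
      ‖fderiv ℝ (contr R a₀ σ N a) z u‖ ≤ (1 + ‖N‖ * (1 + 3 * S) * a) * ‖u‖ := by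
  have hR2 : R ^ 2 < 4 * R ^ 2 := by nlinarith
  obtain ⟨f', hf', -, hone, -⟩ := radFac_deriv D (k := a ^ 2 / σ ^ 2) (by positivity)
    (sq_nonneg ‖z‖)
  obtain ⟨e0, e1⟩ := hone hz hk
  rw [fderiv_contr N D a z u hf', e0, e1]
  simp only [one_smul, mul_zero, zero_mul, zero_smul, add_zero]
  set r := ramp (R ^ 2) (4 * R ^ 2) (‖z‖ ^ 2)
  set d := dRamp (R ^ 2) (4 * R ^ 2) (‖z‖ ^ 2)
  obtain ⟨hr0, hr1⟩ : 0 ≤ r ∧ r ≤ 1 := ramp_mem _ _ _
  have hS : 0 ≤ S := (slope'_nonneg 0).trans (D.bound 0)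
  have hd : d * (3 * R ^ 2) ≤ S := by
    rw [← le_div_iff₀ (by positivity)]
    have := dRamp_le hR2 D.bound (‖z‖ ^ 2)
    rwa [show 4 * R ^ 2 - R ^ 2 = 3 * R ^ 2 by ring] at this
  have hd0 : 0 ≤ d := dRamp_nonneg hR2 _
  have hq : ‖(2 * d * ⟪z, u⟫) • a • N z‖ ≤ a * ‖N‖ * (3 * S) * ‖u‖ := by
    rw [norm_smul, norm_smul, Real.norm_eq_abs, Real.norm_eq_abs, abs_of_pos ha, abs_mul,
      abs_of_nonneg (by positivity : (0 : ℝ) ≤ 2 * d)]
    have h1 : 2 * d * |⟪z, u⟫| * (a * ‖N z‖) ≤ 2 * d * (‖z‖ * ‖u‖) * (a * (‖N‖ * ‖z‖)) :=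
      mul_le_mul (mul_le_mul_of_nonneg_left (abs_real_inner_le_norm z u) (by positivity))
        (mul_le_mul_of_nonneg_left (N.le_opNorm z) ha.le) (by positivity) (by positivity)
    have h2 : 2 * d * ‖z‖ ^ 2 ≤ 3 * S := by
      have := mul_le_mul_of_nonneg_left hz (mul_nonneg (zero_le_two (α := ℝ)) hd0)
      linarith
    refine h1.trans (le_trans (le_of_eq ?_) (mul_le_mul_of_nonneg_right
      (mul_le_mul_of_nonneg_left h2 (mul_nonneg ha.le (norm_nonneg N))) (norm_nonneg u)))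
    ring
  constructor
  · have h2 : 0 ≤ ⟪u, r • a • N u⟫ := by
      rw [inner_smul_right, inner_smul_right]
      exact mul_nonneg hr0 (mul_nonneg ha.le ((mul_nonneg hn.le (sq_nonneg _)).trans (hN u)))
    have h3 := (abs_le.1 ((abs_real_inner_le_norm u _).trans
      (mul_le_mul_of_nonneg_left hq (norm_nonneg u)))).1
    have h4 : a * (‖N‖ * (3 * S) + n₀ / 2) ≤ 1 := by
      refine le_trans (mul_le_mul_of_nonneg_left ?_ ha.le) haD
      nlinarith [norm_nonneg N]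
    rw [inner_add_right, inner_add_right, real_inner_self_eq_norm_sq]
    nlinarith [mul_le_mul_of_nonneg_right h4 (sq_nonneg ‖u‖)]
  · have h1 : ‖r • a • N u‖ ≤ a * ‖N‖ * ‖u‖ := by
      rw [norm_smul, norm_smul, Real.norm_eq_abs, Real.norm_eq_abs, abs_of_pos ha,
        abs_of_nonneg hr0, mul_assoc a]
      exact (mul_le_of_le_one_left (mul_nonneg ha.le (norm_nonneg _)) hr1).trans
        (mul_le_mul_of_nonneg_left (N.le_opNorm u) ha.le)
    refine (norm_add₃_le).trans ((add_le_add (add_le_add h1 hq) le_rfl).trans (le_of_eq ?_))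
    ring

/-- The differential of the contraction away from the hole. -/
theorem contr_far {R a₀ S σ n₀ : ℝ} (N : P2 →L[ℝ] P2) (D : RadData (4 * R ^ 2) a₀ S) {a : ℝ}
    (hR : 0 < R) (hn : 0 < n₀) (hN : ∀ u, n₀ * ‖u‖ ^ 2 ≤ ⟪u, N u⟫) (ha : 0 < a)
    (he : 4 * √(2 * (4 * R ^ 2) + 1 / a₀) * S * √(a ^ 2 / σ ^ 2) ≤ a * n₀ / 2)
    {z : P2} (hz : 4 * R ^ 2 < ‖z‖ ^ 2) (u : P2) :
    a * n₀ / 2 * ‖u‖ ^ 2 ≤ ⟪u, fderiv ℝ (contr R a₀ σ N a) z u⟫ ∧
      ‖fderiv ℝ (contr R a₀ σ N a) z u‖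
        ≤ (a * ‖N‖ + (radFac (4 * R ^ 2) a₀ (a ^ 2 / σ ^ 2) (‖z‖ ^ 2) + a * n₀ / 2)) * ‖u‖ := by
  have hR2 : R ^ 2 < 4 * R ^ 2 := by nlinarith
  obtain ⟨f', hf', hf0, -, hlow⟩ := radFac_deriv D (k := a ^ 2 / σ ^ 2) (by positivity)
    (sq_nonneg ‖z‖)
  rw [fderiv_contr N D a z u hf', ramp_one hR2 hz.le, dRamp_eq_zero hR2 (Or.inr hz.le)]
  simp only [one_smul, mul_zero, zero_mul, zero_smul, add_zero]
  set f := radFac (4 * R ^ 2) a₀ (a ^ 2 / σ ^ 2) (‖z‖ ^ 2)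
  have hf : 0 ≤ f := mul_nonneg (damp_mem D _).1.le (by
    linarith [(ramp_mem 1 4 (a ^ 2 / σ ^ 2 * ‖z‖ ^ 2)).2])
  have hb : f • u + (2 * f' * ⟪z, u⟫) • z = f • u - (-(2 * f') * ⟪z, u⟫) • z := by
    rw [neg_mul, neg_smul, sub_neg_eq_add]
  obtain ⟨hn1, hn2⟩ := norm_radial_le (f := f) (b := -(2 * f')) (e := a * n₀ / 2) hf
    (by linarith) (by positivity) z u (by linarith)
  rw [hb]
  constructor
  · rw [inner_add_right, inner_smul_right]
    nlinarith [mul_le_mul_of_nonneg_left (hN u) ha.le]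
  · refine (norm_add_le _ _).trans ?_
    rw [norm_smul, Real.norm_eq_abs, abs_of_pos ha, add_mul, mul_assoc]
    exact add_le_add (mul_le_mul_of_nonneg_left (N.le_opNorm u) ha.le) hn1

/-- The contraction family. -/
theorem exists_contract (N : P2 →L[ℝ] P2) {n₀ σ : ℝ} (hn : 0 < n₀) (hσ : 0 < σ)
    (hN : ∀ u, n₀ * ‖u‖ ^ 2 ≤ ⟪u, N u⟫) :
    ∃ R₀ > (0 : ℝ), ∀ R, 0 < R → R ≤ R₀ → ∃ K : ℝ → P2 → P2, (∀ a, ContDiff ℝ ∞ (K a)) ∧
      ∃ C, 0 ≤ C ∧ ∀ᶠ a in 𝓝[>] (0 : ℝ),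
        (∀ z, ‖z‖ ≤ R → K a z = z) ∧ (∀ z, 2 * σ ≤ a * ‖z‖ → K a z = a • N z) ∧
        (∀ z u, a * n₀ / 2 * ‖u‖ ^ 2 ≤ ⟪u, fderiv ℝ (K a) z u⟫) ∧
        (∀ z u, ‖fderiv ℝ (K a) z u‖ ≤ (1 + C * a) * ‖u‖) ∧
        ∀ ρ, 0 < ρ → ∀ z, ρ ≤ a * ‖z‖ → ∀ u,
          ‖fderiv ℝ (K a) z u‖ ≤ C * (1 + 1 / ρ) * a * ‖u‖ := by
  obtain ⟨S, hS0, hS⟩ := exists_slope_bound
  set Q := √(6 + 4 * S)
  have hQ : 0 < Q := sqrt_pos.2 (by positivity)
  refine ⟨n₀ * σ / (16 * Q * (S + 1)), by positivity, fun R hR hR0 => ?_⟩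
  set a₀ := 1 / (4 * (4 * R ^ 2) * (S + 1)) with ha₀
  have D : RadData (4 * R ^ 2) a₀ S :=
    ⟨by positivity, by positivity, hS, by
      rw [ha₀, mul_one_div, div_le_one (by positivity)]; nlinarith⟩
  have hL : √(2 * (4 * R ^ 2) + 1 / a₀) = 2 * R * Q := by
    rw [ha₀, one_div_one_div, show 2 * (4 * R ^ 2) + 4 * (4 * R ^ 2) * (S + 1)
      = (2 * R) ^ 2 * (6 + 4 * S) by ring, sqrt_mul (by positivity), sqrt_sq (by positivity)]
  set Dn := ‖N‖ * (1 + 3 * S)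
  have hDn : 0 ≤ Dn := by positivity
  have hND : ‖N‖ ≤ Dn := le_mul_of_one_le_right (norm_nonneg N) (by linarith)
  set C := Dn + n₀ + 2 * R * Q + 2 * R + 1 with hC
  refine ⟨contr R a₀ σ N, fun a => ?_, C, by positivity, ?_⟩
  · have hs : ContDiff ℝ ∞ fun z : P2 => ‖z‖ ^ 2 := contDiff_id.norm_sq ℝ
    exact (((contDiff_ramp _ _).comp hs).smul (N.contDiff.const_smul a)).add
      (((contDiff_radFac D _).comp hs).smul contDiff_id)
  have hev : ∀ᶠ a in 𝓝[>] (0 : ℝ),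
      0 < a ∧ a * (2 * R) ≤ σ ∧ a * (Dn + n₀) ≤ 1 := by
    have h : ∀ c : ℝ, ∀ d : ℝ, 0 < d → ∀ᶠ a in 𝓝[>] (0 : ℝ), a * c ≤ d := fun c d hd =>
      ((((continuous_id.mul continuous_const).tendsto' (0 : ℝ) 0 (by simp)).eventually
        (ge_mem_nhds hd)).filter_mono nhdsWithin_le_nhds)
    filter_upwards [self_mem_nhdsWithin, h (2 * R) σ hσ, h (Dn + n₀) 1 one_pos]
      with a h1 h2 h3 using ⟨h1, h2, h3⟩
  filter_upwards [hev] with a ⟨ha, haR, haD⟩
  set k := a ^ 2 / σ ^ 2 with hkdef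
  have hk : 0 ≤ k := by positivity
  have he : 4 * √(2 * (4 * R ^ 2) + 1 / a₀) * S * √k ≤ a * n₀ / 2 := by
    rw [hL, hkdef, ← div_pow, sqrt_sq (by positivity)]
    have h1 : 8 * R * Q * S ≤ n₀ * σ / 2 := by
      rw [le_div_iff₀ (by positivity)] at hR0
      nlinarith [mul_pos hR hQ]
    calc 4 * (2 * R * Q) * S * (a / σ) = 8 * R * Q * S * a / σ := by ring
      _ ≤ n₀ * σ / 2 * a / σ := by gcongr
      _ = a * n₀ / 2 := by field_simp
  have hkT : ∀ z : P2, ‖z‖ ^ 2 ≤ 4 * R ^ 2 → k * ‖z‖ ^ 2 ≤ 1 := fun z hz => by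
    calc k * ‖z‖ ^ 2 ≤ k * (4 * R ^ 2) := mul_le_mul_of_nonneg_left hz hk
      _ = (a * (2 * R)) ^ 2 / σ ^ 2 := by rw [hkdef]; ring
      _ ≤ 1 := (div_le_one (by positivity)).2 (pow_le_pow_left₀ (by positivity) haR 2)
  have hnear := fun z (h : ‖z‖ ^ 2 ≤ 4 * R ^ 2) u =>
    contr_near N D hR hn hN ha haD h (hkT z h) u
  have hfar := fun z (h : 4 * R ^ 2 < ‖z‖ ^ 2) u => contr_far N D hR hn hN ha he h u
  have hR2 : R ^ 2 < 4 * R ^ 2 := by nlinarith
  refine ⟨fun z hz => ?_, fun z hz => ?_, fun z u => ?_, fun z u => ?_, fun ρ hρ z hz u => ?_⟩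
  · have h1 : ‖z‖ ^ 2 ≤ R ^ 2 := pow_le_pow_left₀ (norm_nonneg z) hz 2
    obtain ⟨f', -, -, hone, -⟩ := radFac_deriv D hk (sq_nonneg ‖z‖)
    have hT' : ‖z‖ ^ 2 ≤ 4 * R ^ 2 := by linarith
    rw [contr, ramp_zero hR2 h1, (hone hT' (hkT z hT')).2]
    simp
  · have h1 : 2 * R ≤ ‖z‖ := le_of_mul_le_mul_left (by linarith : a * (2 * R) ≤ a * ‖z‖) ha
    have h2 : 4 * R ^ 2 ≤ ‖z‖ ^ 2 := by
      have := pow_le_pow_left₀ (by positivity) h1 2
      linarith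
    have h4 : 4 ≤ k * ‖z‖ ^ 2 := by
      rw [show k * ‖z‖ ^ 2 = (a * ‖z‖) ^ 2 / σ ^ 2 by rw [hkdef]; ring,
        le_div_iff₀ (by positivity)]
      have := pow_le_pow_left₀ (by positivity) hz 2
      linarith
    rw [contr, ramp_one hR2 h2, radFac, ramp_one (by norm_num) h4]
    simp
  · rcases le_or_gt (‖z‖ ^ 2) (4 * R ^ 2) with h | h
    · exact (hnear z h u).1
    · exact (hfar z h u).1
  · rcases le_or_gt (‖z‖ ^ 2) (4 * R ^ 2) with h | h
    · refine (hnear z h u).2.trans (mul_le_mul_of_nonneg_right ?_ (norm_nonneg u))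
      have : Dn ≤ C := by linarith [mul_nonneg (mul_nonneg (zero_le_two (α := ℝ)) hR.le) hQ.le]
      linarith [mul_le_mul_of_nonneg_right this ha.le]
    · refine (hfar z h u).2.trans (mul_le_mul_of_nonneg_right ?_ (norm_nonneg u))
      have h1 : radFac (4 * R ^ 2) a₀ k (‖z‖ ^ 2) ≤ 1 := by
        obtain ⟨h1, h2⟩ := damp_mem D (‖z‖ ^ 2)
        obtain ⟨h3, h4⟩ := ramp_mem 1 4 (k * ‖z‖ ^ 2)
        exact mul_le_one₀ h2 (by linarith) (by linarith)
      have h2 : ‖N‖ + n₀ / 2 ≤ C := by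
        linarith [mul_nonneg (mul_nonneg (zero_le_two (α := ℝ)) hR.le) hQ.le]
      linarith [mul_le_mul_of_nonneg_right h2 ha.le]
  · have hRQ : 0 ≤ 2 * R * Q := by positivity
    have hi : 0 ≤ a * (1 / ρ) := by positivity
    have e0 : C * (1 + 1 / ρ) * a = C * a + C * (a * (1 / ρ)) := by ring
    rcases le_or_gt (‖z‖ ^ 2) (4 * R ^ 2) with h | h
    · refine (hnear z h u).2.trans (mul_le_mul_of_nonneg_right ?_ (norm_nonneg u))
      have hz2 : ‖z‖ ≤ 2 * R := abs_le_of_sq_le_sq' (by linarith) (by positivity) |>.2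
      have h1 : 1 ≤ 2 * R * (a * (1 / ρ)) := by
        rw [show 2 * R * (a * (1 / ρ)) = a * (2 * R) / ρ by ring, one_le_div hρ]
        exact hz.trans (mul_le_mul_of_nonneg_left hz2 ha.le)
      have h2 := mul_le_mul_of_nonneg_right (show 2 * R ≤ C by linarith) hi
      have h3 := mul_le_mul_of_nonneg_right (show Dn ≤ C by linarith) ha.le
      rw [e0]; linarith
    · refine (hfar z h u).2.trans (mul_le_mul_of_nonneg_right ?_ (norm_nonneg u))
      have hf : radFac (4 * R ^ 2) a₀ k (‖z‖ ^ 2) ≤ 2 * R * Q * (a * (1 / ρ)) := by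
        have h1 : ‖z‖ * damp (4 * R ^ 2) a₀ (‖z‖ ^ 2) ≤ 2 * R * Q := by
          rw [← hL]
          simpa [sqrt_sq (norm_nonneg z)] using sqrt_mul_damp_le D (sq_nonneg ‖z‖)
        obtain ⟨h2, -⟩ := damp_mem D (‖z‖ ^ 2)
        obtain ⟨h3, h4⟩ := ramp_mem 1 4 (k * ‖z‖ ^ 2)
        have h5 : radFac (4 * R ^ 2) a₀ k (‖z‖ ^ 2) ≤ damp (4 * R ^ 2) a₀ (‖z‖ ^ 2) :=
          mul_le_of_le_one_right h2.le (by linarith)
        refine h5.trans ?_
        rw [show 2 * R * Q * (a * (1 / ρ)) = 2 * R * Q * a / ρ by ring, le_div_iff₀ hρ]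
        calc damp (4 * R ^ 2) a₀ (‖z‖ ^ 2) * ρ
            ≤ damp (4 * R ^ 2) a₀ (‖z‖ ^ 2) * (a * ‖z‖) := mul_le_mul_of_nonneg_left hz h2.le
          _ = ‖z‖ * damp (4 * R ^ 2) a₀ (‖z‖ ^ 2) * a := by ring
          _ ≤ _ := mul_le_mul_of_nonneg_right h1 ha.le
      have h2 := mul_le_mul_of_nonneg_right (show 2 * R * Q ≤ C by linarith) hi
      have h3 := mul_le_mul_of_nonneg_right (show ‖N‖ + n₀ / 2 ≤ C by linarith) ha.le
      rw [e0]; linarith

end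

end Vale.Agent.P205.Holes
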