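import Vale.Agent.P205.Full.Algebra.Jets

/-!
# P205: flat Hopf pieces over horizontal curves and their closure criterion

For a horizontal unit-speed curve `G` in the unit three-sphere, the map sending (x, y) to e^{iy} G x is flat and
isometric.  With `k` the curvature of `G` the multiplier `detChain 0 1` is
`± 2 (4 + k²)² (2 k k'² - (4 + k²) k'')`, so it is nonzero somewhere unless `k` is constant.
-/

namespace Vale.Agent.P205.Holes

open scoped ContDiff RealInnerProductSpace
open Vale.Agent.P205.Algebra Real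

attribute [local simp] inner_neg_left inner_neg_right
attribute [-simp] inner_self_eq_norm_sq_to_K

noncomputable section

/-- Multiplication by `i` on `ℂ² = ℝ⁴`, as a linear map. -/
def Jlin : V4 →ₗ[ℝ] V4 where
  toFun x := !₂[-x 1, x 0, -x 3, x 2]
  map_add' x y := by ext i; fin_cases i <;> simp <;> ring
  map_smul' c x := by ext i; fin_cases i <;> simp

/-- Multiplication by `i` on `ℂ² = ℝ⁴`. -/
def J : V4 →L[ℝ] V4 := LinearMap.toContinuousLinearMap Jlin

lemma J_apply (x : V4) : J x = !₂[-x 1, x 0, -x 3, x 2] := rfl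

lemma J_J (x : V4) : J (J x) = -x := by
  ext i; fin_cases i <;> simp [J_apply]

lemma inner_J_J (x y : V4) : ⟪J x, J y⟫ = ⟪x, y⟫ := by
  simp [J_apply, PiLp.inner_apply, Fin.sum_univ_four]; ring

lemma inner_J_left (x y : V4) : ⟪J x, y⟫ = -⟪x, J y⟫ := by
  simp [J_apply, PiLp.inner_apply, Fin.sum_univ_four]; ring

lemma inner_J_self (x : V4) : ⟪x, J x⟫ = 0 := by
  have h := inner_J_left x x
  rw [real_inner_comm] at h
  linarith

lemma cross4_neg_J (u w : V4) :
    cross4 u (-J w) w = -(⟪w, w⟫ • J u - ⟪u, w⟫ • J w + ⟪u, J w⟫ • w) := by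
  ext i
  fin_cases i <;> simp [cross4, J_apply, PiLp.inner_apply, Fin.sum_univ_four] <;> ring

/-- Rotation by `e^{it}`. -/
def rot (t : ℝ) (v : V4) : V4 := cos t • v + sin t • J v

lemma J_rot (t : ℝ) (v : V4) : J (rot t v) = rot t (J v) := by simp [rot]

lemma inner_rot (t : ℝ) (v w : V4) : ⟪rot t v, rot t w⟫ = ⟪v, w⟫ := by
  simp only [rot, inner_add_left, inner_add_right, real_inner_smul_left, real_inner_smul_right,
    inner_J_left, J_J, inner_neg_right]
  linear_combination ⟪v, w⟫ * sin_sq_add_cos_sq t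

lemma rot_neg (t : ℝ) (v : V4) : rot t (-v) = -rot t v := by simp [rot, add_comm]

/-- The piece over a curve. -/
def rotc (H : ℝ → V4) (p : R2) : V4 := rot p.2 (H p.1)

lemma hasFDerivAt_rotc {H : ℝ → V4} {p : R2} {H' : V4} (h : HasDerivAt H H' p.1) :
    HasFDerivAt (rotc H) ((ContinuousLinearMap.fst ℝ ℝ ℝ).smulRight (rot p.2 H')
      + (ContinuousLinearMap.snd ℝ ℝ ℝ).smulRight (rot p.2 (J (H p.1)))) p := by
  have hH : HasFDerivAt (fun q : R2 => H q.1)
      ((ContinuousLinearMap.fst ℝ ℝ ℝ).smulRight H') p :=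
    (h.hasFDerivAt.comp p (hasFDerivAt_fst (𝕜 := ℝ) (E := ℝ) (F := ℝ) (p := p))).congr_fderiv
      (by ext <;> simp)
  have hc := (hasDerivAt_cos p.2).comp_hasFDerivAt p
    (hasFDerivAt_snd (𝕜 := ℝ) (E := ℝ) (F := ℝ) (p := p))
  have hs := (hasDerivAt_sin p.2).comp_hasFDerivAt p
    (hasFDerivAt_snd (𝕜 := ℝ) (E := ℝ) (F := ℝ) (p := p))
  refine ((hc.smul hH).add (hs.smul (J.hasFDerivAt.comp p hH))).congr_fderiv ?_
  refine ContinuousLinearMap.ext fun v => ?_
  simp [rot, J_J, smul_smul, smul_add, mul_comm]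
  abel

lemma dx_rotc {H : ℝ → V4} (h : Differentiable ℝ H) : dx (rotc H) = rotc (deriv H) := by
  funext p
  simp [dx, (hasFDerivAt_rotc (h p.1).hasDerivAt).fderiv, rotc]

lemma dy_rotc {H : ℝ → V4} (h : Differentiable ℝ H) : dy (rotc H) = rotc fun x => J (H x) := by
  funext p
  simp [dy, (hasFDerivAt_rotc (h p.1).hasDerivAt).fderiv, rotc]

lemma dx_fst {U : Type*} [NormedAddCommGroup U] [NormedSpace ℝ U] {h : ℝ → U}
    (hh : Differentiable ℝ h) : dx (fun p : R2 => h p.1) = fun p => deriv h p.1 := by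
  funext p
  simp [dx, ((hh p.1).hasDerivAt.hasFDerivAt.comp p
    (hasFDerivAt_fst (𝕜 := ℝ) (E := ℝ) (F := ℝ) (p := p))).fderiv,
    show (fun q : R2 => h q.1) = h ∘ Prod.fst from rfl]

lemma dy_fst {U : Type*} [NormedAddCommGroup U] [NormedSpace ℝ U] {h : ℝ → U}
    (hh : Differentiable ℝ h) : dy (fun p : R2 => h p.1) = fun _ => 0 := by
  funext p
  simp [dy, ((hh p.1).hasDerivAt.hasFDerivAt.comp p
    (hasFDerivAt_fst (𝕜 := ℝ) (E := ℝ) (F := ℝ) (p := p))).fderiv,
    show (fun q : R2 => h q.1) = h ∘ Prod.fst from rfl]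

/-- A horizontal unit-speed curve in the unit sphere. -/
structure Horiz where
  /-- the curve -/
  G : ℝ → V4
  smooth : ContDiff ℝ ∞ G
  unit : ∀ x, ⟪G x, G x⟫ = 1
  horiz : ∀ x, ⟪deriv G x, J (G x)⟫ = 0
  speed : ∀ x, ⟪deriv G x, deriv G x⟫ = 1

namespace Horiz

variable (C : Horiz)

/-- The flat piece. -/
def map : R2 → V4 := rotc C.G

/-- The curvature. -/
def curv (x : ℝ) : ℝ := ⟪deriv (deriv C.G) x, J (deriv C.G x)⟫

lemma smooth1 : ContDiff ℝ ∞ (deriv C.G) := (contDiff_infty_iff_deriv.1 C.smooth).2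

lemma smooth2 : ContDiff ℝ ∞ (deriv (deriv C.G)) := (contDiff_infty_iff_deriv.1 C.smooth1).2

lemma smooth_curv : ContDiff ℝ ∞ C.curv := C.smooth2.inner ℝ (J.contDiff.comp C.smooth1)

lemma diffG : Differentiable ℝ C.G := C.smooth.differentiable (by simp)

lemma diffG1 : Differentiable ℝ (deriv C.G) := C.smooth1.differentiable (by simp)

lemma G1_G (x : ℝ) : ⟪deriv C.G x, C.G x⟫ = 0 := by
  have h := ((C.diffG x).hasDerivAt.inner ℝ (C.diffG x).hasDerivAt).unique
    ((hasDerivAt_const x (1 : ℝ)).congr_of_eventuallyEq (.of_forall C.unit))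
  rw [real_inner_comm] at h
  linarith [real_inner_comm (C.G x) (deriv C.G x)]

lemma acc_G (x : ℝ) : ⟪deriv (deriv C.G) x, C.G x⟫ = -1 := by
  have h := ((C.diffG1 x).hasDerivAt.inner ℝ (C.diffG x).hasDerivAt).unique
    ((hasDerivAt_const x (0 : ℝ)).congr_of_eventuallyEq (.of_forall C.G1_G))
  linarith [C.speed x]

lemma acc_G1 (x : ℝ) : ⟪deriv (deriv C.G) x, deriv C.G x⟫ = 0 := by
  have h := ((C.diffG1 x).hasDerivAt.inner ℝ (C.diffG1 x).hasDerivAt).unique
    ((hasDerivAt_const x (1 : ℝ)).congr_of_eventuallyEq (.of_forall C.speed))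
  rw [real_inner_comm] at h
  linarith

lemma acc_JG (x : ℝ) : ⟪deriv (deriv C.G) x, J (C.G x)⟫ = 0 := by
  have h := ((C.diffG1 x).hasDerivAt.inner ℝ
    (J.hasFDerivAt.comp_hasDerivAt x (C.diffG x).hasDerivAt)).unique
    ((hasDerivAt_const x (0 : ℝ)).congr_of_eventuallyEq (.of_forall C.horiz))
  simpa [inner_J_self] using h

lemma contDiff_map : ContDiff ℝ ∞ C.map := by
  have h := C.smooth.comp (contDiff_fst (𝕜 := ℝ) (E := ℝ) (F := ℝ))
  exact ((contDiff_cos.comp contDiff_snd).smul h).add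
    ((contDiff_sin.comp contDiff_snd).smul (J.contDiff.comp h))

lemma norm_map (p : R2) : ‖C.map p‖ = 1 := by
  have h : ‖C.map p‖ ^ 2 = 1 := by
    rw [← real_inner_self_eq_norm_sq, map, rotc, inner_rot, C.unit]
  nlinarith [norm_nonneg (C.map p)]

lemma inner_map (p v w : R2) :
    ⟪fderiv ℝ C.map p v, fderiv ℝ C.map p w⟫ = v.1 * w.1 + v.2 * w.2 := by
  rw [map, (hasFDerivAt_rotc (C.diffG p.1).hasDerivAt).fderiv]
  simp [inner_add_left, inner_add_right, real_inner_smul_left, real_inner_smul_right, inner_rot,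
    inner_J_J, C.speed, C.horiz, C.unit, real_inner_comm (deriv C.G p.1) (J (C.G p.1))]
  ring

lemma dx_map : dx C.map = rotc (deriv C.G) := dx_rotc C.diffG
lemma dy_map : dy C.map = rotc fun x => J (C.G x) := dy_rotc C.diffG
lemma F11_map : F11 C.map = rotc (deriv (deriv C.G)) := by
  funext p; rw [F11, dx_map, dx_rotc C.diffG1]
lemma F12_map : F12 C.map = rotc fun x => J (deriv C.G x) := by
  funext p; rw [F12, dx_map, dy_rotc C.diffG1]
lemma F22_map : F22 C.map = rotc fun x => -C.G x := by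
  funext p
  rw [F22, dy_map, dy_rotc (H := fun x => J (C.G x)) (J.differentiable.comp C.diffG)]
  simp [rotc, J_J]

lemma detg_map : detg C.map = fun _ => 1 := by
  funext p
  simp [detg, g11, g12, g22, dx_map, dy_map, rotc, inner_rot, inner_J_J, C.speed, C.horiz, C.unit]

lemma v1_map : v1 (fun _ => 1) C.map = rotc (deriv C.G) := by
  funext p
  simp [v1, rinv, detg_map, g22, g12, dx_map, dy_map, rotc, inner_rot, inner_J_J, C.horiz, C.unit]

lemma v2_map : v2 (fun _ => 1) C.map = rotc fun x => J (C.G x) := by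
  funext p
  simp [v2, rinv, detg_map, g11, g12, dx_map, dy_map, rotc, inner_rot, C.horiz, C.speed]

lemma n0_map : n0 (fun _ => 1) C.map = rotc fun x => -C.G x := by
  funext p
  simp [n0, F22_map, dx_map, dy_map, v1_map, v2_map, rotc, inner_rot, inner_neg_left,
    real_inner_comm (deriv C.G p.1) (C.G p.1), C.G1_G, inner_J_self]

lemma iW_map : iW (fun _ => 1) C.map = fun _ => 1 := by
  funext p
  simp [iW, rinv, Wsq, n0_map, rotc, inner_rot, C.unit]

lemma n1_map : n1 (fun _ => 1) C.map = rotc fun x => -J (deriv C.G x) := by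
  funext p
  have e : rot p.2 (J (C.G p.1)) = -J (-rot p.2 (C.G p.1)) := by simp [J_rot]
  simp only [n1, n0_map, dx_map, dy_map, rotc, rot_neg]
  rw [e, cross4_neg_J]
  simp [J_rot, inner_rot, C.unit, C.G1_G, C.horiz]

lemma ca_map : ca (fun _ => 1) C.map = fun _ => -1 := by
  funext p
  simp [ca, F11_map, n0_map, iW_map, rotc, inner_rot, C.acc_G]

lemma cb_map : cb (fun _ => 1) C.map = fun _ => 0 := by
  funext p
  simp [cb, F12_map, n0_map, iW_map, rotc, inner_rot, inner_J_left, C.horiz]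

lemma cc_map : cc (fun _ => 1) C.map = fun p => (-C.curv p.1, -2) := by
  funext p
  simp [cc, cP, cR, F11_map, F12_map, n1_map, iW_map, rotc, inner_rot, curv, inner_J_J, C.speed]

lemma G_map :
    G111 (fun _ => 1) C.map = (fun _ => 0) ∧ G112 (fun _ => 1) C.map = (fun _ => 0) ∧
    G122 (fun _ => 1) C.map = (fun _ => 0) ∧
    G211 (fun _ => 1) C.map = (fun _ => 0) ∧ G212 (fun _ => 1) C.map = (fun _ => 0) ∧
    G222 (fun _ => 1) C.map = (fun _ => 0) := by
  refine ⟨?_, ?_, ?_, ?_, ?_, ?_⟩ <;> funext p <;>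
    simp [G111, G112, G122, G211, G212, G222, F11_map, F12_map, F22_map, v1_map, v2_map, rotc,
      inner_rot, inner_J_J, inner_J_self, C.acc_G1, C.acc_JG, C.G1_G,
      real_inner_comm (deriv C.G p.1) (C.G p.1),
      real_inner_comm (deriv C.G p.1) (J (deriv C.G p.1))]

lemma mulN_map (u : R2 → R2) : mulN (fun _ => 1) C.map u = 0 := by
  obtain ⟨a, b, c, d, e, f⟩ := C.G_map
  funext p
  simp [mulN, N1, N2, a, b, c, d, e, f, ca_map, cb_map, dy]

lemma dyN_map : dy (N1 (fun _ => 1) C.map) = 0 ∧ dy (N2 (fun _ => 1) C.map) = 0 := by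
  obtain ⟨a, b, c, d, e, f⟩ := C.G_map
  have h1 : N1 (fun _ => 1) C.map = fun _ => 0 := by
    funext p; simp [N1, a, b, c, cb_map, ca_map]
  have h2 : N2 (fun _ => 1) C.map = fun _ => 0 := by
    funext p; simp [N2, d, e, f, cb_map, ca_map, dy]
  constructor <;> funext p <;> simp [h1, h2, dy]

lemma mulM_map (u : R2 → R2) : mulM (fun _ => 1) C.map u = fun p => ((u p).2, -(u p).1) := by
  funext p
  simp [mulM, ca_map, cb_map]

/-- `k₁` as a function of the parameter. -/
def K1 (x : ℝ) : ℝ := -(4 + C.curv x ^ 2)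

lemma diff_curv : Differentiable ℝ C.curv := C.smooth_curv.differentiable (by simp)

lemma diff_curv' : Differentiable ℝ (deriv C.curv) :=
  ((contDiff_infty_iff_deriv.1 C.smooth_curv).2).differentiable (by simp)

lemma cc_dy : dy (cc (fun _ => 1) C.map) = fun _ => 0 := by
  rw [cc_map]
  exact dy_fst (h := fun x => (-C.curv x, (-2 : ℝ))) (C.diff_curv.neg.prodMk (differentiable_const _))

lemma rowX_u : (rowX (fun _ => 1) C.map).u = fun p => (-deriv C.curv p.1, 0) := by
  funext p
  simp only [rowX, mulN_map, Pi.zero_apply, add_zero, cc_map]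
  rw [dx_fst (h := fun x => (-C.curv x, (-2 : ℝ))) (C.diff_curv.neg.prodMk (differentiable_const _))]
  exact ((C.diff_curv p.1).hasDerivAt.neg.prodMk (hasDerivAt_const _ _)).deriv

lemma rowX_v : (rowX (fun _ => 1) C.map).v = fun p => (-2, C.curv p.1) := by
  funext p
  simp [rowX, mulM_map, cc_map]

lemma perp_map : perp (fun _ => 1) C.map = fun p => (2, -C.curv p.1) := by
  funext p
  have h := congrFun C.cc_map p
  simp only [cc, Prod.mk.injEq] at h
  simp [Algebra.perp, h.1, h.2]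

lemma k1_map : k1 (fun _ => 1) C.map = fun p => C.K1 p.1 := by
  funext p
  simp [k1, perp_map, cc_map, det2, K1]
  ring

lemma k2_map : k2 (fun _ => 1) C.map = fun _ => 0 := by
  funext p
  simp [k2, perp_map, cc_map, det2, mulM_map]
  ring

lemma norm1_u : (norm1 (fun _ => 1) C.map (rowX (fun _ => 1) C.map)).u
    = fun p => (-(C.K1 p.1 * deriv C.curv p.1), 0) := by
  funext p
  simp [norm1, cc_dy, k1_map, rowX_u]

lemma norm1_v : (norm1 (fun _ => 1) C.map (rowX (fun _ => 1) C.map)).v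
    = fun p => (-2 * C.K1 p.1, C.K1 p.1 * C.curv p.1) := by
  funext p
  simp [norm1, k1_map, rowX_v, perp_map, det2, cc_map]
  constructor <;> ring

lemma hasDerivAt_K1 (x : ℝ) : HasDerivAt C.K1 (-(2 * C.curv x * deriv C.curv x)) x :=
  (((C.diff_curv x).hasDerivAt.pow 2).const_add 4).neg.congr_deriv (by ring)

lemma detChain_map (x : ℝ) : detChain (fun _ => 1) C.map 0 1 (x, 0) ^ 2 =
    (2 * (4 + C.curv x ^ 2) ^ 2 * (2 * C.curv x * deriv C.curv x ^ 2
      - (4 + C.curv x ^ 2) * deriv (deriv C.curv) x)) ^ 2 := by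
  have hq : HasDerivAt (fun x => (-(C.K1 x * deriv C.curv x), (0 : ℝ)))
      (-(-(2 * C.curv x * deriv C.curv x) * deriv C.curv x + C.K1 x * deriv (deriv C.curv) x), 0)
      x :=
    ((C.hasDerivAt_K1 x).mul (C.diff_curv' x).hasDerivAt).neg.prodMk (hasDerivAt_const _ _)
  have hv : HasDerivAt (fun x => (-2 * C.K1 x, C.K1 x * C.curv x))
      (-2 * -(2 * C.curv x * deriv C.curv x),
        -(2 * C.curv x * deriv C.curv x) * C.curv x + C.K1 x * deriv C.curv x) x :=
    ((C.hasDerivAt_K1 x).const_mul (-2)).prodMk ((C.hasDerivAt_K1 x).mul (C.diff_curv x).hasDerivAt)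
  have hK : Differentiable ℝ C.K1 := fun x => (C.hasDerivAt_K1 x).differentiableAt
  have du := congrFun (dx_fst (h := fun x => (-(C.K1 x * deriv C.curv x), (0 : ℝ)))
    ((hK.mul C.diff_curv').neg.prodMk (differentiable_const _))) ((x, 0) : R2)
  have dv := congrFun (dx_fst (h := fun x => (-2 * C.K1 x, C.K1 x * C.curv x))
    ((hK.const_mul _).prodMk (hK.mul C.diff_curv))) ((x, 0) : R2)
  simp only [hq.deriv, hv.deriv] at du dv
  have dc : dy (fun p : R2 => (-C.curv p.1, (-2 : ℝ))) = fun _ => 0 :=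
    dy_fst (h := fun x => (-C.curv x, (-2 : ℝ))) (C.diff_curv.neg.prodMk (differentiable_const _))
  have dz : ∀ q, dy (fun _ : R2 => (0 : R2)) q = 0 := fun q => by simp [dy]
  simp only [detChain, det4, chain, next, rowC, rowY, cc_map, k1_map, k2_map, dXu, dXv,
    mulN_map, mulM_map, C.dyN_map.1, C.dyN_map.2, ca_map, cb_map, rowX_u, rowX_v, norm1_u, norm1_v,
    du, dv, dc, dz, perp_map, det2]
  simp [Matrix.det_succ_row_zero, Fin.sum_univ_succ, Fin.succAbove, dy, K1]
  ring

lemma exists_curv_ne (h : ∃ s t, C.curv s ≠ C.curv t) : ∃ x, 2 * C.curv x * deriv C.curv x ^ 2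
    - (4 + C.curv x ^ 2) * deriv (deriv C.curv) x ≠ 0 := by
  by_contra hc
  push Not at hc
  set q := fun x => deriv C.curv x / (4 + C.curv x ^ 2) with hqdef
  have pos : ∀ x, (0 : ℝ) < 4 + C.curv x ^ 2 := fun x => by positivity
  have hq : ∀ x, HasDerivAt q 0 x := fun x =>
    ((C.diff_curv' x).hasDerivAt.div (((C.diff_curv x).hasDerivAt.pow 2).const_add 4)
      (pos x).ne').congr_deriv (by
        rw [div_eq_zero_iff]; left; simp only [Pi.pow_apply]; linear_combination (-1 : ℝ) * hc x)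
  have qc : ∀ x, q x = q 0 := fun x => is_const_of_deriv_eq_zero (fun y => (hq y).differentiableAt)
    (fun y => (hq y).deriv) x 0
  have ha : ∀ x, HasDerivAt (fun x => arctan (C.curv x / 2)) (2 * q 0) x := fun x => by
    refine (((C.diff_curv x).hasDerivAt.div_const 2).arctan).congr_deriv ?_
    rw [← qc x, hqdef]
    have := (pos x).ne'
    field_simp
    ring
  have lin : ∀ x, arctan (C.curv x / 2) - 2 * q 0 * x = arctan (C.curv 0 / 2) := fun x => by
    have hd : ∀ y, HasDerivAt (fun y => arctan (C.curv y / 2) - 2 * q 0 * y) 0 y := fun y =>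
      ((ha y).sub ((hasDerivAt_id y).const_mul (2 * q 0))).congr_deriv (by simp)
    simpa using is_const_of_deriv_eq_zero (fun y => (hd y).differentiableAt)
      (fun y => (hd y).deriv) x 0
  have q0 : q 0 = 0 := by
    by_contra hne
    have e := lin (π / q 0)
    have := arctan_lt_pi_div_two (C.curv (π / q 0) / 2)
    have := neg_pi_div_two_lt_arctan (C.curv 0 / 2)
    rw [show 2 * q 0 * (π / q 0) = 2 * π by field_simp] at e
    linarith [pi_pos]
  obtain ⟨s, t, hst⟩ := h
  refine hst (is_const_of_deriv_eq_zero C.diff_curv (fun x => ?_) s t)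
  have := (qc x).trans q0
  simpa [hqdef, (pos x).ne'] using this

/-- The curve moved along itself. -/
def shift (s : ℝ) : Horiz where
  G x := C.G (x + s)
  smooth := C.smooth.comp (contDiff_id.add contDiff_const)
  unit x := C.unit _
  horiz x := by rw [deriv_comp_add_const]; exact C.horiz _
  speed x := by rw [deriv_comp_add_const]; exact C.speed _

lemma shift_curv (s : ℝ) : (C.shift s).curv = fun x => C.curv (x + s) := by
  funext x
  have e : deriv (C.shift s).G = fun x => deriv C.G (x + s) :=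
    funext fun y => deriv_comp_add_const C.G s y
  simp [curv, e, deriv_comp_add_const]

theorem exists_good (h : ∃ s t, C.curv s ≠ C.curv t) : ∃ D : Horiz,
    detg D.map 0 ≠ 0 ∧ Wsq (fun _ => 1) D.map 0 ≠ 0 ∧ criterion (fun _ => 1) D.map 0 ≠ 0 := by
  obtain ⟨s, hs⟩ := C.exists_curv_ne h
  refine ⟨C.shift s, by simp [detg_map], by simp [Wsq, n0_map, rotc, inner_rot, (C.shift s).unit],
    fun e => ?_⟩
  simp only [criterion] at e
  have n1' : ∀ k j, 0 ≤ detChain (fun _ => 1) (C.shift s).map j k (0 : R2) ^ 2 := fun k j => sq_nonneg _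
  have z := (add_eq_zero_iff_of_nonneg (sq_nonneg _)
    (Finset.sum_nonneg fun k _ => Finset.sum_nonneg fun j _ => n1' k j)).1 e
  have z1 := (Finset.sum_eq_zero_iff_of_nonneg fun k _ => Finset.sum_nonneg fun j _ => n1' k j).1
    z.2 1 (by simp)
  have z2 := (Finset.sum_eq_zero_iff_of_nonneg fun j _ => n1' 1 j).1 z1 0 (by simp)
  rw [show (0 : R2) = (0, 0) from rfl, detChain_map, shift_curv] at z2
  rw [show deriv (fun x => C.curv (x + s)) = fun x => deriv C.curv (x + s) from
    funext fun y => deriv_comp_add_const C.curv s y, deriv_comp_add_const] at z2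
  simp only [zero_add] at z2
  have : (0 : ℝ) < 2 * (4 + C.curv s ^ 2) ^ 2 := by positivity
  exact mul_ne_zero this.ne' hs (pow_eq_zero_iff (n := 2) two_ne_zero |>.1 z2)

end Horiz

end

end Vale.Agent.P205.Holes
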