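import Vale.Agent.P205.Full.Interface
import Vale.Agent.P205.Full.Round1.JetFn
import Vale.Agent.P205.Full.Bridge.Exact

/-!
# P205 holes: exact realisation of a small change of a fixed good metric on a disc

`model_correction`: near a base parameter every member of a smooth family of changes, supported in a
fixed small disc and vanishing at the base parameter, is realised exactly by a small correction
supported in that disc.
-/

namespace Vale.Agent.P205.Holes

open Set Filter Metric Function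
open scoped ContDiff Topology RealInnerProductSpace
open Vale.Agent.P205 Vale.Agent.P205.Full Vale.Agent.P205.Algebra Vale.Agent.P205.Correction

noncomputable section

section Family

variable {P X U : Type*} [NormedAddCommGroup P] [NormedSpace ℝ P] [NormedAddCommGroup X]
  [NormedSpace ℝ X] [NormedAddCommGroup U] [NormedSpace ℝ U] {u : P × X → U}

theorem continuous_iteratedFDeriv_snd (hu : ContDiff ℝ ∞ u) (i : ℕ) :
    Continuous fun q : P × X => iteratedFDeriv ℝ i (fun z => u (q.1, z)) q.2 := by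
  have e : ∀ q : P × X, iteratedFDeriv ℝ i (fun z => u (q.1, z)) q.2
      = (iteratedFDeriv ℝ i u q).compContinuousLinearMap
        fun _ => ContinuousLinearMap.inr ℝ P X := by
    intro q
    have hs : (fun z => u (q.1, z))
        = (fun w => u ((q.1, (0 : X)) + w)) ∘ ContinuousLinearMap.inr ℝ P X := by
      funext z; simp
    have hc : ContDiff ℝ ∞ fun w => u ((q.1, (0 : X)) + w) :=
      hu.comp (contDiff_const.add contDiff_id)
    rw [hs, (ContinuousLinearMap.inr ℝ P X).iteratedFDeriv_comp_right hc q.2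
      (by exact_mod_cast le_top), iteratedFDeriv_comp_add_left]
    simp
  simp only [e]
  exact (ContinuousMultilinearMap.compContinuousLinearMapL
    fun _ : Fin i => ContinuousLinearMap.inr ℝ P X).continuous.comp
      (hu.continuous_iteratedFDeriv (by exact_mod_cast le_top))

variable {K : Set X}

omit [NormedAddCommGroup P] [NormedSpace ℝ P] in
theorem iteratedFDeriv_off (hK : IsClosed K) (h0 : ∀ p z, z ∉ K → u (p, z) = 0) (i : ℕ) (p : P)
    {z : X} (hz : z ∉ K) : iteratedFDeriv ℝ i (fun z => u (p, z)) z = 0 := by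
  have he : (fun z => u (p, z)) =ᶠ[𝓝 z] 0 :=
    eventually_of_mem (hK.isOpen_compl.mem_nhds hz) fun w hw => h0 p w hw
  rw [(he.iteratedFDeriv ℝ i).eq_of_nhds]
  simp

theorem family_bound (hu : ContDiff ℝ ∞ u) (hK : IsCompact K)
    (h0 : ∀ p z, z ∉ K → u (p, z) = 0) {B : Set P} (hB : IsCompact B) (i : ℕ) :
    ∃ C : ℝ, 0 ≤ C ∧ ∀ p ∈ B, ∀ z, ‖iteratedFDeriv ℝ i (fun z => u (p, z)) z‖ ≤ C := by
  obtain ⟨C, hC⟩ := (hB.prod hK).exists_bound_of_continuousOn
    (continuous_iteratedFDeriv_snd hu i).continuousOn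
  refine ⟨|C|, abs_nonneg C, fun p hp z => ?_⟩
  by_cases hz : z ∈ K
  · exact (hC (p, z) ⟨hp, hz⟩).trans (le_abs_self C)
  · rw [iteratedFDeriv_off hK.isClosed h0 i p hz, norm_zero]; exact abs_nonneg C

theorem family_small (hu : ContDiff ℝ ∞ u) (hK : IsCompact K)
    (h0 : ∀ p z, z ∉ K → u (p, z) = 0) {p₀ : P} (hp₀ : ∀ z, u (p₀, z) = 0) (i : ℕ) {δ : ℝ}
    (hδ : 0 < δ) :
    ∀ᶠ p in 𝓝 p₀, ∀ z, ‖iteratedFDeriv ℝ i (fun z => u (p, z)) z‖ ≤ δ := by
  have h := hK.eventually_forall_of_forall_eventually (x₀ := p₀)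
    (P := fun p z => ‖iteratedFDeriv ℝ i (fun z => u (p, z)) z‖ ≤ δ) fun z _ => by
      refine (continuous_iteratedFDeriv_snd hu i).norm.continuousAt.eventually (ge_mem_nhds ?_)
      show ‖iteratedFDeriv ℝ i (fun z => u (p₀, z)) z‖ < δ
      rw [show (fun z => u (p₀, z)) = 0 from funext hp₀]
      simpa using hδ
  filter_upwards [h] with p hp z
  by_cases hz : z ∈ K
  · exact hp z hz
  · rw [iteratedFDeriv_off hK.isClosed h0 i p hz, norm_zero]; exact hδ.le

end Family

open Bridge in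
/-- On a cell a small change of the metric of a fixed nondegenerate map is realised exactly. -/
theorem cell_exact {P : Type*} [NormedAddCommGroup P] [NormedSpace ℝ P] [ProperSpace P]
    {N K : Set R2} (hN : IsOpen N) (hNsq : N ⊆ sq) (hK : IsCompact K) (hKN : K ⊆ N)
    {f : R2 → V4} (hf : ContDiff ℝ ∞ f) {δ₀ : ℝ} (hδ₀ : 0 < δ₀)
    (hlow : ∀ p ∈ N, δ₀ ≤ detg f p ∧ δ₀ ≤ Wsq (fun _ => 1) f p ∧ δ₀ ≤ criterion (fun _ => 1) f p)
    {u : P × R2 → Fin 3 → ℝ} (hu : ContDiff ℝ ∞ u) (hu0 : ∀ p z, z ∉ K → u (p, z) = 0)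
    {p₀ : P} (hp₀ : ∀ z, u (p₀, z) = 0) :
    ∃ Kx : Set R2, IsCompact Kx ∧ Kx ⊆ N ∧ ∀ (m : ℕ) (δ : ℝ), 0 < δ → ∀ᶠ p in 𝓝 p₀,
      ∃ x : R2 → V4, ContDiff ℝ ∞ x ∧ (∀ z ∉ Kx, x z = 0) ∧
        (∀ i ≤ m, ∀ z, ‖iteratedFDeriv ℝ i x z‖ ≤ δ) ∧
        ∀ z ∈ N, metF (fun w => f w + x w) z = metF f z + u (p, z) := by
  obtain ⟨c⟩ := exists_cell hN hK hKN
  refine ⟨c.K₂, c.cK₂, c.K₂_subN, fun m δ hδ => ?_⟩
  set uf : R2 → V4 := fun p => c.ζ p • f p with hufdef
  have huf : ContDiff ℝ ∞ uf := c.ζ_smooth.smul hf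
  have huf0 : ∀ p ∉ c.K₄, uf p = 0 := fun p hp => by simp [hufdef, c.ζ_zero p hp]
  have hF : Smooth2 (c.F0 f) := smooth2_per c.cK₄ (c.subN.trans hNsq) huf0 huf
  have hKsq : K ⊆ sq := hKN.trans hNsq
  have hup : ∀ p, Smooth2 (per fun z => u (p, z)) := fun p =>
    smooth2_per hK hKsq (hu0 p) (hu.comp (contDiff_const.prodMk contDiff_id))
  have hmet : Smooth2 (metF (c.F0 f)) := by
    have h := hF.fderiv.bilin hF.fderiv metB
    rwa [funext fun p => metB_self (c.F0 f) p] at h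
  choose B hB0 hB using fun i => family_bound hu hK hu0 (isCompact_closedBall p₀ 1) i
  set Kb : ℕ → ℝ := fun i =>
    max (pn i (c.F0 f)) (pn i (metF (c.F0 f)) + ∑ j ∈ Finset.range (i + 1), B j)
  obtain ⟨a, n, L₀, h⟩ := exact_correction_bound Kb (c.smooth2_η hNsq)
    (fun p => (c.η₃_mem _).2) (c.smooth2_η' hNsq) (isOpen_interior (s := {p | c.η p = 1 ∧ c.η' p = 1}))
    (fun p hp => (c.O_eq hp).1) (fun p hp => (c.O_eq hp).2) (c.smooth2_radial hNsq) one_pos
    (fun p hp => c.mem_O hNsq hp) m 1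
  obtain ⟨Bη, hBη⟩ := exists_deriv_bound c.η₂_smooth c.cK₂ c.η₂_zero
  have hBη0 : ∀ i, 0 ≤ Bη i := fun i => (norm_nonneg _).trans (hBη i 0)
  set Cη : ℝ := ∑ i ∈ Finset.range (m + 1), ∑ j ∈ Finset.range (i + 1), i.choose j * Bη j
  have hCη : 0 ≤ Cη := Finset.sum_nonneg fun i _ => Finset.sum_nonneg fun j _ =>
    mul_nonneg (Nat.cast_nonneg _) (hBη0 j)
  set L := |L₀| + 1 + δ₀⁻¹ + Cη / δ
  have hd0 : 0 ≤ δ₀⁻¹ := by positivity
  have hd1 : 0 ≤ Cη / δ := by positivity
  have hL1 : 1 ≤ L := by linarith [abs_nonneg L₀]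
  have hLinv : L⁻¹ ≤ δ₀ := inv_le_of_inv_le₀ hδ₀ (by linarith [abs_nonneg L₀])
  have hLC : Cη * L⁻¹ ≤ δ := by
    rw [← div_eq_mul_inv, div_le_iff₀ (by linarith), mul_comm, ← div_le_iff₀ hδ]
    linarith [abs_nonneg L₀]
  have hsm : ∀ i ∈ Finset.range (a + 1), ∀ᶠ p in 𝓝 p₀,
      ∀ z, ‖iteratedFDeriv ℝ i (fun z => u (p, z)) z‖ ≤ (L ^ n)⁻¹ / (a + 1) :=
    fun i _ => family_small hu hK hu0 hp₀ i (by positivity)
  filter_upwards [(Filter.eventually_all_finset _).2 hsm, closedBall_mem_nhds p₀ one_pos]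
    with p hp hpB
  set d : R2 → Fin 3 → ℝ := per fun z => u (p, z) with hddef
  have hsup : ∀ i, ∀ C, (∀ z, ‖iteratedFDeriv ℝ i (fun z => u (p, z)) z‖ ≤ C) → supD i d ≤ C :=
    fun i C hC => supD_per_le hK hKsq (hu0 p) fun z _ => hC z
  set g : R2 → Fin 3 → ℝ := fun z => metF (c.F0 f) z + d z with hgdef
  have herr : ∀ z, metF (c.F0 f) z - g z = -d z := fun z => by simp [hgdef]
  obtain ⟨G, hG⟩ := h fun N => ∑ i ∈ Finset.range (a + 1), pn i d * L ^ N
  have hpi : ∀ i, (1 : ℝ) ≤ L ^ i := fun i => one_le_pow₀ hL1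
  obtain ⟨x₀, hx₀, hx0, hxm, -, hxe⟩ := hG L (by linarith [le_abs_self L₀]) (c.F0 f) g hF
    (hmet.add (hup p))
    (fun i => (le_max_left _ _).trans
      (le_mul_of_one_le_right ((pn_nonneg i _).trans (le_max_left _ _)) (hpi i)))
    (fun i => by
      refine le_trans ?_ (le_mul_of_one_le_right ((pn_nonneg i _).trans (le_max_left _ _)) (hpi i))
      refine le_trans ((pn_add_le hmet (hup p) i).trans ?_) (le_max_right _ _)
      exact add_le_add le_rfl (pn_le_of_supD fun j _ => hsup j _ (hB j p hpB)))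
    (fun z hz => by
      have h1 : d z = 0 := hu0 p _ fun hk => by
        have : c.radial z = 0 := by
          show 3 - 3 * c.ψ (frac z) = 0
          rw [c.ψ_one _ hk]; ring
        rw [this] at hz
        have : 1 / L ≤ 1 := by rw [div_le_one (by linarith)]; exact hL1
        linarith
      simp [hgdef, h1])
    (c.low_det hNsq hL1 fun z hz => hLinv.trans (hlow z hz).1)
    (c.low_W hNsq hL1 (fun z hz => hLinv.trans (hlow z hz).1) fun z hz => hLinv.trans (hlow z hz).2.1)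
    (c.low_crit hNsq hL1 fun z hz => hLinv.trans (hlow z hz).2.2)
    (fun i hi => by
      rw [pn_congr herr i, pn_neg]
      have h1 : pn i d ≤ ∑ j ∈ Finset.range (i + 1), (L ^ n)⁻¹ / (a + 1) :=
        pn_le_of_supD fun j hj => hsup j _ (hp j (Finset.mem_range.2 (by omega)))
      rw [Finset.sum_const, Finset.card_range, nsmul_eq_mul] at h1
      push_cast at h1
      have h2 : pn i d ≤ (L ^ n)⁻¹ := by
        refine h1.trans ?_
        rw [mul_div_assoc', div_le_iff₀ (by positivity), mul_comm]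
        exact mul_le_mul_of_nonneg_left (by exact_mod_cast Nat.succ_le_succ hi) (by positivity)
      calc pn i d * L ^ n ≤ (L ^ n)⁻¹ * L ^ n :=
            mul_le_mul_of_nonneg_right h2 (by positivity)
        _ = 1 := inv_mul_cancel₀ (by positivity))
    (fun N i hi => by
      rw [pn_congr herr i, pn_neg]
      exact Finset.single_le_sum (f := fun i => pn i d * L ^ N)
        (fun i _ => mul_nonneg (pn_nonneg i _) (by positivity)) (Finset.mem_range.2 (by omega)))
  refine ⟨fun z => c.η₂ z • x₀ z, c.η₂_smooth.smul hx₀.1,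
    fun z hz => by simp [c.η₂_zero z hz], fun i hi z => ?_, fun z hz => ?_⟩
  · refine (norm_iteratedFDeriv_cut_le c.η₂_smooth hx₀.1 c.cK₂.isClosed c.η₂_zero hBη i
      (D := fun _ => L⁻¹) (fun _ => by positivity) (fun j hj w _ => ?_) z).trans ?_
    · refine ((le_supD hx₀ j w).trans (supD_le_pn (show j ≤ m by omega) x₀)).trans ?_
      simpa using hxm
    · rw [← Finset.sum_mul]
      refine le_trans (mul_le_mul_of_nonneg_right ?_ (by positivity)) hLC
      exact Finset.single_le_sum (f := fun i => ∑ j ∈ Finset.range (i + 1), i.choose j * Bη j)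
        (fun i _ => Finset.sum_nonneg fun j _ => mul_nonneg (Nat.cast_nonneg _) (hBη0 j))
        (Finset.mem_range.2 (by omega))
  · have hs : z ∈ sq := hNsq hz
    by_cases h1 : z ∈ c.K₁
    · have h3 : z ∈ c.K₃ := interior_subset (c.sub₃ (interior_subset (c.sub₂ h1)))
      have ef : c.F0 f =ᶠ[𝓝 z] f := by
        filter_upwards [per_eventuallyEq uf hs, c.ζ_one z h3] with w h1 h2
        show per uf w = f w
        rw [h1]; simp [hufdef, h2]
      have e1 : (fun w => f w + c.η₂ w • x₀ w) =ᶠ[𝓝 z] fun w => c.F0 f w + x₀ w := by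
        filter_upwards [ef, c.η₂_one z h1] with w h1 h2
        rw [h1, h2, one_smul]
      rw [metF_congr e1, hxe z]
      show metF (c.F0 f) z + per (fun w => u (p, w)) z = _
      rw [metF_congr ef, per_of_mem _ hs]
    · have e0 : ∀ᶠ w in 𝓝 z, x₀ w = 0 := by
        filter_upwards [isOpen_sq.mem_nhds hs, c.cK₁.isClosed.isOpen_compl.mem_nhds h1]
          with w hw hw1
        refine hx0 w ?_
        have : per c.ψ w = 0 := by rw [per_of_mem _ hw]; exact c.ψ_zero w hw1
        simp only [Cell.radial, this]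
        norm_num
      have e1 : (fun w => f w + c.η₂ w • x₀ w) =ᶠ[𝓝 z] f := by
        filter_upwards [e0] with w hw
        simp [hw]
      rw [metF_congr e1, hu0 p z fun hk => h1 (interior_subset (c.sub₁ hk)), add_zero]

/-- The plane of the surface charts as pairs. -/
def toR2 : E2 ≃L[ℝ] R2 :=
  LinearEquiv.toContinuousLinearEquiv
    { toFun := fun z => (z 0, z 1)
      map_add' := fun a b => by simp
      map_smul' := fun r a => by simp
      invFun := fun p => !₂[p.1, p.2]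
      left_inv := fun z => by ext i; fin_cases i <;> simp
      right_inv := fun p => by simp }

theorem toR2_apply (z : E2) : toR2 z = (z 0, z 1) := rfl

/-- The fixed model: a flat map into the unit sphere, nondegenerate at the origin. -/
structure Model where
  /-- The map. -/
  φ : R2 → V4
  smooth : ContDiff ℝ ∞ φ
  norm_one : ∀ p, ‖φ p‖ = 1
  isometric : ∀ p v w, ⟪fderiv ℝ φ p v, fderiv ℝ φ p w⟫ = v.1 * w.1 + v.2 * w.2
  wsq : Wsq (fun _ => 1) φ 0 ≠ 0
  crit : criterion (fun _ => 1) φ 0 ≠ 0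

namespace Model

variable (Φ : Model)

theorem detg_eq (p : R2) : detg Φ.φ p = 1 := by
  simp only [detg, g11, g12, g22, Algebra.dx, Algebra.dy, Φ.isometric]
  norm_num

/-- The model on the plane of the surface charts. -/
def ψ : E2 → E4 := fun z => Φ.φ (toR2 z)

theorem contDiff_ψ : ContDiff ℝ ∞ Φ.ψ := Φ.smooth.comp toR2.contDiff

theorem norm_ψ (z : E2) : ‖Φ.ψ z‖ = 1 := Φ.norm_one _

theorem fderiv_ψ (z u : E2) : fderiv ℝ Φ.ψ z u = fderiv ℝ Φ.φ (toR2 z) (toR2 u) := by
  rw [show Φ.ψ = Φ.φ ∘ toR2 from rfl, toR2.comp_right_fderiv]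
  rfl

theorem inner_ψ (z u v : E2) : ⟪fderiv ℝ Φ.ψ z u, fderiv ℝ Φ.ψ z v⟫ = ⟪u, v⟫ := by
  rw [Φ.fderiv_ψ, Φ.fderiv_ψ, Φ.isometric]
  simp [toR2_apply, PiLp.inner_apply, Fin.sum_univ_two]
  ring

/-- The radius of a disc on which the model is uniformly nondegenerate. -/
theorem exists_radius : ∃ R₁ > (0 : ℝ), R₁ < 1 / 2 ∧ ∃ δ₀ > (0 : ℝ), ∀ z, ‖z‖ ≤ R₁ →
    GoodAt Φ.ψ z ∧ δ₀ ≤ Wsq (fun _ => 1) Φ.φ (toR2 z) ∧
      δ₀ ≤ criterion (fun _ => 1) Φ.φ (toR2 z) := by
  have hψφ : Φ.ψ ∘ toR2.symm = Φ.φ := funext fun p => congrArg Φ.φ (toR2.apply_symm_apply p)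
  have hφ : ContDiff ℝ ∞ (toR2.symm : R2 → E2) := toR2.symm.contDiff
  obtain ⟨r, D, G, hD, hG, he, hn⟩ := (cf_frame (ND := NDeg toR2.symm) hφ fun _ => rfl).2.2.2.2.1.prod
    (cf_criterion (ND := NDeg toR2.symm) hφ fun _ => rfl)
  have hnd : NDeg toR2.symm Φ.ψ 0 := by
    rw [NDeg, hψφ]; exact ⟨by rw [Φ.detg_eq]; exact one_ne_zero, Φ.wsq⟩
  set Z : R2 → R2 × Jet r := fun p => (p, jetFD r Φ.ψ (toR2.symm p))
  have hZ : Continuous Z :=
    continuous_id.prodMk ((contDiff_jetFD r Φ.contDiff_ψ).continuous.comp toR2.symm.continuous)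
  have hval : ∀ᶠ p in 𝓝 (0 : R2), (Wsq (fun _ => 1) Φ.φ p, criterion (fun _ => 1) Φ.φ p) = G (Z p) := by
    filter_upwards [(hD.preimage hZ).mem_nhds (hn _ Φ.contDiff_ψ 0 hnd)] with p hp
    have := he Φ.ψ Φ.contDiff_ψ p hp
    simp only [hψφ] at this
    exact this
  have hcont : ContinuousAt (fun p => (Wsq (fun _ => 1) Φ.φ p, criterion (fun _ => 1) Φ.φ p)) 0 :=
    (ContinuousAt.comp (g := G) (f := Z) (x := 0)
      (hG.continuousOn.continuousAt (hD.mem_nhds (hn _ Φ.contDiff_ψ 0 hnd)))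
      hZ.continuousAt).congr (Filter.EventuallyEq.symm hval)
  have hW : 0 < Wsq (fun _ => 1) Φ.φ 0 :=
    lt_of_le_of_ne real_inner_self_nonneg (Ne.symm Φ.wsq)
  have hC : 0 < criterion (fun _ => 1) Φ.φ 0 :=
    lt_of_le_of_ne (add_nonneg (sq_nonneg _)
      (Finset.sum_nonneg fun _ _ => Finset.sum_nonneg fun _ _ => sq_nonneg _)) (Ne.symm Φ.crit)
  have h1 : ∀ᶠ p in 𝓝 (0 : R2), Wsq (fun _ => 1) Φ.φ 0 / 2 < Wsq (fun _ => 1) Φ.φ p ∧
      criterion (fun _ => 1) Φ.φ 0 / 2 < criterion (fun _ => 1) Φ.φ p :=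
    ((continuous_fst.continuousAt.comp hcont).eventually (lt_mem_nhds (half_lt_self hW))).and
      ((continuous_snd.continuousAt.comp hcont).eventually (lt_mem_nhds (half_lt_self hC)))
  have h2 : ∀ᶠ z in 𝓝 (0 : E2), Wsq (fun _ => 1) Φ.φ 0 / 2 < Wsq (fun _ => 1) Φ.φ (toR2 z) ∧
      criterion (fun _ => 1) Φ.φ 0 / 2 < criterion (fun _ => 1) Φ.φ (toR2 z) :=
    (toR2.continuous.tendsto' 0 0 (map_zero _)).eventually h1
  obtain ⟨R, hR, hRh⟩ := Metric.eventually_nhds_iff.1 h2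
  refine ⟨min (R / 2) (1 / 4), by positivity, (min_le_right _ _).trans_lt (by norm_num),
    min (Wsq (fun _ => 1) Φ.φ 0 / 2) (criterion (fun _ => 1) Φ.φ 0 / 2),
    lt_min (half_pos hW) (half_pos hC), fun z hz => ?_⟩
  obtain ⟨a, b⟩ := hRh (y := z) (by
    rw [dist_zero_right]; exact (hz.trans (min_le_left _ _)).trans_lt (half_lt_self hR))
  refine ⟨⟨toR2.symm, toR2 z, hφ, toR2.symm_apply_apply z, ?_, ?_⟩,
    (min_le_left _ _).trans a.le, (min_le_right _ _).trans b.le⟩
  · rw [toR2.symm.fderiv]; exact toR2.symm.injective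
  · rw [hψφ]
    exact ⟨by rw [Φ.detg_eq]; exact one_ne_zero, (lt_trans (half_pos hW) a).ne',
      (lt_trans (half_pos hC) b).ne'⟩

end Model

theorem eq_of_symm_basis {B B' : E2 → E2 → ℝ} (hB : ∀ a b c, B (a + b) c = B a c + B b c)
    (hB' : ∀ a b c, B' (a + b) c = B' a c + B' b c)
    (hBs : ∀ (r : ℝ) a c, B (r • a) c = r * B a c) (hB's : ∀ (r : ℝ) a c, B' (r • a) c = r * B' a c)
    (sB : ∀ a b, B a b = B b a) (sB' : ∀ a b, B' a b = B' b a)
    (h00 : B (toR2.symm (1, 0)) (toR2.symm (1, 0)) = B' (toR2.symm (1, 0)) (toR2.symm (1, 0)))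
    (h01 : B (toR2.symm (1, 0)) (toR2.symm (0, 1)) = B' (toR2.symm (1, 0)) (toR2.symm (0, 1)))
    (h11 : B (toR2.symm (0, 1)) (toR2.symm (0, 1)) = B' (toR2.symm (0, 1)) (toR2.symm (0, 1)))
    (v w : E2) : B v w = B' v w := by
  have hv : ∀ v : E2, v = v 0 • toR2.symm (1, 0) + v 1 • toR2.symm (0, 1) := fun v => by
    apply toR2.injective
    rw [map_add, map_smul, map_smul, toR2.apply_symm_apply, toR2.apply_symm_apply, toR2_apply]
    simp
  have hr : ∀ a b c, B a (b + c) = B a b + B a c := fun a b c => by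
    rw [sB, hB, sB b, sB c]
  have hr' : ∀ a b c, B' a (b + c) = B' a b + B' a c := fun a b c => by
    rw [sB', hB', sB' b, sB' c]
  have hs : ∀ (r : ℝ) a b, B a (r • b) = r * B a b := fun r a b => by rw [sB, hBs, sB b]
  have hs' : ∀ (r : ℝ) a b, B' a (r • b) = r * B' a b := fun r a b => by rw [sB', hB's, sB' b]
  rw [hv v, hv w]
  simp only [hB, hB', hBs, hB's, hr, hr', hs, hs', h00, h01, h11, sB (toR2.symm (0, 1)) (toR2.symm (1, 0)),
    sB' (toR2.symm (0, 1)) (toR2.symm (1, 0))]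

/-- Exact realisation of small changes of the metric of the model. -/
theorem model_correction (Φ : Model) : ∃ R₁ > (0 : ℝ), (∀ z, ‖z‖ ≤ R₁ → GoodAt Φ.ψ z) ∧
    ∀ R, 0 < R → R ≤ R₁ → ∀ (S : (ℝ × ℝ × ℝ) × E2 → E2 →L[ℝ] E2 →L[ℝ] ℝ),
      ContDiff ℝ ∞ S → (∀ q a b, S q a b = S q b a) →
      ∀ r, r < R → (∀ p z, r < ‖z‖ → S (p, z) = 0) →
      ∀ p₀, (∀ z, S (p₀, z) = 0) → ∀ (m : ℕ) (δ : ℝ), 0 < δ → ∀ᶠ p in 𝓝 p₀,
        ∃ x : E2 → E4, ContDiff ℝ ∞ x ∧ (∀ z, R ≤ ‖z‖ → x z = 0) ∧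
          (∀ i ≤ m, ∀ z, ‖iteratedFDeriv ℝ i x z‖ ≤ δ) ∧
          ∀ z v w, pullE2 (fun y => Φ.ψ y + x y) z v w = ⟪v, w⟫ + S (p, z) v w := by
  obtain ⟨R₁, hR₁, hhalf, δ₀, hδ₀, hR⟩ := Φ.exists_radius
  refine ⟨R₁, hR₁, fun z hz => (hR z hz).1, fun R hR0 hRle S hS hsym r hr hS0 p₀ hp₀ m δ hδ => ?_⟩
  set c : R2 := (1 / 2, 1 / 2)
  set T : R2 → E2 := fun q => toR2.symm (q - c) with hTdef
  have hT : ContDiff ℝ ∞ T := toR2.symm.contDiff.comp (contDiff_id.sub contDiff_const)
  set N : Set R2 := T ⁻¹' ball (0 : E2) R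
  set K : Set R2 := (fun z => toR2 z + c) '' closedBall (0 : E2) r
  have hTback : ∀ z, T (toR2 z + c) = z := fun z => by simp [T]
  have hN : IsOpen N := isOpen_ball.preimage hT.continuous
  have hK : IsCompact K :=
    (isCompact_closedBall _ _).image (toR2.continuous.add continuous_const)
  have hKN : K ⊆ N := by
    rintro _ ⟨z, hz, rfl⟩
    show T (toR2 z + c) ∈ ball (0 : E2) R
    rw [hTback]
    exact mem_ball_zero_iff.2 ((mem_closedBall_zero_iff.1 hz).trans_lt hr)
  have hNsq : N ⊆ Bridge.sq := by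
    intro q hq
    have h1 : ‖T q‖ < 1 / 2 := (mem_ball_zero_iff.1 hq).trans_le (hRle.trans hhalf.le)
    have hq' : q = toR2 (T q) + c := by simp [T]
    have a := (PiLp.norm_apply_le (T q) 0).trans_lt h1
    have b := (PiLp.norm_apply_le (T q) 1).trans_lt h1
    rw [Real.norm_eq_abs, abs_lt] at a b
    rw [hq']
    refine ⟨⟨?_, ?_⟩, ?_, ?_⟩ <;> simp [toR2_apply, c] <;> linarith
  set f : R2 → V4 := fun q => Φ.φ (q - c)
  have hf : ContDiff ℝ ∞ f := Φ.smooth.comp (contDiff_id.sub contDiff_const)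
  have hsh : ∀ q, Bridge.Sh (-c) q f Φ.φ := fun q =>
    Eventually.of_forall fun q => by simp [f, sub_eq_add_neg]
  have hlow : ∀ q ∈ N, min δ₀ 1 ≤ detg f q ∧ min δ₀ 1 ≤ Wsq (fun _ => 1) f q ∧
      min δ₀ 1 ≤ criterion (fun _ => 1) f q := by
    intro q hq
    have he : Bridge.Sh (-c) q (fun _ : R2 => (1 : ℝ)) (fun _ => 1) := EventuallyEq.rfl
    have hq' : q + -c = toR2 (T q) := by simp [T, sub_eq_add_neg]
    obtain ⟨-, h1, h2⟩ := hR (T q) ((mem_ball_zero_iff.1 hq).le.trans hRle)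
    rw [(Bridge.detg_congr (hsh q)).eq_of_nhds, (Bridge.Wsq_congr he (hsh q)).eq_of_nhds,
      (Bridge.criterion_congr he (hsh q)).eq_of_nhds, hq', Φ.detg_eq]
    exact ⟨min_le_right _ _, (min_le_left _ _).trans h1, (min_le_left _ _).trans h2⟩
  set a0 : E2 := toR2.symm (1, 0)
  set a1 : E2 := toR2.symm (0, 1)
  set u : (ℝ × ℝ × ℝ) × R2 → Fin 3 → ℝ := fun q =>
    ![S (q.1, T q.2) a0 a0, S (q.1, T q.2) a0 a1, S (q.1, T q.2) a1 a1]
  have hu : ContDiff ℝ ∞ u := by
    have h := hS.comp (contDiff_fst.prodMk (hT.comp contDiff_snd))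
    refine contDiff_pi.2 fun k => ?_
    fin_cases k <;> exact (h.clm_apply contDiff_const).clm_apply contDiff_const
  obtain ⟨Kx, hKx, hKxN, hex⟩ := cell_exact hN hNsq hK hKN hf (lt_min hδ₀ one_pos) hlow hu
    (fun p z hz => by
      have hz' : r < ‖T z‖ := not_le.1 fun hle =>
        hz ⟨T z, mem_closedBall_zero_iff.2 hle, by simp [T]⟩
      funext k; fin_cases k <;> simp [u, hS0 p _ hz'])
    (p₀ := p₀) (fun z => by funext k; fin_cases k <;> simp [u, hp₀])
  set J : ℝ := ‖(toR2 : E2 →L[ℝ] R2)‖ + 1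
  have hJ : 1 ≤ J := le_add_of_nonneg_left (norm_nonneg _)
  filter_upwards [hex m (δ / J ^ m) (by positivity)] with p ⟨x, hx, hxoff, hxb, hxeq⟩
  refine ⟨fun z => x (toR2 z + c), hx.comp (toR2.contDiff.add contDiff_const), fun z hz => ?_,
    fun i hi z => ?_, fun z v w => ?_⟩
  · refine hxoff _ fun hmem => ?_
    have h := hKxN hmem
    rw [mem_preimage, hTback, mem_ball_zero_iff] at h
    exact absurd h (not_lt.2 hz)
  · have hc : ContDiff ℝ ∞ fun q : R2 => x (q + c) := hx.comp (contDiff_id.add contDiff_const)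
    rw [show (fun z => x (toR2 z + c)) = (fun q => x (q + c)) ∘ (toR2 : E2 →L[ℝ] R2) from rfl,
      (toR2 : E2 →L[ℝ] R2).iteratedFDeriv_comp_right hc z (by exact_mod_cast le_top),
      iteratedFDeriv_comp_add_right]
    refine (ContinuousMultilinearMap.norm_compContinuousLinearMap_le _ _).trans ?_
    rw [Finset.prod_const, Finset.card_univ, Fintype.card_fin]
    calc _ ≤ δ / J ^ m * J ^ m := mul_le_mul (hxb i hi _)
          ((pow_le_pow_left₀ (norm_nonneg _) (le_add_of_nonneg_right zero_le_one) i).trans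
            (pow_le_pow_right₀ hJ hi)) (by positivity) (by positivity)
      _ = δ := div_mul_cancel₀ _ (by positivity)
  · have hd : ∀ a, fderiv ℝ (fun y => Φ.ψ y + x (toR2 y + c)) z a
        = fderiv ℝ (fun q => f q + x q) (toR2 z + c) (toR2 a) := by
      intro a
      have : (fun y => Φ.ψ y + x (toR2 y + c))
          = (fun q => (fun q => f q + x q) (q + c)) ∘ toR2 := by
        funext y; simp [f, Model.ψ]
      rw [this, toR2.comp_right_fderiv, fderiv_comp_add_right (f := fun q => f q + x q)]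
      rfl
    have hall : ∀ q : R2, metF (fun w => f w + x w) q = metF f q + u (p, q) := by
      intro q
      by_cases hq : q ∈ N
      · exact hxeq q hq
      · have e : (fun w => f w + x w) =ᶠ[𝓝 q] f := by
          filter_upwards [hKx.isClosed.isOpen_compl.mem_nhds fun h => hq (hKxN h)] with w hw
          simp [hxoff w hw]
        have h0 : u (p, q) = 0 := by
          have hr' : r < ‖T q‖ :=
            hr.trans_le (not_lt.1 fun h => hq (mem_ball_zero_iff.2 h))
          funext k; fin_cases k <;> simp [u, hS0 p _ hr']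
        rw [Bridge.metF_congr e, h0, add_zero]
    have hm := hall (toR2 z + c)
    have hbase : metF f (toR2 z + c) = ![1, 0, 1] := by
      have : ∀ a, fderiv ℝ f (toR2 z + c) a = fderiv ℝ Φ.φ (toR2 z) a := fun a => by
        rw [show f = fun q => Φ.φ (q + -c) from funext fun q => by simp [f, sub_eq_add_neg],
          fderiv_comp_add_right, add_neg_cancel_right]
      funext k
      fin_cases k <;> simp only [metF, g11, g12, g22, Algebra.dx, Algebra.dy, this, Φ.isometric,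
        Fin.isValue, Fin.zero_eta, Fin.mk_one, Fin.reduceFinMk, Matrix.cons_val_zero,
        Matrix.cons_val_one, Matrix.cons_val] <;> norm_num
    have hTz : T (toR2 z + c) = z := hTback z
    refine eq_of_symm_basis (B := fun v w => pullE2 (fun y => Φ.ψ y + x (toR2 y + c)) z v w)
      (B' := fun v w => ⟪v, w⟫ + S (p, z) v w)
      (fun a b d => by simp [pullE2, inner_add_left]) (fun a b d => by simp [inner_add_left]; ring)
      (fun s a d => by simp [pullE2, inner_smul_left]) (fun s a d => by simp [inner_smul_left]; ring)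
      (fun a b => real_inner_comm _ _) (fun a b => by rw [real_inner_comm, hsym]) ?_ ?_ ?_ v w
    all_goals simp only [pullE2, hd, ContinuousLinearEquiv.apply_symm_apply]
    all_goals rw [hbase] at hm
    · have := congrFun hm 0
      simp only [u, hTz, metF, g11, Algebra.dx, a0, Pi.add_apply, Matrix.cons_val_zero] at this
      rw [this, add_left_inj]
      simp [Fin.sum_univ_two, toR2, EuclideanSpace.norm_sq_eq]
    · have := congrFun hm 1
      simp only [u, hTz, metF, g12, Algebra.dx, Algebra.dy, a0, a1, Pi.add_apply,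
        Matrix.cons_val_one, Matrix.cons_val_zero] at this
      rw [this, add_left_inj]
      simp [PiLp.inner_apply, Fin.sum_univ_two, toR2]
    · have := congrFun hm 2
      simp only [u, hTz, metF, g22, Algebra.dy, a1, Pi.add_apply, Matrix.cons_val] at this
      rw [this, add_left_inj]
      simp [Fin.sum_univ_two, toR2, EuclideanSpace.norm_sq_eq]

end

end Vale.Agent.P205.Holes
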