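import Vale.Agent.P205.Full.Interface
import Vale.Agent.P205.Full.Global.Good

/-!
# P205 holes: `GoodAt` is invariant under similarities of four-space

A similarity of four-space leaves the frame equations unchanged and multiplies the pair `(P, R)`
by a constant, so every multiplier of the criterion is multiplied by a power of that constant.
-/

namespace Vale.Agent.P205.Full

open Set Function Filter
open scoped ContDiff Topology RealInnerProductSpace
open Vale.Agent.P205.Algebra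

noncomputable section

/-- The generalised cross product against a fourth vector is the determinant. -/
theorem inner_cross4 (x y z w : V4) : ⟪w, cross4 x y z⟫
    = -(EuclideanSpace.basisFun (Fin 4) ℝ).toBasis.det ![x, y, z, w] := by
  rw [Module.Basis.det_apply]
  simp [cross4, Matrix.det_succ_row_zero, Fin.sum_univ_succ, Module.Basis.toMatrix_apply,
    PiLp.inner_apply, Fin.succAbove]
  ring

/-- A similarity of four-space. -/
structure Simil where
  /-- The map. -/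
  S : V4 ≃L[ℝ] V4
  /-- The squared factor. -/
  s : ℝ
  s_ne : s ≠ 0
  inner_map : ∀ x y, ⟪S x, S y⟫ = s * ⟪x, y⟫

namespace Simil

variable (T : Simil)

/-- The factor of the cross product. -/
def c : ℝ := LinearMap.det (T.S.toLinearEquiv : V4 →ₗ[ℝ] V4) * T.s⁻¹

theorem c_ne : T.c ≠ 0 :=
  mul_ne_zero (LinearEquiv.isUnit_det' T.S.toLinearEquiv).ne_zero (inv_ne_zero T.s_ne)

theorem cross4_map (x y z : V4) :
    cross4 (T.S x) (T.S y) (T.S z) = T.c • T.S (cross4 x y z) := by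
  refine ext_inner_left ℝ fun w => ?_
  obtain ⟨w, rfl⟩ := T.S.surjective w
  rw [inner_cross4, inner_smul_right, T.inner_map, inner_cross4, c]
  have h := (EuclideanSpace.basisFun (Fin 4) ℝ).toBasis.det_comp
    (T.S.toLinearEquiv : V4 →ₗ[ℝ] V4) ![x, y, z, w]
  have e : ((T.S.toLinearEquiv : V4 →ₗ[ℝ] V4) ∘ ![x, y, z, w])
      = ![T.S x, T.S y, T.S z, T.S w] := by
    funext i; fin_cases i <;> rfl
  rw [e] at h
  rw [h]
  field_simp [T.s_ne]

end Simil

/-- A row times a constant. -/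
def rowSmul (k : ℝ) (E : Row) : Row := ⟨fun p => k • E.u p, fun p => k • E.v p⟩

theorem rowSmul_rowSmul (k l : ℝ) (E : Row) : rowSmul k (rowSmul l E) = rowSmul (k * l) E := by
  simp [rowSmul, smul_smul]

theorem dx_const_smul {U : Type*} [NormedAddCommGroup U] [NormedSpace ℝ U] (k : ℝ) (u : R2 → U) :
    (dx fun q => k • u q) = fun p => k • dx u p := by
  funext p
  show fderiv ℝ (k • u) p _ = _
  rw [fderiv_const_smul_field]
  rfl

theorem dy_const_smul {U : Type*} [NormedAddCommGroup U] [NormedSpace ℝ U] (k : ℝ) (u : R2 → U) :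
    (dy fun q => k • u q) = fun p => k • dy u p := by
  funext p
  show fderiv ℝ (k • u) p _ = _
  rw [fderiv_const_smul_field]
  rfl

theorem det4_rowSmul (a b c d : ℝ) (A B C D : Row) :
    det4 (rowSmul a A) (rowSmul b B) (rowSmul c C) (rowSmul d D)
      = fun p => a * b * c * d * det4 A B C D p := by
  funext p
  simp [det4, rowSmul, Matrix.det_succ_row_zero, Fin.sum_univ_succ, Fin.succAbove]
  ring

theorem det2_smul_left (k : ℝ) (u v : R2) : det2 (k • u) v = k * det2 u v := by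
  simp [det2]; ring

theorem det2_smul_right (k : ℝ) (u v : R2) : det2 u (k • v) = k * det2 u v := by
  simp [det2]; ring

section

variable (η : R2 → ℝ) (F : R2 → V4) (k : ℝ)

theorem mulN_smul (u : R2 → R2) :
    mulN η F (fun p => k • u p) = fun p => k • mulN η F u p := by
  funext p; simp [mulN, smul_smul]

theorem mulM_smul (u : R2 → R2) :
    Algebra.mulM η F (fun p => k • u p) = fun p => k • Algebra.mulM η F u p := by
  funext p; simp [Algebra.mulM, Prod.smul_mk]; constructor <;> ring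

theorem dXY_smul (E : Row) :
    dXu η F (rowSmul k E) = (fun p => k • dXu η F E p) ∧
      dXv η F (rowSmul k E) = (fun p => k • dXv η F E p) ∧
      dYu (rowSmul k E) = (fun p => k • dYu E p) ∧
      dYv (rowSmul k E) = fun p => k • dYv E p := by
  refine ⟨?_, ?_, ?_, ?_⟩ <;> funext p
  · simp only [dXu, rowSmul, dx_const_smul, mulN_smul, Prod.smul_fst, Prod.smul_snd, smul_eq_mul,
      smul_add, smul_smul]
  · simp only [dXv, rowSmul, dx_const_smul, mulN_smul, mulM_smul, Prod.smul_snd,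
      smul_eq_mul, smul_add, Prod.smul_mk]
    congr 2 <;> ring
  · simp only [dYu, rowSmul, dy_const_smul]
  · simp only [dYv, rowSmul, dy_const_smul, smul_add]

end

namespace Simil

variable (T : Simil) (F : R2 → V4)

/-- The map after the similarity. -/
def map : R2 → V4 := fun p => T.S (F p)

theorem dx_map (u : R2 → V4) : (dx fun q => T.S (u q)) = fun p => T.S (dx u p) := by
  funext p
  show fderiv ℝ (T.S ∘ u) p _ = _
  rw [T.S.comp_fderiv]
  rfl

theorem dy_map (u : R2 → V4) : (dy fun q => T.S (u q)) = fun p => T.S (dy u p) := by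
  funext p
  show fderiv ℝ (T.S ∘ u) p _ = _
  rw [T.S.comp_fderiv]
  rfl

theorem d1 : dx (T.map F) = (fun p => T.S (dx F p)) ∧ dy (T.map F) = fun p => T.S (dy F p) :=
  ⟨T.dx_map F, T.dy_map F⟩

theorem d2 : F11 (T.map F) = (fun p => T.S (F11 F p)) ∧ F12 (T.map F) = (fun p => T.S (F12 F p)) ∧
    F22 (T.map F) = fun p => T.S (F22 F p) := by
  obtain ⟨a, b⟩ := T.d1 F
  refine ⟨?_, ?_, ?_⟩
  · show dx (dx (T.map F)) = _
    rw [a, T.dx_map]; rfl
  · show dy (dx (T.map F)) = _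
    rw [a, T.dy_map]; rfl
  · show dy (dy (T.map F)) = _
    rw [b, T.dy_map]; rfl

theorem detg_map : detg (T.map F) = fun p => T.s ^ 2 * detg F p := by
  obtain ⟨a, b⟩ := T.d1 F
  funext p
  simp only [detg, g11, g12, g22, a, b, T.inner_map]
  ring

theorem v_map : v1 (fun _ : R2 => (1 : ℝ)) (T.map F) = (fun p => T.s⁻¹ • T.S (v1 (fun _ : R2 => (1 : ℝ)) F p)) ∧
    v2 (fun _ : R2 => (1 : ℝ)) (T.map F) = fun p => T.s⁻¹ • T.S (v2 (fun _ : R2 => (1 : ℝ)) F p) := by
  obtain ⟨a, b⟩ := T.d1 F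
  have h : (T.s ^ 2)⁻¹ * T.s = T.s⁻¹ := by field_simp [T.s_ne]
  constructor <;> funext p
  · simp only [v1, rinv, sub_self, add_zero, T.detg_map, g22, g12, a, b, T.inner_map, map_smul,
      map_sub, smul_smul, smul_sub, mul_inv]
    congr 2
    · linear_combination ((detg F p)⁻¹ * ⟪dy F p, dy F p⟫) * h
    · linear_combination ((detg F p)⁻¹ * ⟪dx F p, dy F p⟫) * h
  · simp only [v2, rinv, sub_self, add_zero, T.detg_map, g11, g12, a, b, T.inner_map, map_smul,
      map_sub, smul_smul, smul_sub, mul_inv]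
    congr 2
    · linear_combination ((detg F p)⁻¹ * ⟪dx F p, dx F p⟫) * h
    · linear_combination ((detg F p)⁻¹ * ⟪dx F p, dy F p⟫) * h

theorem frame_map : Algebra.n0 (fun _ : R2 => (1 : ℝ)) (T.map F) = (fun p => T.S (Algebra.n0 (fun _ : R2 => (1 : ℝ)) F p)) ∧
    Algebra.n1 (fun _ : R2 => (1 : ℝ)) (T.map F) = (fun p => T.c • T.S (Algebra.n1 (fun _ : R2 => (1 : ℝ)) F p)) ∧
    Wsq (fun _ : R2 => (1 : ℝ)) (T.map F) = (fun p => T.s * Wsq (fun _ : R2 => (1 : ℝ)) F p) ∧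
    iW (fun _ : R2 => (1 : ℝ)) (T.map F) = fun p => T.s⁻¹ * iW (fun _ : R2 => (1 : ℝ)) F p := by
  obtain ⟨a, b⟩ := T.d1 F
  obtain ⟨-, -, c⟩ := T.d2 F
  obtain ⟨v, w⟩ := T.v_map F
  have h0 : Algebra.n0 (fun _ : R2 => (1 : ℝ)) (T.map F) = fun p => T.S (Algebra.n0 (fun _ : R2 => (1 : ℝ)) F p) := by
    funext p
    simp only [Algebra.n0, a, b, c, v, w, T.inner_map, map_sub, map_smul, smul_smul]
    congr 3 <;> field_simp [T.s_ne]
  have hW : Wsq (fun _ : R2 => (1 : ℝ)) (T.map F) = fun p => T.s * Wsq (fun _ : R2 => (1 : ℝ)) F p := by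
    funext p; simp only [Wsq, h0, T.inner_map]
  refine ⟨h0, ?_, hW, ?_⟩
  · funext p; simp [Algebra.n1, a, b, h0, T.cross4_map]
  · funext p; simp only [iW, rinv, hW, sub_self, add_zero, mul_inv]

theorem coeff_map : ca (fun _ : R2 => (1 : ℝ)) (T.map F) = ca (fun _ : R2 => (1 : ℝ)) F ∧ cb (fun _ : R2 => (1 : ℝ)) (T.map F) = cb (fun _ : R2 => (1 : ℝ)) F ∧
    cP (fun _ : R2 => (1 : ℝ)) (T.map F) = (fun p => T.c * cP (fun _ : R2 => (1 : ℝ)) F p) ∧
    cR (fun _ : R2 => (1 : ℝ)) (T.map F) = (fun p => T.c * cR (fun _ : R2 => (1 : ℝ)) F p) ∧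
    cc (fun _ : R2 => (1 : ℝ)) (T.map F) = fun p => T.c • cc (fun _ : R2 => (1 : ℝ)) F p := by
  obtain ⟨x, y, -⟩ := T.d2 F
  obtain ⟨n, m, -, w⟩ := T.frame_map F
  have hP : cP (fun _ : R2 => (1 : ℝ)) (T.map F) = fun p => T.c * cP (fun _ : R2 => (1 : ℝ)) F p := by
    funext p
    simp only [cP, x, m, w, inner_smul_right, T.inner_map]
    field_simp [T.s_ne]
  have hR : cR (fun _ : R2 => (1 : ℝ)) (T.map F) = fun p => T.c * cR (fun _ : R2 => (1 : ℝ)) F p := by
    funext p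
    simp only [cR, y, m, w, inner_smul_right, T.inner_map]
    field_simp [T.s_ne]
  refine ⟨?_, ?_, hP, hR, ?_⟩
  · funext p; simp only [ca, x, n, w, T.inner_map]; field_simp [T.s_ne]
  · funext p; simp only [cb, y, n, w, T.inner_map]; field_simp [T.s_ne]
  · funext p; simp [cc, hP, hR]

theorem christoffel_map : G111 (fun _ : R2 => (1 : ℝ)) (T.map F) = G111 (fun _ : R2 => (1 : ℝ)) F ∧ G112 (fun _ : R2 => (1 : ℝ)) (T.map F) = G112 (fun _ : R2 => (1 : ℝ)) F ∧
    G122 (fun _ : R2 => (1 : ℝ)) (T.map F) = G122 (fun _ : R2 => (1 : ℝ)) F ∧ G211 (fun _ : R2 => (1 : ℝ)) (T.map F) = G211 (fun _ : R2 => (1 : ℝ)) F ∧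
    G212 (fun _ : R2 => (1 : ℝ)) (T.map F) = G212 (fun _ : R2 => (1 : ℝ)) F ∧ G222 (fun _ : R2 => (1 : ℝ)) (T.map F) = G222 (fun _ : R2 => (1 : ℝ)) F := by
  obtain ⟨x, y, z⟩ := T.d2 F
  obtain ⟨v, w⟩ := T.v_map F
  refine ⟨?_, ?_, ?_, ?_, ?_, ?_⟩ <;> funext p <;>
    simp only [G111, G112, G122, G211, G212, G222, x, y, z, v, w, inner_smul_right, T.inner_map] <;>
    field_simp [T.s_ne]

theorem mul_map (u : R2 → R2) : mulN (fun _ : R2 => (1 : ℝ)) (T.map F) u = mulN (fun _ : R2 => (1 : ℝ)) F u ∧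
    Algebra.mulM (fun _ : R2 => (1 : ℝ)) (T.map F) u = Algebra.mulM (fun _ : R2 => (1 : ℝ)) F u ∧
    N1 (fun _ : R2 => (1 : ℝ)) (T.map F) = N1 (fun _ : R2 => (1 : ℝ)) F ∧ N2 (fun _ : R2 => (1 : ℝ)) (T.map F) = N2 (fun _ : R2 => (1 : ℝ)) F := by
  obtain ⟨a, b, -⟩ := T.coeff_map F
  obtain ⟨e1, e2, e3, e4, e5, e6⟩ := T.christoffel_map F
  have h1 : N1 (fun _ : R2 => (1 : ℝ)) (T.map F) = N1 (fun _ : R2 => (1 : ℝ)) F := by funext p; simp [N1, a, b, e1, e2, e3]
  have h2 : N2 (fun _ : R2 => (1 : ℝ)) (T.map F) = N2 (fun _ : R2 => (1 : ℝ)) F := by funext p; simp [N2, a, b, e4, e5, e6]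
  exact ⟨by funext p; simp [mulN, h1, h2], by funext p; simp [Algebra.mulM, a, b], h1, h2⟩

theorem dX_map (E : Row) :
    dXu (fun _ : R2 => (1 : ℝ)) (T.map F) E = dXu (fun _ : R2 => (1 : ℝ)) F E ∧ dXv (fun _ : R2 => (1 : ℝ)) (T.map F) E = dXv (fun _ : R2 => (1 : ℝ)) F E := by
  obtain ⟨a, b, -⟩ := T.coeff_map F
  constructor <;> funext p
  · simp only [dXu, (T.mul_map F E.u).1, (T.mul_map F E.u).2.2.1, (T.mul_map F E.u).2.2.2]
  · simp only [dXv, (T.mul_map F E.u).2.1, (T.mul_map F E.v).1, a, b]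

theorem rows_map : rowX (fun _ : R2 => (1 : ℝ)) (T.map F) = rowSmul T.c (rowX (fun _ : R2 => (1 : ℝ)) F) ∧
    rowY (fun _ : R2 => (1 : ℝ)) (T.map F) = rowSmul T.c (rowY (fun _ : R2 => (1 : ℝ)) F) ∧
    rowC (fun _ : R2 => (1 : ℝ)) (T.map F) = rowSmul T.c (rowC (fun _ : R2 => (1 : ℝ)) F) ∧
    rowBox (fun _ : R2 => (1 : ℝ)) (T.map F) = rowSmul T.c (rowBox (fun _ : R2 => (1 : ℝ)) F) := by
  obtain ⟨a, b, -, -, c⟩ := T.coeff_map F
  have hX : rowX (fun _ : R2 => (1 : ℝ)) (T.map F) = rowSmul T.c (rowX (fun _ : R2 => (1 : ℝ)) F) := by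
    simp only [rowX, c, (T.mul_map F _).1, (T.mul_map F _).2.1, dx_const_smul, mulN_smul, mulM_smul,
      rowSmul, smul_add]
  have hY : rowY (fun _ : R2 => (1 : ℝ)) (T.map F) = rowSmul T.c (rowY (fun _ : R2 => (1 : ℝ)) F) := by
    simp only [rowY, c, dy_const_smul, rowSmul]
  refine ⟨hX, hY, by simp [rowC, c, rowSmul], ?_⟩
  obtain ⟨xu, xv, xyu, xyv⟩ := dXY_smul (fun _ : R2 => (1 : ℝ)) F T.c (rowX (fun _ : R2 => (1 : ℝ)) F)
  obtain ⟨-, -, yyu, yyv⟩ := dXY_smul (fun _ : R2 => (1 : ℝ)) F T.c (rowY (fun _ : R2 => (1 : ℝ)) F)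
  simp only [rowBox, hX, hY, (T.dX_map F _).1, (T.dX_map F _).2, xu, xv, xyu, xyv, yyu, yyv, a, b]
  simp only [rowSmul, smul_add, smul_sub, smul_comm T.c]

theorem k_map : perp (fun _ : R2 => (1 : ℝ)) (T.map F) = (fun p => T.c • perp (fun _ : R2 => (1 : ℝ)) F p) ∧
    k1 (fun _ : R2 => (1 : ℝ)) (T.map F) = (fun p => T.c ^ 2 * k1 (fun _ : R2 => (1 : ℝ)) F p) ∧
    k2 (fun _ : R2 => (1 : ℝ)) (T.map F) = fun p => T.c ^ 2 * k2 (fun _ : R2 => (1 : ℝ)) F p := by
  obtain ⟨-, -, hP, hR, hc⟩ := T.coeff_map F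
  have hp : perp (fun _ : R2 => (1 : ℝ)) (T.map F) = fun p => T.c • perp (fun _ : R2 => (1 : ℝ)) F p := by
    funext p; simp [Algebra.perp, hP, hR]
  refine ⟨hp, ?_, ?_⟩ <;> funext p
  · simp only [k1, hp, hc, det2_smul_left, det2_smul_right]; ring
  · simp only [k2, (T.mul_map F _).2.1, hp, mulM_smul, hc, det2_smul_left, det2_smul_right]; ring

theorem chain_map : ∀ k, chain (fun _ : R2 => (1 : ℝ)) (T.map F) k = rowSmul (T.c ^ (4 * k + 1)) (chain (fun _ : R2 => (1 : ℝ)) F k)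
  | 0 => by simpa [chain] using (T.rows_map F).1
  | k + 1 => by
    obtain ⟨-, -, -, -, hc⟩ := T.coeff_map F
    obtain ⟨hp, h1, h2⟩ := T.k_map F
    have ih := chain_map k
    set e := T.c ^ (4 * k + 1) with he
    have hn : norm1 (fun _ : R2 => (1 : ℝ)) (T.map F) (rowSmul e (chain (fun _ : R2 => (1 : ℝ)) F k))
        = rowSmul (T.c ^ 2 * e) (norm1 (fun _ : R2 => (1 : ℝ)) F (chain (fun _ : R2 => (1 : ℝ)) F k)) := by
      simp only [norm1, rowSmul, h1, hp, hc, dy_const_smul, det2_smul_left, det2_smul_right,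
        smul_sub, smul_smul]
      congr 1 <;> funext p <;> congr 2 <;> ring
    obtain ⟨du, dv, yu, yv⟩ := dXY_smul (fun _ : R2 => (1 : ℝ)) F (T.c ^ 2 * e) (norm1 (fun _ : R2 => (1 : ℝ)) F (chain (fun _ : R2 => (1 : ℝ)) F k))
    have hpow : T.c ^ (4 * (k + 1) + 1) = T.c ^ 4 * e := by rw [he, ← pow_add]; ring_nf
    show Algebra.next (fun _ : R2 => (1 : ℝ)) (T.map F) (chain (fun _ : R2 => (1 : ℝ)) (T.map F) k) = rowSmul _ (Algebra.next (fun _ : R2 => (1 : ℝ)) F _)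
    rw [ih, hpow]
    simp only [Algebra.next, hn, (T.dX_map F _).1, (T.dX_map F _).2, du, dv, yu, yv, h1, h2,
      (T.mul_map F _).2.1, hp, mulM_smul, hc, dy_const_smul]
    simp only [rowSmul, det2_smul_left, det2_smul_right, smul_sub, smul_smul]
    congr 1 <;> funext p <;> module

theorem delta4_map : delta4 (fun _ : R2 => (1 : ℝ)) (T.map F) = fun p => T.c ^ 4 * delta4 (fun _ : R2 => (1 : ℝ)) F p := by
  obtain ⟨hX, hY, hC, hB⟩ := T.rows_map F
  show det4 _ _ _ _ = _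
  rw [hX, hY, hC, hB, det4_rowSmul]
  funext p
  show _ = T.c ^ 4 * det4 _ _ _ _ p
  ring

theorem mainMult_map : mainMult (fun _ : R2 => (1 : ℝ)) (T.map F) = fun p => (T.c ^ 5) ^ 2 * mainMult (fun _ : R2 => (1 : ℝ)) F p := by
  obtain ⟨ha, hb, hP, hR, -⟩ := T.coeff_map F
  obtain ⟨e1, e2, e3, e4, e5, e6⟩ := T.christoffel_map F
  have hd : ∀ (k : ℝ) (u : R2 → ℝ),
      dx (fun q => k * u q) = (fun p => k * dx u p) ∧ dy (fun q => k * u q) = fun p => k * dy u p :=
    fun k u => ⟨dx_const_smul k u, dy_const_smul k u⟩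
  have hp : pHess (fun _ : R2 => (1 : ℝ)) (T.map F) (delta4 (fun _ : R2 => (1 : ℝ)) (T.map F))
      = fun p => T.c ^ 5 * pHess (fun _ : R2 => (1 : ℝ)) F (delta4 (fun _ : R2 => (1 : ℝ)) F) p := by
    funext p
    simp only [pHess, hess11, hess12, hess22, T.delta4_map, ha, hb, hP, hR, e1, e2, e3, e4, e5, e6,
      (hd _ _).1, (hd _ _).2]
    ring
  funext p
  show m0 (fun _ : R2 => (1 : ℝ)) (T.map F) _ p = _
  simp only [m0, hp, ha, hb, (hd _ _).1, (hd _ _).2, mainMult]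
  ring

/-- The criterion does not vanish after a similarity. -/
theorem criterion_map_ne {p : R2} (h : criterion (fun _ : R2 => (1 : ℝ)) F p ≠ 0) :
    criterion (fun _ : R2 => (1 : ℝ)) (T.map F) p ≠ 0 := by
  intro h0
  apply h
  obtain ⟨h1, h2⟩ := (add_eq_zero_iff_of_nonneg (sq_nonneg _)
    (Finset.sum_nonneg fun k _ => Finset.sum_nonneg fun j _ => sq_nonneg _)).1 h0
  obtain ⟨-, hY, hC, -⟩ := T.rows_map F
  have hm : mainMult (fun _ : R2 => (1 : ℝ)) F p = 0 := by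
    rw [T.mainMult_map] at h1
    simpa [T.c_ne] using h1
  have hjk : ∀ k ∈ Finset.range 6, ∀ j ∈ Finset.range k, detChain (fun _ : R2 => (1 : ℝ)) F j k p = 0 := by
    intro k hk j hj
    have := (Finset.sum_eq_zero_iff_of_nonneg fun j _ => sq_nonneg _).1
      ((Finset.sum_eq_zero_iff_of_nonneg fun k _ => Finset.sum_nonneg fun j _ => sq_nonneg _).1
        h2 k hk) j hj
    rw [detChain, hY, hC, T.chain_map, T.chain_map, det4_rowSmul] at this
    simpa [T.c_ne, detChain] using this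
  simp only [criterion, hm]
  rw [zero_pow two_ne_zero, zero_add]
  exact Finset.sum_eq_zero fun k hk => Finset.sum_eq_zero fun j hj => by simp [hjk k hk j hj]

end Simil

/-- A positive multiple of a linear isometry of four-space. -/
def simil (t : ℝ) (ht : t ≠ 0) (A : V4 ≃ₗᵢ[ℝ] V4) : Simil where
  S := A.toContinuousLinearEquiv.trans (ContinuousLinearEquiv.smulLeft (Units.mk0 t ht))
  s := t ^ 2
  s_ne := pow_ne_zero 2 ht
  inner_map x y := by
    simp [inner_smul_left, inner_smul_right, A.inner_map_map]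
    ring

theorem simil_apply (t : ℝ) (ht : t ≠ 0) (A : V4 ≃ₗᵢ[ℝ] V4) (x : V4) :
    (simil t ht A).S x = t • A x := rfl

/-- `GoodAt` does not see multiples of isometries of four-space. -/
theorem GoodAt.smul_isometry {f : E2 → E4} {y : E2} {t : ℝ} (ht : t ≠ 0)
    (A : E4 ≃ₗᵢ[ℝ] E4) (h : GoodAt f y) : GoodAt (fun z => t • A (f z)) y := by
  obtain ⟨φ, q, hφ, hq, hi, hd, hw, hc⟩ := h
  set T := simil t ht A
  have e : (fun z => t • A (f z)) ∘ φ = T.map (f ∘ φ) := rfl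
  refine ⟨φ, q, hφ, hq, hi, ?_, ?_, ?_⟩
  · rw [e, T.detg_map]; exact mul_ne_zero (pow_ne_zero 2 T.s_ne) hd
  · rw [e, (T.frame_map _).2.2.1]; exact mul_ne_zero T.s_ne hw
  · rw [e]; exact T.criterion_map_ne _ hc

end

end Vale.Agent.P205.Full
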