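import Vale.Agent.P205.Full.Global.Transition
import Vale.Agent.P205.Full.Holes.Accel
import Vale.Agent.P205.Full.Holes.Contract
import Vale.Agent.P205.Full.Holes.Newton
import Vale.Agent.P205.Full.Holes.Scale

/-!
# P205 holes: one hole

`exists_hole`: in linear coordinates `w` adapted to the metric at a critical point of `v`, a map
which equals a small multiple of the map into the sphere away from a small disc, is exact up to
`β² dv²` and `η²` times a positive form on a tiny disc, good there, and short elsewhere.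
-/

namespace Vale.Agent.P205.Holes

open Set Filter Metric Function Vale.Agent.P205.Full
open scoped ContDiff Topology RealInnerProductSpace

noncomputable section

/-- The amplitude of the rank one part, as a function of the squared zoomed radius. -/
def bProf (R s : ℝ) : ℝ := ramp (R ^ 2 / 8) (3 * R ^ 2 / 8) s

/-- The amplitude of the positive part. -/
def eProf (R s : ℝ) : ℝ := ramp (2 * R ^ 2 / 8) (3 * R ^ 2 / 8) s

/-- The cut of the correction. -/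
def cutProf (R s : ℝ) : ℝ := 1 - ramp (4 * R ^ 2 / 8) (5 * R ^ 2 / 8) s

theorem prof_one {R s : ℝ} (hR : 0 < R) (hs : 3 * R ^ 2 / 8 ≤ s) :
    bProf R s = 1 ∧ eProf R s = 1 :=
  ⟨ramp_one (by nlinarith) hs, ramp_one (by nlinarith) hs⟩

theorem cut_one {R s : ℝ} (hR : 0 < R) (hs : s ≤ 4 * R ^ 2 / 8) : cutProf R s = 1 := by
  rw [cutProf, ramp_zero (by nlinarith) hs, sub_zero]

/-- The square of a covector. -/
def sqForm (l : E2 →L[ℝ] ℝ) : E2 →L[ℝ] E2 →L[ℝ] ℝ := l.smulRight l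

theorem sqForm_apply (l : E2 →L[ℝ] ℝ) (a b : E2) : sqForm l a b = l a * l b := rfl

/-- The Euclidean product. -/
def stdForm : E2 →L[ℝ] E2 →L[ℝ] ℝ := innerSL ℝ

theorem stdForm_apply (a b : E2) : stdForm a b = ⟪a, b⟫ := rfl

/-- The change of the model metric. -/
def target (R : ℝ) (G : E2 → E2 →L[ℝ] E2 →L[ℝ] ℝ) (v : E2 → ℝ) (q : (ℝ × ℝ × ℝ) × E2) :
    E2 →L[ℝ] E2 →L[ℝ] ℝ :=
  cutProf R (‖q.2‖ ^ 2) • (q.1.1 • (G (q.1.2.2 • q.2)
    - (q.1.2.1 * bProf R (‖q.2‖ ^ 2)) ^ 2 • sqForm (fderiv ℝ v (q.1.2.2 • q.2))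
    - (q.1.2.1 * eProf R (‖q.2‖ ^ 2)) ^ 2 • stdForm) - stdForm)

theorem target_apply (R : ℝ) (G : E2 → E2 →L[ℝ] E2 →L[ℝ] ℝ) (v : E2 → ℝ) (d κ a : ℝ) (z s t : E2) :
    target R G v ((d, κ, a), z) s t = cutProf R (‖z‖ ^ 2) * (d * (G (a • z) s t
      - (κ * bProf R (‖z‖ ^ 2)) ^ 2 * (fderiv ℝ v (a • z) s * fderiv ℝ v (a • z) t)
      - (κ * eProf R (‖z‖ ^ 2)) ^ 2 * ⟪s, t⟫) - ⟪s, t⟫) := by
  simp [target, sqForm_apply, stdForm_apply]

theorem contDiff_target (R : ℝ) {G : E2 → E2 →L[ℝ] E2 →L[ℝ] ℝ} {v : E2 → ℝ}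
    (hG : ContDiff ℝ ∞ G) (hv : ContDiff ℝ ∞ v) : ContDiff ℝ ∞ (target R G v) := by
  have hs : ContDiff ℝ ∞ fun q : (ℝ × ℝ × ℝ) × E2 => ‖q.2‖ ^ 2 := contDiff_snd.norm_sq ℝ
  have h1 : ContDiff ℝ ∞ fun q : (ℝ × ℝ × ℝ) × E2 => q.1.1 := contDiff_fst.comp contDiff_fst
  have h2 : ContDiff ℝ ∞ fun q : (ℝ × ℝ × ℝ) × E2 => q.1.2.1 :=
    contDiff_fst.comp (contDiff_snd.comp contDiff_fst)
  have h3 : ContDiff ℝ ∞ fun q : (ℝ × ℝ × ℝ) × E2 => q.1.2.2 • q.2 :=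
    (contDiff_snd.comp (contDiff_snd.comp contDiff_fst)).smul contDiff_snd
  refine contDiff_clm_apply_iff.2 fun x => contDiff_clm_apply_iff.2 fun y => ?_
  have e : (fun q : (ℝ × ℝ × ℝ) × E2 => target R G v q x y) = fun q =>
      cutProf R (‖q.2‖ ^ 2) * (q.1.1 * (G (q.1.2.2 • q.2) x y
        - (q.1.2.1 * bProf R (‖q.2‖ ^ 2)) ^ 2
          * (fderiv ℝ v (q.1.2.2 • q.2) x * fderiv ℝ v (q.1.2.2 • q.2) y)
        - (q.1.2.1 * eProf R (‖q.2‖ ^ 2)) ^ 2 * ⟪x, y⟫) - ⟪x, y⟫) :=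
    funext fun q => target_apply R G v _ _ _ _ _ _
  rw [e]
  have hl : ∀ x, ContDiff ℝ ∞ fun q : (ℝ × ℝ × ℝ) × E2 => fderiv ℝ v (q.1.2.2 • q.2) x :=
    fun x => ((hv.fderiv_right (m := ∞) (by simp)).comp h3).clm_apply contDiff_const
  exact ((contDiff_const.sub (contDiff_ramp _ _)).comp hs).mul ((h1.mul
    (((((hG.comp h3).clm_apply contDiff_const).clm_apply contDiff_const).sub
      (((h2.mul ((contDiff_ramp _ _).comp hs)).pow 2).mul ((hl x).mul (hl y)))).sub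
    (((h2.mul ((contDiff_ramp _ _).comp hs)).pow 2).mul contDiff_const))).sub contDiff_const)

/-- Small positive parameters. -/
theorem small_evt (c : ℝ) {d : ℝ} (hd : 0 < d) : ∀ᶠ s in 𝓝[>] (0 : ℝ), s * c < d :=
  (((continuous_id.mul continuous_const).tendsto' (0 : ℝ) 0 (by simp)).eventually
    (gt_mem_nhds hd)).filter_mono nhdsWithin_le_nhds

/-- Bilinear forms near the inner product are positive with margin. -/
theorem exists_margin {G : E2 → E2 →L[ℝ] E2 →L[ℝ] ℝ} (hG : Continuous G)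
    (hG0 : ∀ s t, G 0 s t = ⟪s, t⟫) {c : ℝ} (hc : 0 < c) :
    ∃ ρ > (0 : ℝ), ∀ w, ‖w‖ ≤ ρ → ∀ u, (1 - c) * ‖u‖ ^ 2 ≤ G w u u := by
  have hcont : Continuous fun q : E2 × E2 => G q.1 q.2 q.2 :=
    ((hG.comp continuous_fst).clm_apply continuous_snd).clm_apply continuous_snd
  have hev : ∀ᶠ w in 𝓝 (0 : E2), ∀ u ∈ sphere (0 : E2) 1, 1 - c < G w u u :=
    (isCompact_sphere (0 : E2) 1).eventually_forall_of_forall_eventually fun u hu =>
      hcont.continuousAt.eventually (lt_mem_nhds (by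
        show 1 - c < G 0 u u
        rw [hG0, real_inner_self_eq_norm_sq, mem_sphere_zero_iff_norm.1 hu]; linarith))
  obtain ⟨ρ, hρ, h⟩ := Metric.eventually_nhds_iff.1 hev
  refine ⟨ρ / 2, half_pos hρ, fun w hw u => ?_⟩
  by_cases hu : u = 0
  · simp [hu]
  have hn : 0 < ‖u‖ := norm_pos_iff.2 hu
  have h1 := h (y := w) (by rw [dist_zero_right]; linarith) (‖u‖⁻¹ • u)
    (by simp [norm_smul, inv_mul_cancel₀ hn.ne'])
  simp only [map_smul, _root_.smul_apply, smul_eq_mul] at h1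
  calc (1 - c) * ‖u‖ ^ 2 ≤ ‖u‖⁻¹ * (‖u‖⁻¹ * G w u u) * ‖u‖ ^ 2 :=
        mul_le_mul_of_nonneg_right h1.le (sq_nonneg _)
    _ = G w u u := by field_simp

/-- A positive form is uniformly positive on a compact set. -/
theorem exists_pos_bound {G : E2 → E2 →L[ℝ] E2 →L[ℝ] ℝ} (hG : Continuous G) {K : Set E2}
    (hK : IsCompact K) (hpos : ∀ w ∈ K, ∀ u, u ≠ 0 → 0 < G w u u) :
    ∃ g₀ > (0 : ℝ), ∀ w ∈ K, ∀ u, g₀ * ‖u‖ ^ 2 ≤ G w u u := by
  rcases K.eq_empty_or_nonempty with rfl | hne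
  · exact ⟨1, one_pos, fun w hw => absurd hw (notMem_empty w)⟩
  have hc : Continuous fun q : E2 × E2 => G q.1 q.2 q.2 :=
    ((hG.comp continuous_fst).clm_apply continuous_snd).clm_apply continuous_snd
  obtain ⟨q, hq, hmin⟩ := (hK.prod (isCompact_sphere (0 : E2) 1)).exists_isMinOn
    (hne.prod (NormedSpace.sphere_nonempty.2 zero_le_one)) hc.continuousOn
  refine ⟨G q.1 q.2 q.2, hpos _ hq.1 _ (ne_zero_of_mem_unit_sphere (⟨q.2, hq.2⟩ : sphere (0 : E2) 1)),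
    fun w hw u => ?_⟩
  by_cases hu : u = 0
  · simp [hu]
  have hn : 0 < ‖u‖ := norm_pos_iff.2 hu
  have h := hmin (show (w, ‖u‖⁻¹ • u) ∈ K ×ˢ sphere (0 : E2) 1 from
    ⟨hw, by simp [norm_smul, inv_mul_cancel₀ hn.ne']⟩)
  simp only [mem_ofPred_eq, map_smul, _root_.smul_apply, smul_eq_mul] at h
  calc G q.1 q.2 q.2 * ‖u‖ ^ 2 ≤ ‖u‖⁻¹ * (‖u‖⁻¹ * G w u u) * ‖u‖ ^ 2 :=
        mul_le_mul_of_nonneg_right h (sq_nonneg _)
    _ = G w u u := by field_simp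

/-- The zoomed map of the hole. -/
def zoomMap (Φ : Model) (K : E2 → E2) (x : E2 → E4) (z : E2) : E4 := Φ.ψ (K z) + x z

/-- The map of the hole. -/
def holeMap (Φ : Model) (A : E4 ≃ₗᵢ[ℝ] E4) (K : E2 → E2) (x h' : E2 → E4) (ρ₀ t a : ℝ) (w : E2) :
    E4 :=
  if ‖w‖ < ρ₀ then t • A (zoomMap Φ K x (a⁻¹ • w)) else t • h' w

section Hole

variable {Φ : Model} {A : E4 ≃ₗᵢ[ℝ] E4} {N : E2 →L[ℝ] E2} {K : E2 → E2} {x h' : E2 → E4}
  {ρ₀ R t a : ℝ} {w : E2}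

theorem holeMap_inner (hw : ‖w‖ < ρ₀) :
    holeMap Φ A K x h' ρ₀ t a =ᶠ[𝓝 w] fun y => t • A (zoomMap Φ K x (a⁻¹ • y)) := by
  filter_upwards [(isOpen_lt continuous_norm continuous_const).mem_nhds hw] with y hy
  simp only [holeMap, if_pos (show ‖y‖ < ρ₀ from hy)]

/-- The facts that join the two expressions of the map of the hole. -/
structure Joins (Φ : Model) (A : E4 ≃ₗᵢ[ℝ] E4) (N : E2 →L[ℝ] E2) (K : E2 → E2) (x h' : E2 → E4)
    (ρ₀ R a : ℝ) : Prop where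
  a_pos : 0 < a
  small : a * R ≤ ρ₀ / 2
  x_off : ∀ z, R ≤ ‖z‖ → x z = 0
  K_far : ∀ z, ρ₀ / 2 ≤ a * ‖z‖ → K z = a • N z
  h_near : ∀ y, ‖y‖ ≤ ρ₀ → h' y = A (Φ.ψ (N y))

theorem holeMap_outer (J : Joins Φ A N K x h' ρ₀ R a) (hw : ρ₀ / 2 < ‖w‖) :
    holeMap Φ A K x h' ρ₀ t a =ᶠ[𝓝 w] fun y => t • h' y := by
  filter_upwards [(isOpen_lt continuous_const continuous_norm).mem_nhds hw] with y hy
  unfold holeMap
  split_ifs with h
  · have hz : a * ‖a⁻¹ • y‖ = ‖y‖ := by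
      rw [norm_smul, Real.norm_eq_abs, abs_inv, abs_of_pos J.a_pos,
        mul_inv_cancel_left₀ J.a_pos.ne']
    have h1 : R ≤ ‖a⁻¹ • y‖ :=
      le_of_mul_le_mul_left (by rw [hz]; exact J.small.trans hy.le) J.a_pos
    simp only [zoomMap, J.x_off _ h1, add_zero, J.K_far _ (hz.symm ▸ hy.le), map_smul,
      smul_smul, mul_inv_cancel₀ J.a_pos.ne', one_smul, J.h_near y h.le]
  · rfl

theorem contDiff_holeMap (J : Joins Φ A N K x h' ρ₀ R a) (hK : ContDiff ℝ ∞ K)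
    (hx : ContDiff ℝ ∞ x) (hh : ContDiff ℝ ∞ h') :
    ContDiff ℝ ∞ (holeMap Φ A K x h' ρ₀ t a) := by
  refine contDiff_iff_contDiffAt.2 fun w => ?_
  rcases lt_or_ge ‖w‖ ρ₀ with hw | hw
  · exact (((A.contDiff.comp ((Φ.contDiff_ψ.comp hK).add hx)).comp
      (contDiff_id.const_smul a⁻¹)).const_smul t).contDiffAt.congr_of_eventuallyEq
        (holeMap_inner hw)
  · rcases lt_or_ge (ρ₀ / 2) ‖w‖ with hw' | hw'
    · exact (hh.const_smul t).contDiffAt.congr_of_eventuallyEq (holeMap_outer J hw')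
    · have hρ : ρ₀ ≤ 0 := by linarith [norm_nonneg w]
      exact (hh.const_smul t).contDiffAt.congr_of_eventuallyEq (Eventually.of_forall fun y => by
        simp only [holeMap, if_neg (not_lt.2 (hρ.trans (norm_nonneg y)))])

theorem pullE2_congr {f g : E2 → E4} {y : E2} (h : f =ᶠ[𝓝 y] g) (u v : E2) :
    pullE2 f y u v = pullE2 g y u v := by
  simp only [pullE2, h.fderiv_eq]

theorem zoom_fderiv {Z : E2 → E4} (hZ : ContDiff ℝ ∞ Z) (t a : ℝ) (w u : E2) :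
    fderiv ℝ (fun y => t • A (Z (a⁻¹ • y))) w u = (t * a⁻¹) • A (fderiv ℝ Z (a⁻¹ • w) u) := by
  have h1 : HasFDerivAt (fun y : E2 => a⁻¹ • y) (a⁻¹ • ContinuousLinearMap.id ℝ E2) w :=
    (a⁻¹ • ContinuousLinearMap.id ℝ E2).hasFDerivAt
  have h2 := ((hZ.differentiable (by simp)) (a⁻¹ • w)).hasFDerivAt.comp w h1
  have h3 := (A.toContinuousLinearEquiv.toContinuousLinearMap.hasFDerivAt.comp w h2).const_smul t
  rw [show (fun y => t • A (Z (a⁻¹ • y))) = t • (A.toContinuousLinearEquiv.toContinuousLinearMap ∘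
    Z ∘ fun y => a⁻¹ • y) from rfl, h3.fderiv]
  simp [smul_smul]

theorem zoom_pull {Z : E2 → E4} (hZ : ContDiff ℝ ∞ Z) (t a : ℝ) (w u v : E2) :
    pullE2 (fun y => t • A (Z (a⁻¹ • y))) w u v
      = (t * a⁻¹) ^ 2 * pullE2 Z (a⁻¹ • w) u v := by
  simp only [pullE2, zoom_fderiv hZ, inner_smul_left, inner_smul_right, A.inner_map_map,
    conj_trivial]
  ring

theorem zoom_accel {Z : E2 → E4} (hZ : ContDiff ℝ ∞ Z) {t a : ℝ} (ht : t ≠ 0) (ha : a ≠ 0)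
    {w : E2} (h : Injective (fderiv ℝ Z (a⁻¹ • w)) ∧ ∀ u, u ≠ 0 → NormalAccel Z (a⁻¹ • w) u) :
    Injective (fderiv ℝ (fun y => t • A (Z (a⁻¹ • y))) w) ∧
      ∀ u, u ≠ 0 → NormalAccel (fun y => t • A (Z (a⁻¹ • y))) w u := by
  refine ⟨(injective_iff_map_eq_zero _).2 fun u hu => ?_, fun u hu => ?_⟩
  · rw [zoom_fderiv hZ, smul_eq_zero, mul_eq_zero, inv_eq_zero] at hu
    exact h.1 ((A.map_eq_iff (y := (0 : E4))).1 (by
      rw [map_zero]; exact hu.resolve_left (by simp [ht, ha])) |>.trans (map_zero _).symm)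
  · refine NormalAccel.clm_comp (f := fun y => Z (a⁻¹ • y)) (simil t ht A).S ?_
    have hd : fderiv ℝ (fun y : E2 => a⁻¹ • y) w = a⁻¹ • ContinuousLinearMap.id ℝ E2 :=
      (a⁻¹ • ContinuousLinearMap.id ℝ E2).fderiv
    refine (normalAccel_comp (f := Z) (ψ := fun y => a⁻¹ • y) hZ.contDiffAt
      (contDiff_id.const_smul a⁻¹).contDiffAt ?_).2 ?_
    · rw [hd]
      exact fun y => ⟨a • y, by simp [ha]⟩
    · rw [hd]
      exact h.2 _ (by simp [ha, hu])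

theorem zoom_good {Z : E2 → E4} {t a : ℝ} (ht : t ≠ 0) (ha : a ≠ 0) {w : E2}
    (h : GoodAt Z (a⁻¹ • w)) : GoodAt (fun y => t • A (Z (a⁻¹ • y))) w := by
  have h' := GoodAt.comp_inv (f := Z) (g := fun y => Z (a⁻¹ • y)) (T := fun z => a • z)
    isOpen_univ (mem_univ _) (contDiff_id.const_smul a).contDiffOn ?_
    (fun z _ => by simp [smul_smul, inv_mul_cancel₀ ha]) h
  · rw [smul_inv_smul₀ ha] at h'
    exact GoodAt.smul_isometry ht A h'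
  · rw [show (fun z : E2 => a • z) = ⇑(a • ContinuousLinearMap.id ℝ E2) from rfl,
      (a • ContinuousLinearMap.id ℝ E2).fderiv]
    exact fun p q hpq => smul_right_injective E2 ha hpq

theorem zoom_sphere {Φ : Model} {K : E2 → E2} (hK : ContDiff ℝ ∞ K) (z : E2)
    (hi : Injective (fderiv ℝ K z)) :
    (Injective (fderiv ℝ (Φ.ψ ∘ K) z) ∧ ∀ u, u ≠ 0 → NormalAccel (Φ.ψ ∘ K) z u) ∧
      ∀ u, pullE2 (Φ.ψ ∘ K) z u u = ‖fderiv ℝ K z u‖ ^ 2 := by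
  have hd : ∀ u, fderiv ℝ (Φ.ψ ∘ K) z u = fderiv ℝ Φ.ψ (K z) (fderiv ℝ K z u) := fun u => by
    rw [fderiv_comp z (Φ.contDiff_ψ.differentiable (by simp)).differentiableAt
      (hK.differentiable (by simp)).differentiableAt]
    rfl
  have hn : ∀ u, pullE2 (Φ.ψ ∘ K) z u u = ‖fderiv ℝ K z u‖ ^ 2 := fun u => by
    simp only [pullE2, hd, Φ.inner_ψ, real_inner_self_eq_norm_sq]
  have hne : ∀ u, u ≠ 0 → fderiv ℝ (Φ.ψ ∘ K) z u ≠ 0 := fun u hu h0 => by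
    have := hn u
    rw [pullE2, h0, inner_zero_left] at this
    exact hu (hi ((norm_eq_zero.1 (pow_eq_zero_iff two_ne_zero |>.1 this.symm)).trans
      (map_zero _).symm))
  refine ⟨⟨(injective_iff_map_eq_zero _).2 fun u hu => by_contra fun h => hne u h hu, fun u hu => ?_⟩,
    hn⟩
  exact normalAccel_of_norm (Φ.contDiff_ψ.comp hK).contDiffAt
    (Eventually.of_forall fun y => Φ.norm_ψ (K y)) (hne u hu)

end Hole

/-- The data of one hole at one parameter. -/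
structure HoleData (Φ : Model) (A : E4 ≃ₗᵢ[ℝ] E4) (N : E2 →L[ℝ] E2) (K : E2 → E2)
    (x h' : E2 → E4) (G : E2 → E2 →L[ℝ] E2 →L[ℝ] ℝ) (v : E2 → ℝ) (R ρ₀ ρm d κ a : ℝ) : Prop
    extends Joins Φ A N K x h' ρ₀ R a where
  R_pos : 0 < R
  d_gt : 1 < d
  κ_pos : 0 < κ
  ρm_le : ρm ≤ ρ₀
  zoom_small : a * (2 * R) < ρm
  h'_smooth : ContDiff ℝ ∞ h'
  K_smooth : ContDiff ℝ ∞ K
  x_smooth : ContDiff ℝ ∞ x
  K_id : ∀ z, ‖z‖ ≤ 2 * R → K z = z
  K_inj : ∀ z, Injective (fderiv ℝ K z)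
  eqn : ∀ z s t, pullE2 (fun y => Φ.ψ y + x y) z s t
    = ⟪s, t⟫ + target R G v ((d, κ, a), z) s t

section Data

variable {Φ : Model} {A : E4 ≃ₗᵢ[ℝ] E4} {N : E2 →L[ℝ] E2} {K : E2 → E2} {x h' : E2 → E4}
  {G : E2 → E2 →L[ℝ] E2 →L[ℝ] ℝ} {v : E2 → ℝ} {R ρ₀ ρm d κ a : ℝ} {w : E2}

variable (D : HoleData Φ A N K x h' G v R ρ₀ ρm d κ a)
include D

theorem HoleData.t_ne : a / √d ≠ 0 := by
  have := D.a_pos
  have := D.d_gt
  positivity

theorem HoleData.factor : (a / √d * a⁻¹) ^ 2 = 1 / d := by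
  have := D.a_pos
  have := D.d_gt
  rw [mul_pow, div_pow, Real.sq_sqrt (by linarith), inv_pow]
  field_simp

theorem HoleData.radius_eq (w : E2) : a * ‖a⁻¹ • w‖ = ‖w‖ := by
  rw [norm_smul, Real.norm_eq_abs, abs_inv, abs_of_pos D.a_pos,
    mul_inv_cancel_left₀ D.a_pos.ne']

theorem HoleData.mem_inner (hw : ‖a⁻¹ • w‖ < 2 * R) : ‖w‖ < ρm := by
  have := mul_lt_mul_of_pos_left hw D.a_pos
  rw [D.radius_eq] at this
  linarith [D.zoom_small]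

theorem HoleData.near_eq {z : E2} (hz : ‖z‖ < 2 * R) :
    zoomMap Φ K x =ᶠ[𝓝 z] fun y => Φ.ψ y + x y := by
  filter_upwards [(isOpen_lt continuous_norm continuous_const).mem_nhds hz] with y hy
  simp [zoomMap, D.K_id y (le_of_lt hy)]

theorem HoleData.far_eq {z : E2} (hz : 2 * R ≤ ‖z‖) : zoomMap Φ K x =ᶠ[𝓝 z] Φ.ψ ∘ K := by
  filter_upwards [(isOpen_lt continuous_const continuous_norm).mem_nhds
    (show R < ‖z‖ by linarith [D.R_pos])] with y hy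
  simp [zoomMap, D.x_off y hy.le]

theorem HoleData.smooth_zoom : ContDiff ℝ ∞ (zoomMap Φ K x) :=
  (Φ.contDiff_ψ.comp D.K_smooth).add D.x_smooth

/-- The pullback near the hole. -/
theorem HoleData.pull_near (hz : ‖a⁻¹ • w‖ < 2 * R) (s t : E2) : pullE2 (holeMap Φ A K x h' ρ₀ (a / √d) a) w s t
    = 1 / d * (⟪s, t⟫ + target R G v ((d, κ, a), a⁻¹ • w) s t) := by
  rw [pullE2_congr (holeMap_inner ((D.mem_inner hz).trans_le D.ρm_le)), zoom_pull D.smooth_zoom,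
    D.factor, pullE2_congr (D.near_eq hz), D.eqn]

/-- The pullback in the neck. -/
theorem HoleData.pull_neck (hz : 2 * R ≤ ‖a⁻¹ • w‖) (hw : ‖w‖ < ρ₀) (u : E2) :
    pullE2 (holeMap Φ A K x h' ρ₀ (a / √d) a) w u u = 1 / d * ‖fderiv ℝ K (a⁻¹ • w) u‖ ^ 2 := by
  rw [pullE2_congr (holeMap_inner hw), zoom_pull D.smooth_zoom, D.factor,
    pullE2_congr (D.far_eq hz), (zoom_sphere D.K_smooth _ (D.K_inj _)).2]

/-- The pullback outside. -/
theorem HoleData.pull_outer (hw : ρ₀ ≤ ‖w‖) (u : E2) :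
    pullE2 (holeMap Φ A K x h' ρ₀ (a / √d) a) w u u = a ^ 2 * (1 / d) * ‖fderiv ℝ h' w u‖ ^ 2 := by
  have h0 : ρ₀ / 2 < ‖w‖ := by
    have h1 := D.zoom_small.trans_le D.ρm_le
    nlinarith [mul_pos D.a_pos D.R_pos]
  rw [pullE2_congr (holeMap_outer D.toJoins h0), pullE2,
    fderiv_fun_const_smul (D.h'_smooth.differentiable (by simp)).differentiableAt]
  simp only [_root_.smul_apply, inner_smul_left, inner_smul_right, conj_trivial,
    real_inner_self_eq_norm_sq]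
  rw [← mul_assoc, div_mul_div_comm, Real.mul_self_sqrt (by linarith [D.d_gt])]
  ring

/-- Immersion with normal acceleration in every direction. -/
theorem HoleData.accel {C δ W : ℝ} (hC : ∀ z ∈ closedBall (0 : E2) (2 * R),
      ‖fderiv ℝ (fderiv ℝ Φ.ψ) z‖ ≤ C) (hδ : δ * (4 * (C + 2)) ≤ 1)
    (hx1 : ∀ z, ‖iteratedFDeriv ℝ 1 x z‖ ≤ δ) (hx2 : ∀ z, ‖iteratedFDeriv ℝ 2 x z‖ ≤ δ)
    (hunit : ∀ w, ‖w‖ < W → ‖h' w‖ = 1 ∧ Injective (fderiv ℝ h' w)) (hw : ‖w‖ < W) :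
    Injective (fderiv ℝ (holeMap Φ A K x h' ρ₀ (a / √d) a) w) ∧ ∀ u, u ≠ 0 → NormalAccel (holeMap Φ A K x h' ρ₀ (a / √d) a) w u := by
  rcases lt_or_ge ‖w‖ ρ₀ with h0 | h0
  · have hz : Injective (fderiv ℝ (zoomMap Φ K x) (a⁻¹ • w)) ∧
        ∀ u, u ≠ 0 → NormalAccel (zoomMap Φ K x) (a⁻¹ • w) u := by
      rcases lt_or_ge ‖a⁻¹ • w‖ (2 * R) with hz | hz
      · obtain ⟨a1, a2⟩ := normalAccel_near (f := Φ.ψ) (x := x) (C := C) (δ := δ)
          (Φ.contDiff_ψ.contDiffAt (x := a⁻¹ • w)) D.x_smooth.contDiffAt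
          (Eventually.of_forall Φ.norm_ψ)
          (fun v => by
            rw [← pow_left_inj₀ (norm_nonneg _) (norm_nonneg v) two_ne_zero,
              ← real_inner_self_eq_norm_sq, Φ.inner_ψ, real_inner_self_eq_norm_sq])
          (hC _ (mem_closedBall_zero_iff.2 hz.le)) hδ
          (by rw [← norm_iteratedFDeriv_one]; exact hx1 _)
          (by rw [← norm_iteratedFDeriv_one, norm_iteratedFDeriv_fderiv]; exact hx2 _)
        exact ⟨by rw [(D.near_eq hz).fderiv_eq]; exact a1,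
          fun u hu => NormalAccel.congr (D.near_eq hz).symm (a2 u hu)⟩
      · obtain ⟨⟨a1, a2⟩, -⟩ := zoom_sphere (Φ := Φ) D.K_smooth (a⁻¹ • w) (D.K_inj _)
        exact ⟨by rw [(D.far_eq hz).fderiv_eq]; exact a1,
          fun u hu => NormalAccel.congr (D.far_eq hz).symm (a2 u hu)⟩
    obtain ⟨b1, b2⟩ := zoom_accel (A := A) D.smooth_zoom D.t_ne D.a_pos.ne' hz
    exact ⟨by rw [(holeMap_inner h0).fderiv_eq]; exact b1,
      fun u hu => NormalAccel.congr (holeMap_inner h0).symm (b2 u hu)⟩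
  · have h1 : ρ₀ / 2 < ‖w‖ := by
      have h1 := D.zoom_small.trans_le D.ρm_le
      nlinarith [mul_pos D.a_pos D.R_pos]
    have e := holeMap_outer (t := a / √d) D.toJoins h1
    obtain ⟨-, hui⟩ := hunit w hw
    have hd' : ∀ u, fderiv ℝ (fun y => (a / √d) • h' y) w u = (a / √d) • fderiv ℝ h' w u :=
      fun u => by
        rw [fderiv_fun_const_smul (D.h'_smooth.differentiable (by simp)).differentiableAt]
        rfl
    refine ⟨?_, fun u hu => NormalAccel.congr e.symm ?_⟩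
    · rw [e.fderiv_eq]
      exact fun p q hpq => hui (smul_right_injective E4 D.t_ne (by simpa only [hd'] using hpq))
    · refine normalAccel_of_norm (D.h'_smooth.const_smul _).contDiffAt (c := |a / √d|) ?_ ?_
      · filter_upwards [(isOpen_lt continuous_norm continuous_const).mem_nhds hw] with y hy
        rw [norm_smul, (hunit y hy).1, mul_one, Real.norm_eq_abs]
      · rw [hd']
        exact smul_ne_zero D.t_ne fun h0 => hu (hui (h0.trans (map_zero _).symm))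

/-- Exactness and goodness in the middle of the hole. -/
theorem HoleData.exact {ε : ℝ} {r : ℕ}
    (hstab : ∀ F : E2 → E4, ContDiff ℝ ∞ F → ∀ y ∈ closedBall (0 : E2) R,
      (∀ i ≤ r, ‖iteratedFDeriv ℝ i F y - iteratedFDeriv ℝ i Φ.ψ y‖ < ε) → GoodAt F y)
    (hx : ∀ i ≤ r, ∀ z, ‖iteratedFDeriv ℝ i x z‖ < ε)
    (hw : ‖a⁻¹ • w‖ ^ 2 < 3 * R ^ 2 / 8) :
    GoodAt (holeMap Φ A K x h' ρ₀ (a / √d) a) w ∧ ∀ s t, pullE2 (holeMap Φ A K x h' ρ₀ (a / √d) a) w s t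
      + (κ * bProf R (‖a⁻¹ • w‖ ^ 2)) ^ 2 * (fderiv ℝ v w s * fderiv ℝ v w t)
      + (κ * eProf R (‖a⁻¹ • w‖ ^ 2)) ^ 2 * ⟪s, t⟫ = G w s t := by
  have hR := D.R_pos
  have hz : ‖a⁻¹ • w‖ < R := lt_of_pow_lt_pow_left₀ 2 hR.le (by nlinarith)
  have hz2 : ‖a⁻¹ • w‖ < 2 * R := by linarith
  refine ⟨?_, fun s t => ?_⟩
  · refine GoodAt.congr (holeMap_inner ((D.mem_inner hz2).trans_le D.ρm_le)).symm
      (zoom_good D.t_ne D.a_pos.ne' (GoodAt.congr (D.near_eq hz2).symm ?_))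
    refine hstab _ (Φ.contDiff_ψ.add D.x_smooth) _ (mem_closedBall_zero_iff.2 hz.le) fun i hi => ?_
    have h3 : iteratedFDeriv ℝ i (fun y => Φ.ψ y + x y) (a⁻¹ • w)
        = iteratedFDeriv ℝ i Φ.ψ (a⁻¹ • w) + iteratedFDeriv ℝ i x (a⁻¹ • w) :=
      iteratedFDeriv_add_apply (Φ.contDiff_ψ.contDiffAt.of_le (by exact_mod_cast le_top))
        (D.x_smooth.contDiffAt.of_le (by exact_mod_cast le_top))
    rw [h3, add_sub_cancel_left]
    exact hx i hi _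
  · have hcd : 1 / d * d = 1 := one_div_mul_cancel (by linarith [D.d_gt])
    rw [D.pull_near hz2, target_apply, smul_inv_smul₀ D.a_pos.ne', cut_one hR (by nlinarith)]
    linear_combination (G w s t
      - (κ * bProf R (‖a⁻¹ • w‖ ^ 2)) ^ 2 * (fderiv ℝ v w s * fderiv ℝ v w t)
      - (κ * eProf R (‖a⁻¹ • w‖ ^ 2)) ^ 2 * ⟪s, t⟫) * hcd

/-- Shortness away from the middle of the hole. -/
theorem HoleData.short {L Dh g₀ Cn Cf : ℝ} {u : E2} (hu : u ≠ 0)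
    (hzw : 3 * R ^ 2 / 8 ≤ ‖a⁻¹ • w‖ ^ 2) (hl : κ ^ 2 * fderiv ℝ v w u ^ 2 ≤ L * ‖u‖ ^ 2)
    (hm : ‖w‖ ≤ ρm → (1 + 1 / d) / 2 * ‖u‖ ^ 2 ≤ G w u u) (hg : g₀ * ‖u‖ ^ 2 ≤ G w u u)
    (hLd : L + κ ^ 2 < (1 - 1 / d) / 4) (hLg : L < g₀ / 2)
    (hK : ‖w‖ ≤ ρm → ‖fderiv ℝ K (a⁻¹ • w) u‖ ^ 2 ≤ Cn * ‖u‖ ^ 2)
    (hCn : Cn ≤ 1 + (1 - 1 / d) / 4)
    (hKf : ρm ≤ ‖w‖ → ‖fderiv ℝ K (a⁻¹ • w) u‖ ^ 2 ≤ Cf * ‖u‖ ^ 2) (hCf : Cf ≤ g₀ / 2)
    (hh : ‖fderiv ℝ h' w u‖ ^ 2 ≤ Dh * ‖u‖ ^ 2) (hDh : a ^ 2 * Dh ≤ g₀ / 2) :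
    pullE2 (holeMap Φ A K x h' ρ₀ (a / √d) a) w u u + κ ^ 2 * fderiv ℝ v w u ^ 2 < G w u u := by
  have hu2 : 0 < ‖u‖ ^ 2 := by positivity
  have hd := D.d_gt
  have hc0 : 0 < 1 / d := by positivity
  have hc1 : 1 / d < 1 := (div_lt_one (by linarith)).2 hd
  have hκ := D.κ_pos
  have hLd' := mul_lt_mul_of_pos_right hLd hu2
  have hLg' := mul_lt_mul_of_pos_right hLg hu2
  rcases lt_or_ge ‖a⁻¹ • w‖ (2 * R) with hz | hz
  · have hG1 := hm (D.mem_inner hz).le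
    rw [D.pull_near hz, target_apply, smul_inv_smul₀ D.a_pos.ne', (prof_one D.R_pos hzw).1,
      (prof_one D.R_pos hzw).2, mul_one, real_inner_self_eq_norm_sq]
    obtain ⟨p, q⟩ := ramp_mem (4 * R ^ 2 / 8) (5 * R ^ 2 / 8) (‖a⁻¹ • w‖ ^ 2)
    obtain ⟨χ, hχ⟩ : ∃ χ, χ = cutProf R (‖a⁻¹ • w‖ ^ 2) := ⟨_, rfl⟩
    have hχ0 : 0 ≤ χ := by rw [hχ, cutProf]; linarith
    have hχ1 : χ ≤ 1 := by rw [hχ, cutProf]; linarith
    rw [← hχ]
    have hcd : 1 / d * d = 1 := one_div_mul_cancel (by linarith)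
    have hid : 1 / d * (‖u‖ ^ 2 + χ * (d * (G w u u - κ ^ 2 * (fderiv ℝ v w u * fderiv ℝ v w u)
          - κ ^ 2 * ‖u‖ ^ 2) - ‖u‖ ^ 2)) + κ ^ 2 * fderiv ℝ v w u ^ 2
        = G w u u - (χ * (κ ^ 2 * ‖u‖ ^ 2)
          + (1 - χ) * (G w u u - κ ^ 2 * fderiv ℝ v w u ^ 2 - 1 / d * ‖u‖ ^ 2)) := by
      linear_combination (χ * (G w u u - κ ^ 2 * (fderiv ℝ v w u * fderiv ℝ v w u)
        - κ ^ 2 * ‖u‖ ^ 2)) * hcd
    rw [hid]
    have hk : 0 < κ ^ 2 * ‖u‖ ^ 2 := by positivity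
    have hpos : 0 < G w u u - κ ^ 2 * fderiv ℝ v w u ^ 2 - 1 / d * ‖u‖ ^ 2 := by
      linarith [mul_lt_mul_of_pos_right hc1 hu2]
    rcases eq_or_lt_of_le hχ1 with h1 | h1
    · rw [h1]; linarith
    · linarith [mul_nonneg hχ0 hk.le, mul_pos (sub_pos.2 h1) hpos]
  · rcases lt_or_ge ‖w‖ ρ₀ with h0 | h0
    · rw [D.pull_neck hz h0]
      rcases le_or_gt ‖w‖ ρm with hwm | hwm
      · have h1 := mul_le_mul_of_nonneg_left
          ((hK hwm).trans (mul_le_mul_of_nonneg_right hCn hu2.le)) hc0.le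
        have h2 : 1 / d * ((1 + (1 - 1 / d) / 4) * ‖u‖ ^ 2)
            ≤ (1 / d + (1 - 1 / d) / 4) * ‖u‖ ^ 2 := by
          rw [← mul_assoc]
          refine mul_le_mul_of_nonneg_right ?_ hu2.le
          nlinarith
        linarith [hm hwm, mul_pos (pow_pos hκ 2) hu2]
      · have h1 := (mul_le_mul_of_nonneg_right hc1.le (sq_nonneg ‖fderiv ℝ K (a⁻¹ • w) u‖))
        linarith [hKf hwm.le, mul_le_mul_of_nonneg_right hCf hu2.le]
    · rw [D.pull_outer h0]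
      have h1 := mul_le_mul_of_nonneg_left hh (sq_nonneg a)
      have h2 : a ^ 2 * (1 / d) * ‖fderiv ℝ h' w u‖ ^ 2 ≤ a ^ 2 * ‖fderiv ℝ h' w u‖ ^ 2 :=
        mul_le_mul_of_nonneg_right (mul_le_of_le_one_right (sq_nonneg a) hc1.le) (sq_nonneg _)
      linarith [mul_le_mul_of_nonneg_right hDh hu2.le]

end Data

/-- One hole. -/
theorem exists_hole (Φ : Model) {A : E4 ≃ₗᵢ[ℝ] E4} {N : E2 →L[ℝ] E2} {n₀ ρ₀ ρ W : ℝ}
    {h h' : E2 → E4} {G : E2 → E2 →L[ℝ] E2 →L[ℝ] ℝ} {v : E2 → ℝ} (hn : 0 < n₀)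
    (hN : ∀ u, n₀ * ‖u‖ ^ 2 ≤ ⟪u, N u⟫) (hρ₀ : 0 < ρ₀) (hρ : ρ₀ < ρ)
    (hh' : ContDiff ℝ ∞ h') (hfar : ∀ w, ρ ≤ ‖w‖ → h' w = h w)
    (hnear : ∀ w, ‖w‖ ≤ ρ₀ → h' w = A (Φ.ψ (N w)))
    (hunit : ∀ w, ‖w‖ < W → ‖h' w‖ = 1 ∧ Injective (fderiv ℝ h' w))
    (hG : ContDiff ℝ ∞ G) (hGs : ∀ w s t, G w s t = G w t s) (hG0 : ∀ s t, G 0 s t = ⟪s, t⟫)
    (hGp : ∀ w, ‖w‖ ≤ ρ → ∀ u, u ≠ 0 → 0 < G w u u) (hv : ContDiff ℝ ∞ v) :
    ∃ R > (0 : ℝ), ∃ η > (0 : ℝ), ∀ d : ℝ, 1 < d → d < 1 + η → ∀ᶠ κ in 𝓝[>] (0 : ℝ),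
      ∀ᶠ a in 𝓝[>] (0 : ℝ), a * R < ρ ∧ ∃ F : E2 → E4, ContDiff ℝ ∞ F ∧
        (∀ w, ρ ≤ ‖w‖ → F w = (a / √d) • h w) ∧
        (∀ w, ‖w‖ < W → Injective (fderiv ℝ F w) ∧ ∀ u, u ≠ 0 → NormalAccel F w u) ∧
        (∀ w, ‖a⁻¹ • w‖ ^ 2 < 3 * R ^ 2 / 8 → GoodAt F w ∧ ∀ s t,
          pullE2 F w s t + (κ * bProf R (‖a⁻¹ • w‖ ^ 2)) ^ 2 * (fderiv ℝ v w s * fderiv ℝ v w t)
            + (κ * eProf R (‖a⁻¹ • w‖ ^ 2)) ^ 2 * ⟪s, t⟫ = G w s t) ∧
        ∀ w, ‖w‖ ≤ ρ → 3 * R ^ 2 / 8 ≤ ‖a⁻¹ • w‖ ^ 2 → ∀ u, u ≠ 0 →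
          pullE2 F w u u + κ ^ 2 * fderiv ℝ v w u ^ 2 < G w u u := by
  obtain ⟨R₁, hR₁, hgood, hcorr⟩ := model_correction Φ
  obtain ⟨R₀, hR₀, hcon⟩ := exists_contract N hn (show 0 < ρ₀ / 4 by positivity) hN
  obtain ⟨R, hR, hRR₁, hRR₀⟩ : ∃ R > (0 : ℝ), R ≤ R₁ ∧ 2 * R ≤ R₀ :=
    ⟨min R₁ (R₀ / 2), by positivity, min_le_left _ _, by linarith [min_le_right R₁ (R₀ / 2)]⟩
  obtain ⟨K, hKs, C, hC, hKev⟩ := hcon (2 * R) (by positivity) hRR₀
  refine ⟨R, hR, ?_⟩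
  obtain ⟨r₀, ε₀, hε₀, hstab⟩ := exists_good_radius Φ.contDiff_ψ (isCompact_closedBall (0 : E2) R)
    fun z hz => hgood z ((mem_closedBall_zero_iff.1 hz).trans hRR₁)
  obtain ⟨C₂, hC₂⟩ := (isCompact_closedBall (0 : E2) (2 * R)).exists_bound_of_continuousOn
    (((Φ.contDiff_ψ.fderiv_right (m := ∞) (by simp)).continuous_fderiv (by simp)).continuousOn)
  set δ := min (ε₀ / 2) (1 / (4 * (|C₂| + 2))) with hδdef
  have hδ : 0 < δ := by positivity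
  have hδC : δ * (4 * (|C₂| + 2)) ≤ 1 := by
    rw [← le_div_iff₀ (by positivity)]
    exact min_le_right _ _
  have hsupp : ∀ p z, 4 / 5 * R < ‖z‖ → target R G v (p, z) = 0 := fun p z hz => by
    have : 5 * R ^ 2 / 8 ≤ ‖z‖ ^ 2 := by
      have := pow_le_pow_left₀ (by positivity) hz.le 2
      nlinarith
    refine ContinuousLinearMap.ext fun s => ContinuousLinearMap.ext fun t => ?_
    obtain ⟨d, κ, a⟩ := p
    simp [target_apply, cutProf, ramp_one (show 4 * R ^ 2 / 8 < 5 * R ^ 2 / 8 by nlinarith) this]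
  have hbase : ∀ z, target R G v ((1, 0, 0), z) = 0 := fun z =>
    ContinuousLinearMap.ext fun s => ContinuousLinearMap.ext fun t => by
      simp [target_apply, hG0]
  obtain ⟨η, hη, hηx⟩ := Metric.eventually_nhds_iff.1 (hcorr R hR hRR₁ (target R G v)
    (contDiff_target R hG hv) (fun q s t => by
      obtain ⟨⟨d, κ, a⟩, z⟩ := q
      simp only [target_apply, hGs (a • z) s t, real_inner_comm s t]
      ring)
    (4 / 5 * R) (by linarith) hsupp (1, 0, 0) hbase (max r₀ 2) δ hδ)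
  refine ⟨η, hη, fun d hd hdη => ?_⟩
  obtain ⟨c, hc⟩ : ∃ c, c = 1 / d := ⟨_, rfl⟩
  have hc1 : c < 1 := by rw [hc]; exact (div_lt_one (by linarith)).2 hd
  obtain ⟨ρ₂, hρ₂, hmargin⟩ := exists_margin hG.continuous hG0
    (show 0 < (1 - c) / 2 by linarith)
  obtain ⟨g₀, hg₀, hglow⟩ := exists_pos_bound hG.continuous (isCompact_closedBall (0 : E2) ρ)
    fun w hw => hGp w (mem_closedBall_zero_iff.1 hw)
  obtain ⟨L, hL⟩ := (isCompact_closedBall (0 : E2) ρ).exists_bound_of_continuousOn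
    ((hv.continuous_fderiv (by simp)).continuousOn)
  obtain ⟨Dh, hDh⟩ := (isCompact_closedBall (0 : E2) ρ).exists_bound_of_continuousOn
    ((hh'.continuous_fderiv (by simp)).continuousOn)
  filter_upwards [self_mem_nhdsWithin, small_evt 1 hη,
    small_evt (L ^ 2 + 1) (lt_min (show 0 < (1 - c) / 4 by linarith) (half_pos hg₀)),
    small_evt 1 one_pos] with κ hκ hκη hκL hκ1
  rw [mem_Ioi] at hκ
  rw [mul_one] at hκη hκ1
  obtain ⟨ρm, hρm, hρm2, hρm0⟩ : ∃ ρm > (0 : ℝ), ρm ≤ ρ₂ ∧ ρm ≤ ρ₀ :=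
    ⟨min ρ₂ ρ₀, lt_min hρ₂ hρ₀, min_le_left _ _, min_le_right _ _⟩
  filter_upwards [self_mem_nhdsWithin, small_evt 1 hη, small_evt 1 one_pos, small_evt (2 * R) hρm,
    small_evt (2 * C + C ^ 2) (show 0 < (1 - c) / 4 by linarith),
    small_evt ((C * (1 + 1 / ρm)) ^ 2 + Dh ^ 2) (half_pos hg₀), hKev]
    with a ha haη ha1 haR haC haf hK
  rw [mem_Ioi] at ha
  rw [mul_one] at haη ha1
  obtain ⟨hKid, hKfar, hKin, hKle, hKρ⟩ := hK
  obtain ⟨x, hx, hxoff, hxb, hxeq⟩ := hηx (y := (d, κ, a)) (by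
    simp only [Prod.dist_eq, Real.dist_eq, sub_zero]
    rw [max_lt_iff, max_lt_iff, abs_of_pos (show 0 < d - 1 by linarith), abs_of_pos hκ,
      abs_of_pos ha]
    exact ⟨by linarith, hκη, haη⟩)
  have hKinj : ∀ z, Injective (fderiv ℝ (K a) z) := fun z =>
    (injective_iff_map_eq_zero _).2 fun u hu => by
      have h1 := hKin z u
      rw [hu, inner_zero_right] at h1
      by_contra hne
      nlinarith [mul_pos (mul_pos ha hn) (pow_pos (norm_pos_iff.2 hne) 2)]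
  have D : HoleData Φ A N (K a) x h' G v R ρ₀ ρm d κ a :=
    { a_pos := ha, small := by linarith, x_off := hxoff
      K_far := fun z hz => hKfar z (by linarith), h_near := hnear
      R_pos := hR, d_gt := hd, κ_pos := hκ, ρm_le := hρm0, zoom_small := haR
      h'_smooth := hh', K_smooth := hKs a, x_smooth := hx, K_id := hKid, K_inj := hKinj
      eqn := hxeq }
  refine ⟨by nlinarith, holeMap Φ A (K a) x h' ρ₀ (a / √d) a,
    contDiff_holeMap D.toJoins (hKs a) hx hh', fun w hw => ?_, fun w hw => ?_, fun w hw => ?_,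
    fun w hw hzw u hu => ?_⟩
  · rw [(holeMap_outer D.toJoins (by linarith)).eq_of_nhds, hfar w hw]
  · exact D.accel (fun z hz => (hC₂ z hz).trans (le_abs_self C₂)) hδC
      (hxb 1 (le_trans (by norm_num) (le_max_right r₀ 2))) (hxb 2 (le_max_right r₀ 2)) hunit hw
  · exact D.exact hstab (fun i hi z => (hxb i (hi.trans (le_max_left r₀ 2)) z).trans_lt
      ((min_le_left _ _).trans_lt (half_lt_self hε₀))) hw
  · have hwb := mem_closedBall_zero_iff.2 hw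
    have hκ2 : κ ^ 2 ≤ κ := by rw [sq]; exact mul_le_of_le_one_left hκ.le hκ1.le
    have ha2 : a ^ 2 ≤ a := by rw [sq]; exact mul_le_of_le_one_left ha.le ha1.le
    have hκmin := lt_min_iff.1 hκL
    refine D.short (L := κ * L ^ 2) (Dh := Dh ^ 2) (g₀ := g₀) (Cn := 1 + a * (2 * C + C ^ 2))
      (Cf := a * ((C * (1 + 1 / ρm)) ^ 2)) hu hzw ?_ (fun hm => ?_) (hglow w hwb u) ?_ ?_
      (fun _ => ?_) ?_ (fun hm => ?_) ?_ ?_ ?_
    · have h1 : |fderiv ℝ v w u| ≤ L * ‖u‖ := (fderiv ℝ v w).le_of_opNorm_le (hL w hwb) u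
      generalize fderiv ℝ v w u = q at h1 ⊢
      have h2 : q ^ 2 ≤ (L * ‖u‖) ^ 2 := by
        rw [← sq_abs]; exact pow_le_pow_left₀ (abs_nonneg _) h1 2
      calc κ ^ 2 * q ^ 2 ≤ κ * (L * ‖u‖) ^ 2 :=
            mul_le_mul hκ2 h2 (sq_nonneg _) hκ.le
        _ = κ * L ^ 2 * ‖u‖ ^ 2 := by ring
    · refine le_trans (le_of_eq ?_) (hmargin w (hm.trans hρm2) u)
      rw [← hc]; ring
    · rw [← hc]; linarith [hκmin.1]
    · linarith [hκmin.2]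
    · refine (pow_le_pow_left₀ (norm_nonneg _) (hKle _ u) 2).trans ?_
      rw [mul_pow]
      refine mul_le_mul_of_nonneg_right ?_ (sq_nonneg _)
      linarith [mul_le_mul_of_nonneg_right ha2 (sq_nonneg C)]
    · rw [← hc]; linarith
    · refine (pow_le_pow_left₀ (norm_nonneg _)
        (hKρ ρm hρm _ (by rw [D.radius_eq]; exact hm) u) 2).trans ?_
      rw [mul_pow, mul_pow, mul_comm _ (a ^ 2)]
      exact mul_le_mul_of_nonneg_right (mul_le_mul_of_nonneg_right ha2 (sq_nonneg _))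
        (sq_nonneg _)
    · linarith [mul_nonneg ha.le (sq_nonneg Dh)]
    · rw [← mul_pow]
      exact pow_le_pow_left₀ (norm_nonneg _)
        ((fderiv ℝ h' w).le_of_opNorm_le (hDh w hwb) u) 2
    · linarith [mul_nonneg ha.le (sq_nonneg (C * (1 + 1 / ρm))),
        mul_le_mul_of_nonneg_right ha2 (sq_nonneg Dh)]

end

end Vale.Agent.P205.Holes
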