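import Vale.Agent.P205.Full.Holes.Horiz
import Vale.Agent.P205.Hopf.Profile

/-!
# P205: the model of a hole

The horizontal lift of the profile curve `z = 1/4 + sin (16 φ) / 8`, by arclength, has curvatures
of opposite sign at the two kinds of extrema of `z`, so its flat Hopf piece is good somewhere.
-/

namespace Vale.Agent.P205.Holes

open scoped ContDiff RealInnerProductSpace
open Vale.Agent.P205.Algebra Real

noncomputable section

/-- The profile. -/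
def prof : Hopf.Curve := ⟨1 / 4, 1 / 8, by norm_num, by norm_num⟩

/-- First modulus. -/
def r₁ (φ : ℝ) : ℝ := sqrt (prof.z φ)
/-- Second modulus. -/
def r₂ (φ : ℝ) : ℝ := sqrt (1 - prof.z φ)
/-- Derivative of the first modulus. -/
def r₁' (φ : ℝ) : ℝ := prof.dz φ / (2 * r₁ φ)
/-- Derivative of the second modulus. -/
def r₂' (φ : ℝ) : ℝ := -prof.dz φ / (2 * r₂ φ)
/-- Second derivative of the profile. -/
def ddz (φ : ℝ) : ℝ := prof.b * (-(256 * sin (16 * φ)))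

/-- The horizontal lift, by angle. -/
def lift₀ (φ : ℝ) : V4 :=
  !₂[r₁ φ * cos (prof.θ φ), -(r₁ φ * sin (prof.θ φ)),
    r₂ φ * cos (φ - prof.θ φ), r₂ φ * sin (φ - prof.θ φ)]

/-- Its velocity. -/
def lift₁ (φ : ℝ) : V4 :=
  !₂[r₁' φ * cos (prof.θ φ) - r₁ φ * sin (prof.θ φ) * (1 - prof.z φ),
    -(r₁' φ * sin (prof.θ φ) + r₁ φ * cos (prof.θ φ) * (1 - prof.z φ)),
    r₂' φ * cos (φ - prof.θ φ) - r₂ φ * sin (φ - prof.θ φ) * prof.z φ,
    r₂' φ * sin (φ - prof.θ φ) + r₂ φ * cos (φ - prof.θ φ) * prof.z φ]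

lemma r₁_sq (φ : ℝ) : r₁ φ ^ 2 = prof.z φ := sq_sqrt (prof.z_pos φ).le
lemma r₂_sq (φ : ℝ) : r₂ φ ^ 2 = 1 - prof.z φ := sq_sqrt (prof.z_lt_one φ).le
lemma r₁_ne (φ : ℝ) : r₁ φ ≠ 0 := (sqrt_pos.2 (prof.z_pos φ)).ne'
lemma r₂_ne (φ : ℝ) : r₂ φ ≠ 0 := (sqrt_pos.2 (prof.z_lt_one φ)).ne'

lemma hasDerivAt_dz (φ : ℝ) : HasDerivAt prof.dz (ddz φ) φ := by
  have h := (((((hasDerivAt_id φ).const_mul 16).cos).const_mul 16).const_mul prof.b)
  simp only [id_eq, mul_one] at h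
  exact h.congr_deriv (by unfold ddz; ring)

lemma hasDerivAt_r₁ (φ : ℝ) : HasDerivAt r₁ (r₁' φ) φ :=
  (prof.hasDerivAt_z φ).sqrt (prof.z_pos φ).ne'

lemma hasDerivAt_r₂ (φ : ℝ) : HasDerivAt r₂ (r₂' φ) φ :=
  ((prof.hasDerivAt_z φ).const_sub 1).sqrt (prof.z_lt_one φ).ne'

lemma hasDerivAt_θc (φ : ℝ) : HasDerivAt (fun x => x - prof.θ x) (prof.z φ) φ :=
  ((hasDerivAt_id φ).sub (prof.hasDerivAt_θ φ)).congr_deriv (by ring)

lemma hasDerivAt_toLp {f : Fin 4 → ℝ → ℝ} {f' : Fin 4 → ℝ} {φ : ℝ}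
    (h : ∀ i, HasDerivAt (f i) (f' i) φ) :
    HasDerivAt (fun x => (WithLp.toLp 2 fun i => f i x : V4)) (WithLp.toLp 2 f') φ :=
  (EuclideanSpace.equiv (Fin 4) ℝ).symm.toContinuousLinearMap.hasFDerivAt.comp_hasDerivAt φ
    (hasDerivAt_pi.2 h)

lemma hasDerivAt_lift₀ (φ : ℝ) : HasDerivAt lift₀ (lift₁ φ) φ := by
  have hθ := prof.hasDerivAt_θ φ
  have hψ := hasDerivAt_θc φ
  have h := hasDerivAt_toLp (φ := φ)
    (f := ![fun x => r₁ x * cos (prof.θ x), fun x => -(r₁ x * sin (prof.θ x)),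
      fun x => r₂ x * cos (x - prof.θ x), fun x => r₂ x * sin (x - prof.θ x)])
    (f' := ![r₁' φ * cos (prof.θ φ) + r₁ φ * (-sin (prof.θ φ) * (1 - prof.z φ)),
      -(r₁' φ * sin (prof.θ φ) + r₁ φ * (cos (prof.θ φ) * (1 - prof.z φ))),
      r₂' φ * cos (φ - prof.θ φ) + r₂ φ * (-sin (φ - prof.θ φ) * prof.z φ),
      r₂' φ * sin (φ - prof.θ φ) + r₂ φ * (cos (φ - prof.θ φ) * prof.z φ)])
    (fun i => by
      fin_cases i
      · exact (hasDerivAt_r₁ φ).mul hθ.cos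
      · exact ((hasDerivAt_r₁ φ).mul hθ.sin).neg
      · exact (hasDerivAt_r₂ φ).mul hψ.cos
      · exact (hasDerivAt_r₂ φ).mul hψ.sin)
  refine (h.congr_of_eventuallyEq (.of_forall fun x => ?_)).congr_deriv ?_
  · ext i; fin_cases i <;> simp [lift₀]
  · ext i; fin_cases i <;> simp [lift₁] <;> ring

/-- The acceleration at an extremum of the profile. -/
def lift₂ (φ : ℝ) : V4 :=
  !₂[(ddz φ / (2 * r₁ φ) - r₁ φ * (1 - prof.z φ) ^ 2) * cos (prof.θ φ),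
    -((ddz φ / (2 * r₁ φ) - r₁ φ * (1 - prof.z φ) ^ 2) * sin (prof.θ φ)),
    (-ddz φ / (2 * r₂ φ) - r₂ φ * prof.z φ ^ 2) * cos (φ - prof.θ φ),
    (-ddz φ / (2 * r₂ φ) - r₂ φ * prof.z φ ^ 2) * sin (φ - prof.θ φ)]

lemma hasDerivAt_lift₁ {φ : ℝ} (h0 : prof.dz φ = 0) : HasDerivAt lift₁ (lift₂ φ) φ := by
  have hθ := prof.hasDerivAt_θ φ
  have hψ := hasDerivAt_θc φ
  have a1 : r₁' φ = 0 := by simp [r₁', h0]
  have a2 : r₂' φ = 0 := by simp [r₂', h0]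
  have h1 : HasDerivAt r₁' (ddz φ / (2 * r₁ φ)) φ := by
    refine ((hasDerivAt_dz φ).div ((hasDerivAt_r₁ φ).const_mul 2)
      (mul_ne_zero two_ne_zero (r₁_ne φ))).congr_deriv ?_
    rw [h0, a1]; have := r₁_ne φ; field_simp; ring
  have h2 : HasDerivAt r₂' (-ddz φ / (2 * r₂ φ)) φ := by
    refine ((hasDerivAt_dz φ).neg.div ((hasDerivAt_r₂ φ).const_mul 2)
      (mul_ne_zero two_ne_zero (r₂_ne φ))).congr_deriv ?_
    simp only [Pi.neg_apply, h0, a2]; have := r₂_ne φ; field_simp; ring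
  have hz : HasDerivAt prof.z 0 φ := (prof.hasDerivAt_z φ).congr_deriv h0
  have hR1 : HasDerivAt r₁ 0 φ := (hasDerivAt_r₁ φ).congr_deriv a1
  have hR2 : HasDerivAt r₂ 0 φ := (hasDerivAt_r₂ φ).congr_deriv a2
  have h := hasDerivAt_toLp (φ := φ)
    (f := ![fun x => r₁' x * cos (prof.θ x) - r₁ x * sin (prof.θ x) * (1 - prof.z x),
      fun x => -(r₁' x * sin (prof.θ x) + r₁ x * cos (prof.θ x) * (1 - prof.z x)),
      fun x => r₂' x * cos (x - prof.θ x) - r₂ x * sin (x - prof.θ x) * prof.z x,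
      fun x => r₂' x * sin (x - prof.θ x) + r₂ x * cos (x - prof.θ x) * prof.z x])
    (f' := ![_, _, _, _]) (fun i => by
      fin_cases i
      · exact (h1.mul hθ.cos).sub ((hR1.mul hθ.sin).mul (hz.const_sub 1))
      · exact ((h1.mul hθ.sin).add ((hR1.mul hθ.cos).mul (hz.const_sub 1))).neg
      · exact (h2.mul hψ.cos).sub ((hR2.mul hψ.sin).mul hz)
      · exact (h2.mul hψ.sin).add ((hR2.mul hψ.cos).mul hz))
  refine (h.congr_of_eventuallyEq (.of_forall fun x => ?_)).congr_deriv ?_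
  · ext i; fin_cases i <;> simp [lift₁]
  · ext i; fin_cases i <;> simp [lift₂, a1, a2] <;> ring

lemma unit_lift (φ : ℝ) : ⟪lift₀ φ, lift₀ φ⟫ = 1 := by
  simp [lift₀, PiLp.inner_apply, Fin.sum_univ_four, -inner_self_eq_norm_sq_to_K]
  linear_combination r₁_sq φ + r₂_sq φ + r₁ φ ^ 2 * sin_sq_add_cos_sq (prof.θ φ)
    + r₂ φ ^ 2 * sin_sq_add_cos_sq (φ - prof.θ φ)

lemma horiz_lift (φ : ℝ) : ⟪lift₁ φ, J (lift₀ φ)⟫ = 0 := by
  simp [lift₀, lift₁, J_apply, PiLp.inner_apply, Fin.sum_univ_four]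
  linear_combination -(1 - prof.z φ) * r₁_sq φ + prof.z φ * r₂_sq φ
    - (1 - prof.z φ) * r₁ φ ^ 2 * sin_sq_add_cos_sq (prof.θ φ)
    + prof.z φ * r₂ φ ^ 2 * sin_sq_add_cos_sq (φ - prof.θ φ)

lemma speed_lift (φ : ℝ) : ⟪lift₁ φ, lift₁ φ⟫ = prof.σ φ ^ 2 := by
  have hz := (prof.z_pos φ).ne'
  have hz1 := (prof.z_lt_one φ).ne'
  have e1 : r₁' φ ^ 2 = prof.dz φ ^ 2 / (4 * prof.z φ) := by
    rw [r₁', div_pow, mul_pow, r₁_sq]; ring
  have e2 : r₂' φ ^ 2 = prof.dz φ ^ 2 / (4 * (1 - prof.z φ)) := by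
    rw [r₂', div_pow, mul_pow, r₂_sq]; ring
  have e : r₁' φ ^ 2 + r₂' φ ^ 2 + prof.z φ * (1 - prof.z φ) = prof.σ φ ^ 2 := by
    rw [prof.sigma_sq, e1, e2]; field_simp; ring
  simp [lift₁, PiLp.inner_apply, Fin.sum_univ_four, -inner_self_eq_norm_sq_to_K]
  linear_combination e + (1 - prof.z φ) ^ 2 * r₁_sq φ + prof.z φ ^ 2 * r₂_sq φ
    + (r₁' φ ^ 2 + r₁ φ ^ 2 * (1 - prof.z φ) ^ 2) * sin_sq_add_cos_sq (prof.θ φ)
    + (r₂' φ ^ 2 + r₂ φ ^ 2 * prof.z φ ^ 2) * sin_sq_add_cos_sq (φ - prof.θ φ)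

/-- The curve by arclength. -/
def curveFun (y : ℝ) : V4 := lift₀ (prof.param y)

lemma deriv_curveFun : deriv curveFun =
    fun y => (prof.σ (prof.param y))⁻¹ • lift₁ (prof.param y) :=
  funext fun y => ((hasDerivAt_lift₀ _).scomp y (prof.hasDerivAt_param y)).deriv

/-- The model curve. -/
def modelCurve : Horiz where
  G := curveFun
  smooth := by
    have hp := prof.contDiff_param
    have hθ : ContDiff ℝ ∞ fun y => prof.θ (prof.param y) := prof.contDiff_θ.comp hp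
    have hz : ContDiff ℝ ∞ fun y => prof.z (prof.param y) := prof.contDiff_z.comp hp
    have h1 : ContDiff ℝ ∞ fun y => r₁ (prof.param y) := hz.sqrt fun y => (prof.z_pos _).ne'
    have h2 : ContDiff ℝ ∞ fun y => r₂ (prof.param y) :=
      (contDiff_const.sub hz).sqrt fun y => (prof.z_lt_one _).ne'
    refine contDiff_euclidean.2 fun i => ?_
    fin_cases i <;> simp [curveFun, lift₀]
    · exact h1.mul hθ.cos
    · exact (h1.mul hθ.sin).neg
    · exact h2.mul (hp.sub hθ).cos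
    · exact h2.mul (hp.sub hθ).sin
  unit y := unit_lift _
  horiz y := by simp [deriv_curveFun, curveFun, real_inner_smul_left, horiz_lift]
  speed y := by
    have := (prof.σ_pos (prof.param y)).ne'
    simp only [deriv_curveFun, real_inner_smul_left, real_inner_smul_right, speed_lift]
    field_simp

lemma param_s (φ : ℝ) : prof.param (prof.s φ) = φ := prof.strictMono_s.injective (prof.s_param _)

lemma curv_modelCurve {φ : ℝ} (h0 : prof.dz φ = 0) :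
    modelCurve.curv (prof.s φ) = (prof.σ φ)⁻¹ ^ 3 *
      (ddz φ / 2 - prof.z φ * (1 - prof.z φ) * (1 - 2 * prof.z φ)) := by
  set y := prof.s φ
  have hp : prof.param y = φ := param_s φ
  have hσ : HasDerivAt prof.σ (deriv prof.σ φ) φ :=
    ((prof.contDiff_σ.differentiable (by simp)) φ).hasDerivAt
  have hl : HasDerivAt (fun x => (prof.σ x)⁻¹ • lift₁ x)
      ((prof.σ φ)⁻¹ • lift₂ φ + (-deriv prof.σ φ / prof.σ φ ^ 2) • lift₁ φ) φ :=
    (hσ.inv (prof.σ_pos φ).ne').smul (hasDerivAt_lift₁ h0)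
  have hd : deriv (deriv curveFun) y = (prof.σ φ)⁻¹ •
      ((prof.σ φ)⁻¹ • lift₂ φ + (-deriv prof.σ φ / prof.σ φ ^ 2) • lift₁ φ) := by
    have h := prof.hasDerivAt_param y
    rw [hp] at h
    rw [deriv_curveFun]
    exact ((hp ▸ hl : HasDerivAt (fun x => (prof.σ x)⁻¹ • lift₁ x) _ (prof.param y)).scomp y h).deriv
  have e : ⟪lift₂ φ, J (lift₁ φ)⟫ =
      ddz φ / 2 - prof.z φ * (1 - prof.z φ) * (1 - 2 * prof.z φ) := by
    have q1 := r₁_sq φ
    have q2 := r₂_sq φ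
    simp [lift₁, lift₂, r₁', r₂', h0, J_apply, PiLp.inner_apply, Fin.sum_univ_four]
    have n1 := r₁_ne φ
    have n2 := r₂_ne φ
    field_simp
    linear_combination (ddz φ * (1 - prof.z φ) - 2 * r₁ φ ^ 2 * (1 - prof.z φ) ^ 3) *
        sin_sq_add_cos_sq (prof.θ φ)
      + (ddz φ * prof.z φ + 2 * r₂ φ ^ 2 * prof.z φ ^ 3) * sin_sq_add_cos_sq (φ - prof.θ φ)
      - 2 * (1 - prof.z φ) ^ 3 * q1 + 2 * prof.z φ ^ 3 * q2
  show ⟪deriv (deriv curveFun) y, J (deriv curveFun y)⟫ = _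
  rw [hd, deriv_curveFun]
  simp only [hp, inner_add_left, real_inner_smul_left, real_inner_smul_right, map_smul, e,
    inner_J_self]
  ring

/-- A flat isometric piece in the unit sphere that is good at the origin. -/
theorem exists_model : ∃ φ : R2 → V4, ContDiff ℝ ∞ φ ∧ (∀ p, ‖φ p‖ = 1) ∧
    (∀ p v w, ⟪fderiv ℝ φ p v, fderiv ℝ φ p w⟫ = v.1 * w.1 + v.2 * w.2) ∧
    detg φ 0 ≠ 0 ∧ Wsq (fun _ => 1) φ 0 ≠ 0 ∧ criterion (fun _ => 1) φ 0 ≠ 0 := by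
  have key : ∃ s t, modelCurve.curv s ≠ modelCurve.curv t := by
    have e1 : sin (16 * (π / 32)) = 1 ∧ cos (16 * (π / 32)) = 0 := by
      rw [show 16 * (π / 32) = π / 2 by ring]; simp
    have e2 : sin (16 * (-π / 32)) = -1 ∧ cos (16 * (-π / 32)) = 0 := by
      rw [show 16 * (-π / 32) = -(π / 2) by ring]; simp
    refine ⟨prof.s (π / 32), prof.s (-π / 32), ne_of_lt ?_⟩
    rw [curv_modelCurve (by simp [Hopf.Curve.dz, e1]),
      curv_modelCurve (by simp [Hopf.Curve.dz, e2])]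
    have p1 : 0 < (prof.σ (π / 32))⁻¹ ^ 3 := pow_pos (inv_pos.2 (prof.σ_pos _)) 3
    have p2 : 0 < (prof.σ (-π / 32))⁻¹ ^ 3 := pow_pos (inv_pos.2 (prof.σ_pos _)) 3
    simp only [ddz, Hopf.Curve.z, e1, e2]
    norm_num [prof] at p1 p2 ⊢
    nlinarith [inv_pos.2 p1, inv_pos.2 p2]
  obtain ⟨D, h1, h2, h3⟩ := modelCurve.exists_good key
  exact ⟨D.map, D.contDiff_map, D.norm_map, D.inner_map, h1, h2, h3⟩

end

end Vale.Agent.P205.Holes
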