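import Vale.Agent.P205.Full.Global.State

/-!
# P205: a function with finitely many critical points

A generic member of the family chart polynomials times cut-offs, read in its first coordinate,
has only nondegenerate critical points, so finitely many on a closed surface.
-/

namespace Vale.Agent.P205.Full

open Bundle Set Function Metric
open scoped Manifold ContDiff Topology RealInnerProductSpace

noncomputable section

variable {M : Type*} [TopologicalSpace M] [ChartedSpace E2 M] [IsManifold (𝓡 2) ∞ M] [T2Space M]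

/-- A closed surface has a finite cover by chart discs. -/
theorem exists_cover [CompactSpace M] : Nonempty (Cover M) := by
  obtain ⟨T, -⟩ := exists_frame_pos (innerSL ℝ : E2 →L[ℝ] E2 →L[ℝ] ℝ)
    (fun v w => real_inner_comm w v) (fun v hv => real_inner_self_pos.2 hv)
    (a := (EuclideanSpace.single 0 1 : E2)) (by simp)
  obtain ⟨ι, f, -⟩ := SmoothBumpCovering.exists_isSubordinate (𝓡 2) isClosed_univ
    (U := fun x : M => (extChartAt (𝓡 2) x).source) fun x _ => extChartAt_source_mem_nhds x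
  exact ⟨⟨ι, f.fintype, f, fun _ => T⟩⟩

/-- The second order jet of the first coordinate, without the value. -/
def jet2 : (JIdx 2 → E4) →L[ℝ] (Fin 5 → ℝ) :=
  LinearMap.toContinuousLinearMap
    { toFun := fun j => ![j ⟨(⟨1, by omega⟩, ⟨0, by omega⟩), by simp⟩ 0,
        j ⟨(⟨0, by omega⟩, ⟨1, by omega⟩), by simp⟩ 0,
        j ⟨(⟨2, by omega⟩, ⟨0, by omega⟩), by simp⟩ 0,
        j ⟨(⟨1, by omega⟩, ⟨1, by omega⟩), by simp⟩ 0,
        j ⟨(⟨0, by omega⟩, ⟨2, by omega⟩), by simp⟩ 0]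
      map_add' := fun a b => by funext i; fin_cases i <;> simp
      map_smul' := fun r a => by funext i; fin_cases i <;> simp }

theorem surjective_jet2 : Surjective jet2 := by
  classical
  intro t
  refine ⟨fun q => EuclideanSpace.single 0
    (if (q.1.1 : ℕ) = 2 then t 2 else if (q.1.2 : ℕ) = 2 then t 4
      else if (q.1.1 : ℕ) = 1 ∧ (q.1.2 : ℕ) = 1 then t 3
      else if (q.1.1 : ℕ) = 1 then t 0 else t 1), ?_⟩
  funext i
  fin_cases i <;> simp [jet2]

theorem jet2_jetAt (f : E2 → E4) (y : E2) :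
    jet2 (jetAt 2 f y) = ![pd 0 f y 0, pd 1 f y 0, pd 0 (pd 0 f) y 0, pd 0 (pd 1 f) y 0,
      pd 1 (pd 1 f) y 0] := rfl

/-- Critical with a Hessian `s • (1, t, t²)`. -/
def morsePiece₁ {𝒞 : Cover M} (i : 𝒞.ι) : BadPiece 𝒞 2 where
  i := i
  n := 2
  m := 2
  d := 5
  γ := planeOf
  U := univ
  ψ := fun w => ![0, 0, w 0, w 0 * w 1, w 0 * w 1 ^ 2]
  W := univ
  L := jet2
  isOpen_U := isOpen_univ
  isOpen_W := isOpen_univ
  γ_smooth := contDiff_planeOf
  ψ_smooth := by
    refine (contDiff_pi.mpr fun j => ?_).contDiffOn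
    fin_cases j <;> simp <;> fun_prop
  L_surj := surjective_jet2
  dim := by norm_num

/-- Critical with a Hessian `(0, 0, s)`. -/
def morsePiece₂ {𝒞 : Cover M} (i : 𝒞.ι) : BadPiece 𝒞 2 where
  i := i
  n := 2
  m := 1
  d := 5
  γ := planeOf
  U := univ
  ψ := fun w => ![0, 0, 0, 0, w 0]
  W := univ
  L := jet2
  isOpen_U := isOpen_univ
  isOpen_W := isOpen_univ
  γ_smooth := contDiff_planeOf
  ψ_smooth := by
    refine (contDiff_pi.mpr fun j => ?_).contDiffOn
    fin_cases j <;> simp <;> fun_prop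
  L_surj := surjective_jet2
  dim := by norm_num

/-- A point at which the gradient vanishes and the Hessian does not degenerate is isolated. -/
theorem isolated_crit {f : E2 → E4} (hf : ContDiff ℝ ∞ f) {y : E2} (h0 : pd 0 f y 0 = 0)
    (h1 : pd 1 f y 0 = 0)
    (h : ∀ w : Fin 2 → ℝ, jet2 (jetAt 2 f y) ≠ ![0, 0, w 0, w 0 * w 1, w 0 * w 1 ^ 2])
    (h' : ∀ w : Fin 1 → ℝ, jet2 (jetAt 2 f y) ≠ ![0, 0, 0, 0, w 0]) :
    ∀ᶠ z in 𝓝[≠] y, ¬(pd 0 f z 0 = 0 ∧ pd 1 f z 0 = 0) := by
  obtain ⟨A, hA⟩ : ∃ A, A = pd 0 (pd 0 f) y 0 := ⟨_, rfl⟩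
  obtain ⟨B, hB⟩ : ∃ B, B = pd 0 (pd 1 f) y 0 := ⟨_, rfl⟩
  obtain ⟨C, hC⟩ : ∃ C, C = pd 1 (pd 1 f) y 0 := ⟨_, rfl⟩
  have hjet : jet2 (jetAt 2 f y) = ![0, 0, A, B, C] := by
    rw [jet2_jetAt, h0, h1, hA, hB, hC]
  have hs : pd 1 (pd 0 f) y 0 = B := by
    have hd : DifferentiableAt ℝ (fderiv ℝ f) y :=
      ((hf.fderiv_right (m := ∞) (by simp)).differentiable (by simp)).differentiableAt
    rw [hB]
    unfold pd
    rw [fderiv_clm_apply hd (differentiableAt_const _),
      fderiv_clm_apply hd (differentiableAt_const _)]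
    have := (hf.contDiffAt (x := y)).isSymmSndFDerivAt (by
      rw [minSmoothness_of_isRCLikeNormedField]; exact WithTop.coe_le_coe.2 le_top)
    simp [this.eq (EuclideanSpace.single 1 1) (EuclideanSpace.single 0 1)]
  obtain ⟨G, hG⟩ : ∃ G : E2 → ℝ × ℝ, G = fun z => (pd 0 f z 0, pd 1 f z 0) := ⟨_, rfl⟩
  obtain ⟨pr, hpr⟩ : ∃ pr : E4 →L[ℝ] ℝ, pr = EuclideanSpace.proj (0 : Fin 4) := ⟨_, rfl⟩
  obtain ⟨D, hD⟩ : ∃ D : E2 →L[ℝ] ℝ × ℝ,
      D = (pr.comp (fderiv ℝ (pd 0 f) y)).prod (pr.comp (fderiv ℝ (pd 1 f) y)) := ⟨_, rfl⟩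
  have hGd : HasFDerivAt G D y := by
    rw [hG, hD]
    have e : ∀ i, HasFDerivAt (fun z => pd i f z 0) (pr.comp (fderiv ℝ (pd i f) y)) y := fun i => by
      have := pr.hasFDerivAt.comp y ((contDiff_pd i hf).differentiable (by simp) y).hasFDerivAt
      rw [hpr] at this ⊢
      exact this
    exact (e 0).prodMk (e 1)
  have hinj : LinearMap.ker (D : E2 →ₗ[ℝ] ℝ × ℝ) = ⊥ := by
    refine LinearMap.ker_eq_bot'.2 fun p hp => ?_
    have hp' : p = p 0 • EuclideanSpace.single 0 (1 : ℝ) + p 1 • EuclideanSpace.single 1 (1 : ℝ) := by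
      ext j; fin_cases j <;> simp
    rw [hp', ContinuousLinearMap.coe_coe, map_add, map_smul, map_smul, hD] at hp
    simp only [ContinuousLinearMap.prod_apply, ContinuousLinearMap.comp_apply, hpr,
      PiLp.proj_apply, Prod.smul_mk, Prod.mk_add_mk, smul_eq_mul, Prod.mk_eq_zero] at hp
    have e1 : p 0 * A + p 1 * B = 0 := by rw [hA, ← hs]; exact hp.1
    have e2 : p 0 * B + p 1 * C = 0 := by rw [hB, hC]; exact hp.2
    by_contra hne
    by_cases hA0 : A = 0
    · have hB0 : B = 0 := by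
        by_contra hB0
        have q1 : p 1 = 0 := by
          rw [hA0, mul_zero, zero_add] at e1
          exact (mul_eq_zero.1 e1).resolve_right hB0
        rw [q1, zero_mul, add_zero] at e2
        have q0 := (mul_eq_zero.1 e2).resolve_right hB0
        exact hne (by rw [hp', q0, q1, zero_smul, zero_smul, add_zero])
      exact h' ![C] (by rw [hjet, hA0, hB0]; rfl)
    · have hdet : A * C = B * B := by
        by_contra hd
        have q0 : p 0 * (A * C - B * B) = 0 := by linear_combination C * e1 - B * e2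
        have q1 : p 1 * (A * C - B * B) = 0 := by linear_combination A * e2 - B * e1
        exact hne (by
          rw [hp', (mul_eq_zero.1 q0).resolve_right (sub_ne_zero.2 hd),
            (mul_eq_zero.1 q1).resolve_right (sub_ne_zero.2 hd), zero_smul, zero_smul, add_zero])
      refine h ![A, B / A] ?_
      have eB : A * (B / A) = B := mul_div_cancel₀ _ hA0
      have eC : A * (B / A) ^ 2 = C := by
        field_simp
        linarith
      rw [hjet]
      funext j
      fin_cases j <;> simp [eB, eC]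
  obtain ⟨K, -, hK⟩ := (D : E2 →ₗ[ℝ] ℝ × ℝ).exists_antilipschitzWith hinj
  filter_upwards [hGd.eventually_ne (c := ((0 : ℝ), (0 : ℝ))) ⟨K, hK⟩] with z hz hz0
  exact hz (by simp [hG, hz0.1, hz0.2])

/-- A closed surface has a smooth function with finitely many critical points. -/
theorem exists_finite_crit [CompactSpace M] :
    ∃ v : M → ℝ, ContMDiff (𝓡 2) 𝓘(ℝ) ∞ v ∧
      {x | mfderiv (𝓡 2) 𝓘(ℝ) v x = 0}.Finite := by
  classical
  obtain ⟨𝒞⟩ := exists_cover (M := M)
  obtain ⟨S⟩ := exists_startData 𝒞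
  obtain ⟨c, -, hc⟩ := S.exists_avoid (k := 2)
    (Sum.elim (fun i => morsePiece₁ i) fun i => morsePiece₂ i : 𝒞.ι ⊕ 𝒞.ι → BadPiece 𝒞 2)
    isOpen_univ univ_nonempty
  obtain ⟨pr, hpr⟩ : ∃ pr : E4 →L[ℝ] ℝ, pr = EuclideanSpace.proj (0 : Fin 4) := ⟨_, rfl⟩
  have hv : ContMDiff (𝓡 2) 𝓘(ℝ) ∞ fun x => pr (S.map c x) :=
    pr.contDiff.contMDiff.comp (S.contMDiff_map c)
  refine ⟨_, hv, ?_⟩
  obtain ⟨Z, hZ⟩ : ∃ Z : 𝒞.ι → Set E2, Z = fun i => closedBall (𝒞.ctr i) (𝒞.rad i) ∩
      {y | pd 0 (S.loc i c) y 0 = 0 ∧ pd 1 (S.loc i c) y 0 = 0} := ⟨_, rfl⟩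
  have hcZ : ∀ i, IsCompact (Z i) := fun i => by
    rw [hZ]
    refine (isCompact_closedBall _ _).inter_right (IsClosed.inter ?_ ?_)
    · exact isClosed_eq ((continuous_apply 0).comp
        ((PiLp.continuous_ofLp 2 _).comp (contDiff_pd 0 (S.contDiff_loc i c)).continuous))
        continuous_const
    · exact isClosed_eq ((continuous_apply 0).comp
        ((PiLp.continuous_ofLp 2 _).comp (contDiff_pd 1 (S.contDiff_loc i c)).continuous))
        continuous_const
  have hfin : ∀ i, (Z i).Finite := fun i => by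
    have hiso : ∀ y ∈ Z i, Disjoint (𝓝[≠] y) (Filter.principal (Z i)) := fun y hy => by
      rw [hZ] at hy
      have a1 := fun w => hc (Sum.inl i) ![y 0, y 1] (mem_univ _)
        (by simpa [morsePiece₁, planeOf_surj] using hy.1) w (mem_univ _)
      have a2 := fun w => hc (Sum.inr i) ![y 0, y 1] (mem_univ _)
        (by simpa [morsePiece₂, planeOf_surj] using hy.1) w (mem_univ _)
      have e := jetAt_congr (k := 2) (S.loc_eventuallyEq i c (S.ball_V i hy.1))
      simp only [Sum.elim_inl, Sum.elim_inr, morsePiece₁, morsePiece₂, planeOf_surj, e] at a1 a2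
      have := isolated_crit (S.contDiff_loc i c) hy.2.1 hy.2.2 a1 a2
      rw [Filter.disjoint_principal_right]
      filter_upwards [this] with z hz hzZ
      rw [hZ] at hzZ
      exact hz hzZ.2
    exact (hcZ i).finite (isDiscrete_iff_discreteTopology.2 (discreteTopology_subtype_iff.2
      fun y hy => disjoint_iff.1 (hiso y hy)))
  refine ((finite_iUnion fun i => (hfin i).image (extChartAt (𝓡 2) (𝒞.bumps.c i)).symm)).subset ?_
  intro x hx
  replace hx : mfderiv (𝓡 2) 𝓘(ℝ) (fun x => pr (S.map c x)) x = 0 := hx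
  obtain ⟨i, hxi⟩ : ∃ i, x ∈ support (𝒞.bumps i) := ⟨𝒞.bumps.ind x (mem_univ x), by
    show 𝒞.bumps _ x ≠ 0
    rw [𝒞.bumps.apply_ind x (mem_univ x)]; exact one_ne_zero⟩
  rw [(𝒞.bumps i).support_eq_symm_image] at hxi
  obtain ⟨y, ⟨hy, -⟩, rfl⟩ := hxi
  have hyb := ball_subset_closedBall hy
  have hyt := 𝒞.ball_sub i hyb
  refine mem_iUnion.2 ⟨i, y, ?_, rfl⟩
  have hm : ∀ u : E2, pr (fderiv ℝ (S.loc i c) y u) = 0 := fun u => by
    have h1 : MDifferentiableAt (𝓡 2) 𝓘(ℝ) (fun x => pr (S.map c x))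
        ((extChartAt (𝓡 2) (𝒞.bumps.c i)).symm y) := (hv _).mdifferentiableAt (by simp)
    have h2 : MDifferentiableAt 𝓘(ℝ, E2) (𝓡 2) (extChartAt (𝓡 2) (𝒞.bumps.c i)).symm y :=
      ((contMDiffOn_extChartAt_symm (n := ∞) (𝒞.bumps.c i)).contMDiffAt
        ((isOpen_extChartAt_target _).mem_nhds hyt)).mdifferentiableAt (by simp)
    have h3 := mfderiv_comp y h1 h2
    rw [hx, ContinuousLinearMap.zero_comp, mfderiv_eq_fderiv] at h3
    have h4 : ((fun x => pr (S.map c x)) ∘ (extChartAt (𝓡 2) (𝒞.bumps.c i)).symm) =ᶠ[𝓝 y]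
        fun z => pr (S.loc i c z) := by
      filter_upwards [S.loc_eventuallyEq i c (S.ball_V i hyb)] with z hz
      exact congrArg pr hz
    rw [h4.fderiv_eq] at h3
    have h5 := pr.hasFDerivAt.comp y
      ((S.contDiff_loc i c).differentiable (by simp) y).hasFDerivAt
    rw [show (fun z => pr (S.loc i c z)) = pr ∘ S.loc i c from rfl, h5.fderiv] at h3
    exact DFunLike.congr_fun h3 u
  rw [hZ]
  subst hpr
  exact ⟨hyb, hm _, hm _⟩

end

end Vale.Agent.P205.Full
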