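import Vale.Agent.P205.Full.Interface
import Vale.Agent.P205.Full.Global.Good
import Vale.Agent.P205.Full.Global.Transition
import Vale.Agent.P205.Full.Global.Covector

/-!
# P205 holes: linear coordinates around a point, orthonormal there for the metric
-/

namespace Vale.Agent.P205.Full

open Bundle Set Function Filter Metric
open scoped Manifold ContDiff Topology RealInnerProductSpace

noncomputable section

variable {M : Type*} [TopologicalSpace M] [ChartedSpace E2 M] [IsManifold (𝓡 2) ∞ M]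

/-- A point with linear coordinates in which the metric is Euclidean there, on a disc. -/
structure Spot (g : SurfaceMetric M) where
  /-- The point. -/
  q : M
  /-- The linear part of the coordinates. -/
  Λ : E2 ≃L[ℝ] E2
  /-- The radius. -/
  W : ℝ
  W_pos : 0 < W
  sub : ∀ w, ‖w‖ ≤ W → extChartAt (𝓡 2) q q + Λ w ∈ (extChartAt (𝓡 2) q).target
  ortho : ∀ a b, chartMetric g q (extChartAt (𝓡 2) q q) (Λ a) (Λ b) = ⟪a, b⟫

variable {g : SurfaceMetric M}

namespace Spot

variable (S : Spot g)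

/-- From the coordinates to the chart. -/
def toChart (w : E2) : E2 := extChartAt (𝓡 2) S.q S.q + S.Λ w

/-- From the coordinates to the surface. -/
def pt (w : E2) : M := (extChartAt (𝓡 2) S.q).symm (S.toChart w)

/-- From the surface to the coordinates. -/
def coord (x : M) : E2 :=
  S.Λ.symm (extChartAt (𝓡 2) S.q x - extChartAt (𝓡 2) S.q S.q)

theorem contDiff_toChart : ContDiff ℝ ∞ S.toChart := contDiff_const.add S.Λ.contDiff

theorem toChart_mem {w : E2} (hw : ‖w‖ ≤ S.W) :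
    S.toChart w ∈ (extChartAt (𝓡 2) S.q).target := S.sub w hw

theorem pt_mem {w : E2} (hw : ‖w‖ ≤ S.W) : S.pt w ∈ (extChartAt (𝓡 2) S.q).source :=
  (extChartAt (𝓡 2) S.q).map_target (S.toChart_mem hw)

theorem pt_zero : S.pt 0 = S.q := by
  rw [pt, toChart, map_zero, add_zero]
  exact (extChartAt (𝓡 2) S.q).left_inv (mem_extChartAt_source S.q)

theorem coord_pt {w : E2} (hw : ‖w‖ ≤ S.W) : S.coord (S.pt w) = w := by
  rw [coord, pt, (extChartAt (𝓡 2) S.q).right_inv (S.toChart_mem hw), toChart, add_sub_cancel_left,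
    S.Λ.symm_apply_apply]

theorem pt_coord {x : M} (hx : x ∈ (extChartAt (𝓡 2) S.q).source) : S.pt (S.coord x) = x := by
  rw [pt, toChart, coord, S.Λ.apply_symm_apply, add_sub_cancel]
  exact (extChartAt (𝓡 2) S.q).left_inv hx

theorem continuousAt_coord {x : M} (hx : x ∈ (extChartAt (𝓡 2) S.q).source) :
    ContinuousAt S.coord x :=
  S.Λ.symm.continuous.continuousAt.comp
    ((continuousAt_extChartAt' hx).sub continuousAt_const)

/-- Properties of the coordinate near an inner point hold near the point. -/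
theorem eventually_pt {w : E2} (hw : ‖w‖ < S.W) {P : E2 → Prop} (hP : ∀ᶠ z in 𝓝 w, P z) :
    ∀ᶠ x in 𝓝 (S.pt w), ∃ z, ‖z‖ < S.W ∧ P z ∧ x = S.pt z := by
  have hs := S.pt_mem hw.le
  have hc : Tendsto S.coord (𝓝 (S.pt w)) (𝓝 w) := by
    have h := (S.continuousAt_coord hs).tendsto
    rwa [S.coord_pt hw.le] at h
  filter_upwards [(isOpen_extChartAt_source S.q).mem_nhds hs, hc.eventually hP,
    hc.eventually ((isOpen_lt continuous_norm continuous_const).mem_nhds hw)] with x h1 h2 h3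
  exact ⟨S.coord x, h3, h2, (S.pt_coord h1).symm⟩

/-- A tangent vector through its coordinates. -/
def push (w u : E2) : TangentSpace (𝓡 2) (S.pt w) :=
  chartDeriv S.q (S.toChart w) (S.Λ u)

theorem exists_push {w : E2} (hw : ‖w‖ ≤ S.W) (a : TangentSpace (𝓡 2) (S.pt w)) :
    ∃ u, S.push w u = a := by
  obtain ⟨a', rfl⟩ := surjective_chartDeriv (S.toChart_mem hw) a
  exact ⟨S.Λ.symm a', by simp only [push, S.Λ.apply_symm_apply]; rfl⟩

theorem push_ne {w : E2} (hw : ‖w‖ ≤ S.W) {u : E2} (hu : S.push w u ≠ 0) : u ≠ 0 := by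
  rintro rfl
  exact hu (by simp only [push, map_zero]; rfl)

theorem fderiv_comp_toChart {U : Type*} [NormedAddCommGroup U] [NormedSpace ℝ U] {f : E2 → U}
    {fw : E2 → U} {w : E2} (hf : DifferentiableAt ℝ f (S.toChart w))
    (h : (f ∘ S.toChart) =ᶠ[𝓝 w] fw) (u : E2) :
    fderiv ℝ f (S.toChart w) (S.Λ u) = fderiv ℝ fw w u := by
  have hd : HasFDerivAt S.toChart (S.Λ : E2 →L[ℝ] E2) w := S.Λ.hasFDerivAt.const_add _
  rw [← h.fderiv_eq, (hf.hasFDerivAt.comp w hd).fderiv]
  rfl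

theorem pullInner_push {F : M → E4} (hF : ContMDiff (𝓡 2) 𝓘(ℝ, E4) ∞ F) {Fw : E2 → E4} {w : E2}
    (hw : ‖w‖ ≤ S.W) (h : (fun z => F (S.pt z)) =ᶠ[𝓝 w] Fw) (u u' : E2) :
    pullInner F (S.pt w) (S.push w u) (S.push w u') = pullE2 Fw w u u' := by
  have hd := ((contDiffOn_comp_chart hF S.q).contDiffAt
    ((isOpen_extChartAt_target S.q).mem_nhds (S.toChart_mem hw))).differentiableAt (by simp)
  refine (pullInner_chartDeriv hF (S.toChart_mem hw) (S.Λ u) (S.Λ u')).trans ?_
  rw [S.fderiv_comp_toChart hd h, S.fderiv_comp_toChart hd h]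
  rfl

theorem dform_push {v : M → ℝ} (hv : ContMDiff (𝓡 2) 𝓘(ℝ) ∞ v) {vw : E2 → ℝ} {w : E2}
    (hw : ‖w‖ ≤ S.W) (h : (fun z => v (S.pt z)) =ᶠ[𝓝 w] vw) (u : E2) :
    dform v (S.pt w) (S.push w u) = fderiv ℝ vw w u := by
  have hd := ((contDiffOn_scalar_chart hv S.q).contDiffAt
    ((isOpen_extChartAt_target S.q).mem_nhds (S.toChart_mem hw))).differentiableAt (by simp)
  refine (dform_chartDeriv hv (S.toChart_mem hw) (S.Λ u)).trans ?_
  exact S.fderiv_comp_toChart hd h u

theorem posImmersion_push {F : M → E4} (hF : ContMDiff (𝓡 2) 𝓘(ℝ, E4) ∞ F) {Fw : E2 → E4} {w : E2}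
    (hw : ‖w‖ ≤ S.W) (h : (fun z => F (S.pt z)) =ᶠ[𝓝 w] Fw) (hi : Injective (fderiv ℝ Fw w))
    {a : TangentSpace (𝓡 2) (S.pt w)} (ha : a ≠ 0) : 0 < pullInner F (S.pt w) a a := by
  obtain ⟨u, rfl⟩ := S.exists_push hw a
  rw [S.pullInner_push hF hw h]
  exact real_inner_self_pos.2 fun h0 => S.push_ne hw ha (hi (h0.trans (map_zero _).symm))

theorem goodM_pt {F : M → E4} {Fw : E2 → E4} {w : E2} (hw : ‖w‖ < S.W)
    (h : ∀ z, ‖z‖ < S.W → F (S.pt z) = Fw z) (hg : GoodAt Fw w) : GoodM F (S.pt w) := by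
  refine goodM_of_chart (S.toChart_mem hw.le) (GoodAt.comp_inv (T := S.toChart)
    (isOpen_lt continuous_norm continuous_const : IsOpen {z : E2 | ‖z‖ < S.W}) hw
    S.contDiff_toChart.contDiffOn ?_ h hg)
  have hd : HasFDerivAt S.toChart (S.Λ : E2 →L[ℝ] E2) w := S.Λ.hasFDerivAt.const_add _
  rw [hd.fderiv]
  exact S.Λ.injective

/-- Acceleration in every direction passes from the coordinates to every chart. -/
theorem normalAccel_pt {F : M → E4} (hF : ContMDiff (𝓡 2) 𝓘(ℝ, E4) ∞ F) {Fw : E2 → E4}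
    {w : E2} (hw : ‖w‖ ≤ S.W) (h : (fun z => F (S.pt z)) =ᶠ[𝓝 w] Fw)
    (hacc : ∀ u, u ≠ 0 → NormalAccel Fw w u) {x₀ : M} {y : E2}
    (hy : y ∈ (extChartAt (𝓡 2) x₀).target) (hxy : (extChartAt (𝓡 2) x₀).symm y = S.pt w)
    {u : E2} (hu : u ≠ 0) : NormalAccel (F ∘ (extChartAt (𝓡 2) x₀).symm) y u := by
  have hz : y ∈ overlap S.q x₀ := ⟨hy, by rw [mem_preimage, hxy]; exact S.pt_mem hw⟩
  have htr : transition S.q x₀ y = S.toChart w := by
    rw [transition, comp_apply, hxy, pt, (extChartAt (𝓡 2) S.q).right_inv (S.toChart_mem hw)]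
  have hd0 : HasFDerivAt S.toChart (S.Λ : E2 →L[ℝ] E2) w := S.Λ.hasFDerivAt.const_add _
  have hd : fderiv ℝ S.toChart w = (S.Λ : E2 →L[ℝ] E2) := hd0.fderiv
  have hcs := (contDiffOn_comp_chart hF S.q).contDiffAt
    ((isOpen_extChartAt_target S.q).mem_nhds (S.toChart_mem hw))
  have hchart : ∀ v, v ≠ 0 → NormalAccel (F ∘ (extChartAt (𝓡 2) S.q).symm) (S.toChart w) v := by
    intro v hv
    have h1 := (normalAccel_comp (v := S.Λ.symm v) hcs S.contDiff_toChart.contDiffAt
      (by rw [hd]; exact S.Λ.surjective)).1 (NormalAccel.congr h.symm (hacc _ (by simp [hv])))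
    rw [hd] at h1
    simpa using h1
  have he : (F ∘ (extChartAt (𝓡 2) S.q).symm) ∘ transition S.q x₀
      =ᶠ[𝓝 y] F ∘ (extChartAt (𝓡 2) x₀).symm := by
    filter_upwards [(isOpen_overlap S.q x₀).mem_nhds hz] with z hz'
    show F ((extChartAt (𝓡 2) S.q).symm (extChartAt (𝓡 2) S.q _)) = _
    rw [(extChartAt (𝓡 2) S.q).left_inv hz'.2]
    rfl
  refine NormalAccel.congr he ((normalAccel_comp ?_ ?_ (surjective_fderiv_overlap hz)).2 ?_)
  · rw [htr]; exact hcs
  · exact (contDiffOn_transition S.q x₀).contDiffAt ((isOpen_overlap S.q x₀).mem_nhds hz)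
  · rw [htr]
    exact hchart _ fun h0 => hu (injective_fderiv_overlap hz (h0.trans (map_zero _).symm))

/-- The metric in the coordinates. -/
theorem metric_push (w u u' : E2) :
    g.inner (S.pt w) (S.push w u) (S.push w u') = chartMetric g S.q (S.toChart w) (S.Λ u) (S.Λ u') :=
  rfl

/-- Extension by zero of a function of the coordinates. -/
def lift {U : Type*} [Zero U] (u : E2 → U) (x : M) : U :=
  haveI := Classical.dec (x ∈ (extChartAt (𝓡 2) S.q).source)
  if x ∈ (extChartAt (𝓡 2) S.q).source then u (S.coord x) else 0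

theorem lift_pt {U : Type*} [Zero U] (u : E2 → U) {w : E2} (hw : ‖w‖ ≤ S.W) :
    S.lift u (S.pt w) = u w := by
  rw [lift, if_pos (S.pt_mem hw), S.coord_pt hw]

theorem lift_off {U : Type*} [Zero U] {u : E2 → U} {ρ : ℝ} (h0 : ∀ w, ρ ≤ ‖w‖ → u w = 0) {x : M}
    (hx : x ∉ S.pt '' closedBall (0 : E2) ρ) : S.lift u x = 0 := by
  unfold lift
  split_ifs with h
  · exact h0 _ (le_of_lt (not_le.1 fun hle =>
      hx ⟨S.coord x, mem_closedBall_zero_iff.2 hle, S.pt_coord h⟩))
  · rfl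

theorem isCompact_image {ρ : ℝ} (hρ : ρ ≤ S.W) :
    IsCompact (S.pt '' closedBall (0 : E2) ρ) := by
  refine (isCompact_closedBall _ _).image_of_continuousOn ?_
  exact (continuousOn_extChartAt_symm S.q).comp S.contDiff_toChart.continuous.continuousOn
    fun w hw => S.toChart_mem ((mem_closedBall_zero_iff.1 hw).trans hρ)

theorem contMDiff_lift [T2Space M] {U : Type*} [NormedAddCommGroup U] [NormedSpace ℝ U]
    {u : E2 → U} {ρ : ℝ} (hu : ContDiff ℝ ∞ u) (hρ : ρ ≤ S.W)
    (h0 : ∀ w, ρ ≤ ‖w‖ → u w = 0) : ContMDiff (𝓡 2) 𝓘(ℝ, U) ∞ (S.lift u) := by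
  intro x
  by_cases hx : x ∈ S.pt '' closedBall (0 : E2) ρ
  · obtain ⟨w, hw, rfl⟩ := hx
    have hs := S.pt_mem ((mem_closedBall_zero_iff.1 hw).trans hρ)
    have h1 : ContMDiffAt (𝓡 2) 𝓘(ℝ, U) ∞
        (fun x => (u ∘ fun y => S.Λ.symm (y - extChartAt (𝓡 2) S.q S.q))
          (extChartAt (𝓡 2) S.q x)) (S.pt w) :=
      (hu.comp (S.Λ.symm.contDiff.comp (contDiff_id.sub contDiff_const))).contMDiff.contMDiffAt.comp
        _ (contMDiffAt_extChartAt' (by simpa using hs))
    refine h1.congr_of_eventuallyEq ?_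
    filter_upwards [(isOpen_extChartAt_source S.q).mem_nhds hs] with z hz
    simp only [lift, if_pos hz, coord, comp_apply]
  · refine (contMDiffAt_const (c := (0 : U))).congr_of_eventuallyEq ?_
    filter_upwards [(S.isCompact_image hρ).isClosed.isOpen_compl.mem_nhds hx] with z hz
    exact S.lift_off h0 hz

end Spot

/-- Coordinates exist at every point, on arbitrarily small discs. -/
theorem exists_spot (g : SurfaceMetric M) (q : M) {U : Set M} (hU : U ∈ 𝓝 q) :
    ∃ S : Spot g, S.q = q ∧ ∀ w, ‖w‖ ≤ S.W → S.pt w ∈ U := by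
  set e := extChartAt (𝓡 2) q
  have hy₀ := mem_extChartAt_target (I := 𝓡 2) q
  have ha : (axis₀ : E2) ≠ 0 := by simp [axis₀]
  obtain ⟨e₁, e₂, l₁, l₂, hdual, h11, h12, h22, hl11, hl21, -⟩ := exists_frame
    ((metricField g).coeffCLM q (e q)) (fun v w => (metricField g).coeffCLM_symm q _ v w)
    (fun v hv => (chartMetric_pos g hy₀ hv : _)) ha
  have hB : ∀ p r p' r' : ℝ, chartMetric g q (e q) (p • e₁ + r • e₂) (p' • e₁ + r' • e₂)
      = p * p' + r * r' := by
    intro p r p' r'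
    show (metricField g).coeffCLM q (e q) _ _ = _
    have h21 : (metricField g).coeffCLM q (e q) e₂ e₁ = 0 :=
      ((metricField g).symm _ _ _).trans h12
    simp only [map_add, map_smul, add_apply, _root_.smul_apply, smul_eq_mul, h11, h12, h22, h21]
    ring
  set L₀ : E2 →L[ℝ] E2 := (EuclideanSpace.proj (0 : Fin 2) : E2 →L[ℝ] ℝ).smulRight e₁
    + (EuclideanSpace.proj (1 : Fin 2) : E2 →L[ℝ] ℝ).smulRight e₂
  have hL : ∀ a b, chartMetric g q (e q) (L₀ a) (L₀ b) = ⟪a, b⟫ := fun a b => by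
    simp only [L₀, add_apply, ContinuousLinearMap.smulRight_apply, PiLp.proj_apply, hB,
      PiLp.inner_apply, Fin.sum_univ_two, RCLike.inner_apply, conj_trivial]
    ring
  have hinj : Injective L₀ := (injective_iff_map_eq_zero _).2 fun a ha => by
    have h0 := hL a a
    rw [ha] at h0
    have h1 : chartMetric g q (e q) 0 0 = 0 := by
      show (metricField g).coeffCLM q (e q) 0 0 = 0
      simp
    exact inner_self_eq_zero.1 (h0.symm.trans h1)
  let Λ : E2 ≃L[ℝ] E2 := (LinearEquiv.ofBijective (L₀ : E2 →ₗ[ℝ] E2)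
    ⟨hinj, LinearMap.injective_iff_surjective.1 hinj⟩).toContinuousLinearEquiv
  have hev : ∀ᶠ w in 𝓝 (0 : E2), e q + Λ w ∈ e.target ∧ e.symm (e q + Λ w) ∈ U := by
    have ht : Tendsto (fun w => e q + Λ w) (𝓝 0) (𝓝 (e q)) :=
      (continuous_const.add Λ.continuous).tendsto' 0 (e q) (by simp)
    refine ht.eventually (p := fun y => y ∈ e.target ∧ e.symm y ∈ U)
      (((isOpen_extChartAt_target (I := 𝓡 2) q).eventually_mem hy₀).and ?_)
    have h := ((continuousOn_extChartAt_symm (I := 𝓡 2) q).continuousAt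
      ((isOpen_extChartAt_target q).mem_nhds hy₀)).preimage_mem_nhds
      (show U ∈ 𝓝 (e.symm (e q)) by rwa [e.left_inv (mem_extChartAt_source q)])
    exact h
  obtain ⟨ε, hε, hb⟩ := Metric.eventually_nhds_iff.1 hev
  have hb' : ∀ w : E2, ‖w‖ ≤ ε / 2 → e q + Λ w ∈ e.target ∧ e.symm (e q + Λ w) ∈ U :=
    fun w hw => hb (y := w) (by rw [dist_zero_right]; linarith)
  exact ⟨⟨q, Λ, ε / 2, half_pos hε, fun w hw => (hb' w hw).1, hL⟩, rfl,
    fun w hw => (hb' w hw).2⟩

end

end Vale.Agent.P205.Full
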