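import Vale.Agent.P205.Full.Global.Starter
import Vale.Agent.P205.Full.Holes.Spot
import Vale.Agent.P205.Full.Topology.Immersion3

/-!
# P205 holes: the map into the sphere, domination by the metric and fields around a spot
-/

namespace Vale.Agent.P205.Full

open Bundle Set Function Filter Metric
open scoped Manifold ContDiff Topology RealInnerProductSpace

noncomputable section

variable {M : Type*} [TopologicalSpace M] [ChartedSpace E2 M] [IsManifold (𝓡 2) ∞ M]

/-- Three-space as the first three coordinates of four-space. -/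
def hyperplane : EuclideanSpace ℝ (Fin 3) →L[ℝ] E4 :=
  LinearMap.toContinuousLinearMap
    { toFun := fun z => !₂[z 0, z 1, z 2, 0]
      map_add' := fun z w => by ext i; fin_cases i <;> simp
      map_smul' := fun c z => by ext i; fin_cases i <;> simp }

theorem inner_hyperplane (z : EuclideanSpace ℝ (Fin 3)) :
    ⟪hyperplane z, EuclideanSpace.single (3 : Fin 4) (1 : ℝ)⟫ = 0 := by
  simp [hyperplane, EuclideanSpace.inner_single_right]

theorem injective_hyperplane : Injective hyperplane := fun z w h => by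
  have h0 := congrArg (fun p : E4 => p 0) h
  have h1 := congrArg (fun p : E4 => p 1) h
  have h2 := congrArg (fun p : E4 => p 2) h
  simp [hyperplane] at h0 h1 h2
  ext i; fin_cases i <;> assumption

/-- A closed surface immerses in the unit sphere of four-space. -/
theorem exists_sphere_immersion (M : Type*) [TopologicalSpace M] [ChartedSpace E2 M]
    [IsManifold (𝓡 2) ∞ M] [T2Space M] [CompactSpace M] :
    ∃ h : M → E4, ContMDiff (𝓡 2) 𝓘(ℝ, E4) ∞ h ∧ (∀ x, ‖h x‖ = 1) ∧ PosImmersion h := by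
  obtain ⟨F, hF, hi⟩ := Topo.exists_immersion_three M
  set e : E4 := EuclideanSpace.single (3 : Fin 4) (1 : ℝ)
  set u : M → E4 := fun x => hyperplane (F x) + e with hu
  have hue : ∀ x, ⟪u x, e⟫ = 1 := fun x => by
    rw [hu, inner_add_left, inner_hyperplane, zero_add]
    simp [e]
  have hu0 : ∀ x, u x ≠ 0 := fun x h => by simpa [h] using hue x
  have hus : ContMDiff (𝓡 2) 𝓘(ℝ, E4) ∞ u :=
    (hyperplane.contDiff.add contDiff_const).contMDiff.comp hF
  set h : M → E4 := fun x => ‖u x‖⁻¹ • u x with hh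
  have hsm : ContMDiff (𝓡 2) 𝓘(ℝ, E4) ∞ h := fun x => by
    have h1 : ContDiffAt ℝ ∞ (fun z : E4 => ‖z‖⁻¹ • z) (u x) :=
      ((contDiffAt_norm ℝ (hu0 x)).inv (norm_ne_zero_iff.2 (hu0 x))).smul contDiffAt_id
    exact h1.contMDiffAt.comp x (hus x)
  refine ⟨h, hsm, fun x => by rw [hh, norm_smul, norm_inv, norm_norm,
    inv_mul_cancel₀ (norm_ne_zero_iff.2 (hu0 x))], fun x' a ha => ?_⟩
  obtain ⟨x, y, hy, rfl⟩ : ∃ x y, y ∈ (extChartAt (𝓡 2) x).target ∧
      (extChartAt (𝓡 2) x).symm y = x' :=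
    ⟨x', _, mem_extChartAt_target x', (extChartAt (𝓡 2) x').left_inv (mem_extChartAt_source x')⟩
  obtain ⟨v, rfl⟩ := surjective_chartDeriv hy a
  set c := (extChartAt (𝓡 2) x).symm
  rw [pullInner_chartDeriv hsm hy]
  refine real_inner_self_pos.2 fun h0 => ha ?_
  have hn := (isOpen_extChartAt_target (I := 𝓡 2) x).mem_nhds hy
  have hd : ∀ {G : M → E4}, ContMDiff (𝓡 2) 𝓘(ℝ, E4) ∞ G →
      DifferentiableAt ℝ (G ∘ c) y := fun hG =>
    ((contDiffOn_comp_chart hG x).contDiffAt hn).differentiableAt (by simp)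
  have hnorm : DifferentiableAt ℝ (fun z => ‖u (c z)‖) y := (hd hus).norm ℝ (hu0 _)
  have heq : (u ∘ c) = fun z => ‖u (c z)‖ • (h ∘ c) z := funext fun z => by
    simp [hh, smul_smul, mul_inv_cancel₀ (norm_ne_zero_iff.2 (hu0 (c z)))]
  have hFc : DifferentiableAt ℝ (F ∘ c) y :=
    ((hF.comp_contMDiffOn (contMDiffOn_extChartAt_symm x)).contDiffOn.contDiffAt hn).differentiableAt
      (by simp)
  have e1 : fderiv ℝ (u ∘ c) y v = fderiv ℝ (fun z => ‖u (c z)‖) y v • h (c y) := by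
    rw [heq, fderiv_fun_smul hnorm (hd hsm)]
    simp [show fderiv ℝ (h ∘ c) y v = 0 from h0]
  have e2 : fderiv ℝ (u ∘ c) y v = hyperplane (fderiv ℝ (F ∘ c) y v) := by
    rw [show u ∘ c = fun z => (hyperplane ∘ F ∘ c) z + e from rfl, fderiv_add_const,
      (hyperplane.hasFDerivAt.comp y hFc.hasFDerivAt).fderiv]
    rfl
  have e3 := congrArg (fun p => ⟪p, e⟫) (e2.symm.trans e1)
  simp only [e, inner_hyperplane, real_inner_smul_left, hh] at e3
  rw [show ⟪u (c y), EuclideanSpace.single (3 : Fin 4) (1 : ℝ)⟫ = 1 from hue _, mul_one] at e3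
  have e4 : fderiv ℝ (fun z => ‖u (c z)‖) y v = 0 :=
    (mul_eq_zero.1 e3.symm).resolve_right (inv_ne_zero (norm_ne_zero_iff.2 (hu0 _)))
  rw [e4, zero_smul] at e1
  have e5 : fderiv ℝ (F ∘ c) y v = 0 :=
    injective_hyperplane ((e2.symm.trans e1).trans (map_zero _).symm)
  have h1 : MDifferentiableAt 𝓘(ℝ, E2) (𝓡 2) c y :=
    ((contMDiffOn_extChartAt_symm (n := ∞) x).contMDiffAt hn).mdifferentiableAt (by simp)
  rw [← mfderiv_eq_fderiv, mfderiv_comp y (hF.mdifferentiableAt (by simp)) h1] at e5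
  exact hi (c y) (e5.trans (map_zero _).symm)

/-- A field is dominated by the metric. -/
theorem SymField.exists_dominated [T2Space M] [CompactSpace M] (g : SurfaceMetric M) (S : SymField M) :
    ∃ C, 0 ≤ C ∧ ∀ (x : M) (a : TangentSpace (𝓡 2) x), S.val x a a ≤ C * g.inner x a a := by
  have hloc : ∀ x₀ : M, ∃ U ∈ 𝓝 x₀, ∃ C, 0 ≤ C ∧ ∀ x ∈ U, ∀ a : TangentSpace (𝓡 2) x,
      S.val x a a ≤ C * g.inner x a a := fun x₀ => by
    set e := extChartAt (𝓡 2) x₀
    obtain ⟨r, hr, hrt⟩ := Metric.nhds_basis_closedBall.mem_iff.1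
      ((isOpen_extChartAt_target (I := 𝓡 2) x₀).mem_nhds (mem_extChartAt_target x₀))
    set q : E2 × E2 → ℝ := fun p =>
      S.coeffCLM x₀ p.1 p.2 p.2 / (metricField g).coeffCLM x₀ p.1 p.2 p.2
    have hq : ContinuousOn q (closedBall (e x₀) r ×ˢ sphere (0 : E2) 1) := fun p hp => by
      refine ContinuousAt.continuousWithinAt ?_
      exact (S.continuousAt_quad continuous_fst.continuousAt continuous_snd.continuousAt
        (hrt hp.1)).div ((metricField g).continuousAt_quad continuous_fst.continuousAt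
          continuous_snd.continuousAt (hrt hp.1))
            (chartMetric_pos g (hrt hp.1) (ne_of_mem_sphere hp.2 one_ne_zero)).ne'
    obtain ⟨C, hC⟩ := ((isCompact_closedBall _ _).prod (isCompact_sphere (0 : E2) 1))
      |>.exists_bound_of_continuousOn hq
    refine ⟨e.source ∩ e ⁻¹' ball (e x₀) r,
      (isOpen_extChartAt_preimage' x₀ isOpen_ball).mem_nhds
      ⟨mem_extChartAt_source x₀, mem_ball_self hr⟩, |C|, abs_nonneg C, ?_⟩
    rintro x ⟨hxs, hxb⟩ a
    obtain ⟨y, hy, rfl⟩ : ∃ y ∈ closedBall (e x₀) r, e.symm y = x :=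
      ⟨e x, ball_subset_closedBall hxb, e.left_inv hxs⟩
    obtain ⟨v, rfl⟩ := surjective_chartDeriv (hrt hy) a
    show S.coeffCLM x₀ y v v ≤ |C| * (metricField g).coeffCLM x₀ y v v
    rcases eq_or_ne v 0 with rfl | hv
    · simp
    have hn : 0 < ‖v‖ := norm_pos_iff.2 hv
    have hm : 0 < (metricField g).coeffCLM x₀ y v v := chartMetric_pos g (hrt hy) hv
    have h := (le_abs_self _).trans ((hC (y, ‖v‖⁻¹ • v) ⟨hy, by
      simp [norm_smul, inv_mul_cancel₀ hn.ne']⟩).trans (le_abs_self C))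
    simp only [q, map_smul, _root_.smul_apply, smul_eq_mul] at h
    rw [mul_div_mul_left _ _ (inv_ne_zero hn.ne'), mul_div_mul_left _ _ (inv_ne_zero hn.ne'),
      div_le_iff₀ hm] at h
    exact h
  choose U hU C hC0 hC using hloc
  obtain ⟨t, ht⟩ := isCompact_univ.elim_nhds_subcover U fun x _ => hU x
  refine ⟨∑ x ∈ t, C x, Finset.sum_nonneg fun x _ => hC0 x, fun x a => ?_⟩
  obtain ⟨x₀, hx₀t, hx₀⟩ : ∃ x₀ ∈ t, x ∈ U x₀ := by simpa using ht.2 (mem_univ x)
  refine (hC x₀ x hx₀ a).trans (mul_le_mul_of_nonneg_right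
    (Finset.single_le_sum (fun z _ => hC0 z) hx₀t) ?_)
  rcases eq_or_ne a 0 with rfl | ha
  · simp
  · exact (g.pos x a ha).le

/-- The square of a multiple of the differential of a function. -/
def sqDField {v β : M → ℝ} (hv : ContMDiff (𝓡 2) 𝓘(ℝ) ∞ v) (hβ : ContMDiff (𝓡 2) 𝓘(ℝ) ∞ β) :
    SymField M where
  val x := β x ^ 2 • (dform v x).smulRight (dform v x)
  symm x a b := by
    show β x ^ 2 * (dform v x a * dform v x b) = β x ^ 2 * (dform v x b * dform v x a)
    ring
  smooth x₀ a b := by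
    have hd : ∀ u, ContDiffOn ℝ ∞
        (fun y => fderiv ℝ (v ∘ (extChartAt (𝓡 2) x₀).symm) y u)
        (extChartAt (𝓡 2) x₀).target := fun u =>
      ((contDiffOn_scalar_chart hv x₀).fderiv_of_isOpen (isOpen_extChartAt_target x₀)
        (m := ∞) (by simp)).clm_apply contDiffOn_const
    refine (((contDiffOn_scalar_chart hβ x₀).pow 2).mul ((hd a).mul (hd b))).congr fun y hy => ?_
    show β _ ^ 2 * (dform v _ _ * dform v _ _) = _
    rw [dform_chartDeriv hv hy, dform_chartDeriv hv hy]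
    rfl

theorem sqDField_val {v β : M → ℝ} (hv : ContMDiff (𝓡 2) 𝓘(ℝ) ∞ v)
    (hβ : ContMDiff (𝓡 2) 𝓘(ℝ) ∞ β) (x : M) (a b : TangentSpace (𝓡 2) x) :
    (sqDField hv hβ).val x a b = β x ^ 2 * (dform v x a * dform v x b) := rfl

namespace Spot

variable {g : SurfaceMetric M} (S : Spot g)

/-- The product of the coordinates, cut off by a function. -/
def formCLM (c : M → ℝ) (x : M) : TangentSpace (𝓡 2) x →L[ℝ] TangentSpace (𝓡 2) x →L[ℝ] ℝ :=
  c x • show E2 →L[ℝ] E2 →L[ℝ] ℝ from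
    ContinuousLinearMap.bilinearComp (innerSL ℝ : E2 →L[ℝ] E2 →L[ℝ] ℝ)
      ((S.Λ.symm : E2 →L[ℝ] E2).comp (show E2 →L[ℝ] E2 from chartPush S.q x))
      ((S.Λ.symm : E2 →L[ℝ] E2).comp (show E2 →L[ℝ] E2 from chartPush S.q x))

theorem formCLM_apply (c : M → ℝ) (x : M) (a b : TangentSpace (𝓡 2) x) :
    S.formCLM c x a b
      = c x * ⟪S.Λ.symm (chartPush S.q x a), S.Λ.symm (chartPush S.q x b)⟫ := rfl

theorem formCLM_push (c : M → ℝ) {w : E2} (hw : ‖w‖ ≤ S.W) (s t : E2) :
    S.formCLM c (S.pt w) (S.push w s) (S.push w t) = c (S.pt w) * ⟪s, t⟫ := by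
  have e : ∀ u, S.Λ.symm (chartPush S.q (S.pt w) (S.push w u)) = u := fun u =>
    (congrArg S.Λ.symm (mfderiv_extChartAt_chartDeriv (S.toChart_mem hw) (S.Λ u))).trans
      (S.Λ.symm_apply_apply u)
  rw [S.formCLM_apply, e, e]

/-- The cut product as a field. -/
def field [T2Space M] {c : M → ℝ} (hc : ContMDiff (𝓡 2) 𝓘(ℝ) ∞ c) {ρ : ℝ} (hρ : ρ ≤ S.W)
    (h0 : ∀ x ∉ S.pt '' closedBall (0 : E2) ρ, c x = 0) : SymField M where
  val := S.formCLM c
  symm x a b := by rw [S.formCLM_apply, S.formCLM_apply, real_inner_comm]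
  smooth x₁ a b := fun y hy => by
    refine ContDiffAt.contDiffWithinAt ?_
    by_cases hs : (extChartAt (𝓡 2) x₁).symm y ∈ (extChartAt (𝓡 2) S.q).source
    · have hz : y ∈ overlap S.q x₁ := ⟨hy, hs⟩
      have hψ : ContDiffAt ℝ ∞ (transition S.q x₁) y :=
        (contDiffOn_transition S.q x₁).contDiffAt ((isOpen_overlap _ _).mem_nhds hz)
      have hd : ∀ u, ContDiffAt ℝ ∞
          (fun z => S.Λ.symm (fderiv ℝ (transition S.q x₁) z u)) y := fun u =>
        S.Λ.symm.contDiff.contDiffAt.comp y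
          ((hψ.fderiv_right (m := ∞) (by simp)).clm_apply contDiffAt_const)
      refine (((contDiffOn_scalar_chart hc x₁).contDiffAt
        ((isOpen_extChartAt_target x₁).mem_nhds hy)).mul ((hd a).inner ℝ (hd b)))
          |>.congr_of_eventuallyEq ?_
      filter_upwards [(isOpen_overlap _ _).mem_nhds hz] with z hz'
      rw [S.formCLM_apply, chartPush_chartDeriv hz', chartPush_chartDeriv hz']
      rfl
    · refine (contDiffAt_const (c := (0 : ℝ))).congr_of_eventuallyEq ?_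
      have hn : (extChartAt (𝓡 2) x₁).symm y ∈ (S.pt '' closedBall (0 : E2) ρ)ᶜ := by
        rintro ⟨w, hw, he⟩
        exact hs (he ▸ S.pt_mem ((mem_closedBall_zero_iff.1 hw).trans hρ))
      filter_upwards [((continuousOn_extChartAt_symm x₁).continuousAt
        ((isOpen_extChartAt_target x₁).mem_nhds hy)).eventually
          ((S.isCompact_image hρ).isClosed.isOpen_compl.mem_nhds hn)] with z hz
      rw [S.formCLM_apply, h0 _ hz, zero_mul]

end Spot

end

end Vale.Agent.P205.Full
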