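import Vale.Agent.P205.Full.Holes.Blend
import Vale.Agent.P205.Full.Holes.Local
import Vale.Agent.P205.Full.Holes.Setup

/-!
# P205 holes: one hole on the surface

`exists_site`: at a point there is a small coordinate disc on which, for every admissible choice of
the parameters, a map continues a multiple of the map into the sphere, is exact and good on a tiny
inner disc and short elsewhere.
-/

namespace Vale.Agent.P205.Full

open Bundle Set Function Filter Metric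
open Vale.Agent.P205.Holes (bProf eProf Model)
open scoped Manifold ContDiff Topology RealInnerProductSpace

noncomputable section

variable {M : Type*} [TopologicalSpace M] [ChartedSpace E2 M] [IsManifold (𝓡 2) ∞ M]

/-- What the map of one hole satisfies at the parameters `t`, `κ`, `a`. -/
structure HoleAt {g : SurfaceMetric M} (S : Spot g) (v : M → ℝ) (ρ R : ℝ) (hc : E2 → E4)
    (t κ a : ℝ) (F : E2 → E4) : Prop where
  smooth : ContDiff ℝ ∞ F
  outer : ∀ w, ρ ≤ ‖w‖ → F w = t • hc w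
  imm : ∀ w, ‖w‖ < S.W → Injective (fderiv ℝ F w) ∧ ∀ u, u ≠ 0 → NormalAccel F w u
  exact_inner : ∀ w, ‖w‖ ≤ ρ → ‖a⁻¹ • w‖ ^ 2 < 3 * R ^ 2 / 8 → GoodAt F w ∧ ∀ s u,
    pullE2 F w s u + (κ * bProf R (‖a⁻¹ • w‖ ^ 2)) ^ 2
        * (dform v (S.pt w) (S.push w s) * dform v (S.pt w) (S.push w u))
      + (κ * eProf R (‖a⁻¹ • w‖ ^ 2)) ^ 2 * ⟪s, u⟫
      = g.inner (S.pt w) (S.push w s) (S.push w u)
  short : ∀ w, ‖w‖ ≤ ρ → 3 * R ^ 2 / 8 ≤ ‖a⁻¹ • w‖ ^ 2 → ∀ u, u ≠ 0 →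
    pullE2 F w u u + κ ^ 2 * dform v (S.pt w) (S.push w u) ^ 2
      < g.inner (S.pt w) (S.push w u) (S.push w u)

/-- A place for a hole. -/
structure Site (g : SurfaceMetric M) (h : M → E4) (v : M → ℝ) where
  /-- The coordinates. -/
  S : Spot g
  /-- Outside this radius nothing changes. -/
  ρ : ℝ
  /-- The radius of the zoomed hole. -/
  R : ℝ
  /-- The room for the parameter `d`. -/
  η : ℝ
  /-- The map into the sphere in the coordinates. -/
  hc : E2 → E4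
  ρ_lt : ρ < S.W
  R_pos : 0 < R
  η_pos : 0 < η
  smooth_hc : ContDiff ℝ ∞ hc
  hc_eq : ∀ w, ‖w‖ < S.W → hc w = h (S.pt w)
  hole : ∀ d : ℝ, 1 < d → d < 1 + η → ∀ᶠ κ in 𝓝[>] (0 : ℝ), ∀ᶠ a in 𝓝[>] (0 : ℝ),
    a * R < ρ ∧ ∃ F, HoleAt S v ρ R hc (a / √d) κ a F

/-- A function on a disc, cut off inside it, is smooth on the plane. -/
theorem contDiff_cut {U : Type*} [NormedAddCommGroup U] [NormedSpace ℝ U] {f : E2 → U} {W : ℝ}
    (χ : ContDiffBump (0 : E2)) (hW : χ.rOut < W) (hf : ∀ w, ‖w‖ < W → ContDiffAt ℝ ∞ f w) :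
    ContDiff ℝ ∞ fun w => χ w • f w := by
  refine contDiff_iff_contDiffAt.2 fun w => ?_
  rcases lt_or_ge ‖w‖ W with hw | hw
  · exact χ.contDiff.contDiffAt.smul (hf w hw)
  · refine (contDiffAt_const (c := (0 : U))).congr_of_eventuallyEq ?_
    filter_upwards [(isOpen_lt continuous_const continuous_norm).mem_nhds (hW.trans_le hw)]
      with z hz
    rw [χ.zero_of_le_dist (by rw [dist_zero_right]; exact hz.le), zero_smul]

namespace Spot

variable {g : SurfaceMetric M} (S : Spot g)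

/-- The coefficients of the metric in the coordinates, cut off. -/
def cutMetric (χ : ContDiffBump (0 : E2)) (w : E2) : E2 →L[ℝ] E2 →L[ℝ] ℝ :=
  χ w • ((metricField g).coeffCLM S.q (S.toChart w)).bilinearComp (S.Λ : E2 →L[ℝ] E2)
    (S.Λ : E2 →L[ℝ] E2)

theorem cutMetric_apply (χ : ContDiffBump (0 : E2)) (w s u : E2) :
    S.cutMetric χ w s u = χ w * (metricField g).coeff S.q (S.toChart w) (S.Λ s) (S.Λ u) := rfl

theorem cutMetric_symm (χ : ContDiffBump (0 : E2)) (w s u : E2) :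
    S.cutMetric χ w s u = S.cutMetric χ w u s := by
  rw [S.cutMetric_apply, S.cutMetric_apply]
  exact congrArg (χ w * ·) ((metricField g).symm _ _ _)

theorem cutMetric_one {χ : ContDiffBump (0 : E2)} {w : E2} (h : χ w = 1) (s u : E2) :
    S.cutMetric χ w s u = g.inner (S.pt w) (S.push w s) (S.push w u) := by
  rw [S.cutMetric_apply, h, one_mul]
  rfl

theorem contDiff_cutMetric (χ : ContDiffBump (0 : E2)) (hW : χ.rOut < S.W) :
    ContDiff ℝ ∞ (S.cutMetric χ) := by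
  refine contDiff_clm_apply_iff.2 fun s => contDiff_clm_apply_iff.2 fun u => ?_
  exact contDiff_cut (W := S.W) χ hW fun w hw =>
    (((metricField g).contDiffOn_coeff S.q (S.Λ s) (S.Λ u)).contDiffAt
      ((isOpen_extChartAt_target S.q).mem_nhds (S.toChart_mem hw.le))).comp w
        S.contDiff_toChart.contDiffAt

theorem injective_push {w : E2} (hw : ‖w‖ ≤ S.W) : Injective (S.push w) := fun _ _ h =>
  S.Λ.injective (injective_chartDeriv (S.toChart_mem hw) h)

end Spot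

/-- A place for a hole exists at every point, in every neighbourhood. -/
theorem exists_site (Φ : Model) (g : SurfaceMetric M) {h : M → E4}
    (hh : ContMDiff (𝓡 2) 𝓘(ℝ, E4) ∞ h) (h1 : ∀ x, ‖h x‖ = 1) (hpos : PosImmersion h) {v : M → ℝ}
    (hv : ContMDiff (𝓡 2) 𝓘(ℝ) ∞ v) (q : M) {U : Set M} (hU : U ∈ 𝓝 q) :
    ∃ T : Site g h v, T.S.q = q ∧ ∀ w, ‖w‖ ≤ T.S.W → T.S.pt w ∈ U := by
  obtain ⟨S₀, rfl, hsub⟩ := exists_spot g q hU
  have hW := S₀.W_pos
  obtain ⟨S, hSW, hSq, hSpt⟩ : ∃ S : Spot g, S.W = S₀.W / 2 ∧ S.q = S₀.q ∧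
      ∀ w, ‖w‖ ≤ S.W → S.pt w ∈ U :=
    ⟨⟨S₀.q, S₀.Λ, S₀.W / 2, half_pos hW, fun w hw => S₀.sub w (by linarith), S₀.ortho⟩, rfl, rfl,
      fun w hw => hsub w (by linarith [show ‖w‖ ≤ S₀.W / 2 from hw])⟩
  have hWS := S.W_pos
  let χ : ContDiffBump (0 : E2) :=
    ⟨2 * S.W / 4, 3 * S.W / 4, by linarith, by linarith⟩
  have hχ : ∀ w, ‖w‖ < S.W / 2 → χ =ᶠ[𝓝 w] fun _ => 1 := fun w hw => by
    filter_upwards [(isOpen_lt continuous_norm continuous_const).mem_nhds hw] with z hz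
    exact χ.one_of_mem_closedBall (mem_closedBall_zero_iff.2 (le_of_lt (hz.trans_eq (by
      show S.W / 2 = 2 * S.W / 4
      ring))))
  have hmem : ∀ w, ‖w‖ < S.W → (extChartAt (𝓡 2) S.q).target ∈ 𝓝 (S.toChart w) := fun w hw =>
    (isOpen_extChartAt_target S.q).mem_nhds (S.toChart_mem hw.le)
  have hhs : ∀ w, ‖w‖ < S.W → ContDiffAt ℝ ∞ (fun z => h (S.pt z)) w := fun w hw =>
    ((contDiffOn_comp_chart hh S.q).contDiffAt (hmem w hw)).comp w S.contDiff_toChart.contDiffAt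
  have hvs : ∀ w, ‖w‖ < S.W → ContDiffAt ℝ ∞ (fun z => v (S.pt z)) w := fun w hw =>
    ((contDiffOn_scalar_chart hv S.q).contDiffAt (hmem w hw)).comp w S.contDiff_toChart.contDiffAt
  have hrW : χ.rOut < S.W := show 3 * S.W / 4 < S.W by linarith
  obtain ⟨hc, rfl⟩ : ∃ hc : E2 → E4, hc = fun w => χ w • h (S.pt w) := ⟨_, rfl⟩
  obtain ⟨vw, hvw⟩ : ∃ vw : E2 → ℝ, vw = fun w => χ w • v (S.pt w) := ⟨_, rfl⟩
  have hhc : ∀ w, ‖w‖ < S.W / 2 → (fun z => h (S.pt z)) =ᶠ[𝓝 w] fun z => χ z • h (S.pt z) :=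
    fun w hw => (hχ w hw).mono fun z hz => by simp [hz]
  have hvc : ∀ w, ‖w‖ < S.W / 2 → (fun z => v (S.pt z)) =ᶠ[𝓝 w] vw := fun w hw =>
    (hχ w hw).mono fun z hz => by simp [hvw, hz]
  have h0 : ‖(0 : E2)‖ < S.W / 2 := by simpa using hWS
  have hGe : ∀ w, ‖w‖ < S.W / 2 → ∀ s u,
      S.cutMetric χ w s u = g.inner (S.pt w) (S.push w s) (S.push w u) := fun w hw =>
    S.cutMetric_one (hχ w hw).eq_of_nhds
  have hG0 : ∀ s u, S.cutMetric χ 0 s u = ⟪s, u⟫ := fun s u => by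
    rw [hGe 0 h0, S.metric_push]
    simpa [Spot.toChart] using S.ortho s u
  have hinj : ∀ w, ‖w‖ < S.W / 2 → Injective (fderiv ℝ (fun z => χ z • h (S.pt z)) w) := by
    intro w hw
    have hw' : ‖w‖ < S.W := by linarith
    have hd := ((contDiffOn_comp_chart hh S.q).contDiffAt (hmem w hw')).differentiableAt (by simp)
    intro s u hsu
    rw [← S.fderiv_comp_toChart hd (hhc w hw), ← S.fderiv_comp_toChart hd (hhc w hw)] at hsu
    exact S.Λ.injective
      (injective_fderiv_comp_chart hh hpos (S.toChart_mem hw'.le) hsu)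
  obtain ⟨A, N, n₀, ρ, ρ₀, h', hn, hN, hρ₀, hρ, hρW, hh's, hfar, hnear, hunit⟩ :=
    Holes.exists_blend Φ (W := S.W / 2) (half_pos hWS) (contDiff_cut χ hrW hhs)
      (fun w hw => by
        show ‖χ w • h (S.pt w)‖ = 1
        rw [(hχ w hw).eq_of_nhds, one_smul, h1]) hinj
  have hGp : ∀ w, ‖w‖ ≤ ρ → ∀ u, u ≠ 0 → 0 < S.cutMetric χ w u u := fun w hw u hu => by
    rw [hGe w (hw.trans_lt hρW)]
    exact g.pos _ _ fun h0 => hu (S.injective_push (w := w) (by linarith)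
      (h0.trans (by simp only [Spot.push, map_zero]; rfl)))
  have hvs' : ContDiff ℝ ∞ vw := by
    rw [hvw]
    exact contDiff_cut χ hrW hvs
  obtain ⟨R, hR, η, hη, hole⟩ := Holes.exists_hole Φ hn hN hρ₀ hρ hh's hfar hnear hunit
    (S.contDiff_cutMetric χ hrW) (S.cutMetric_symm χ) hG0 hGp hvs'
  have hdv : ∀ w, ‖w‖ < S.W / 2 → ∀ u, dform v (S.pt w) (S.push w u) = fderiv ℝ vw w u :=
    fun w hw u => S.dform_push hv (by linarith) (hvc w hw) u
  refine ⟨⟨⟨S.q, S.Λ, S.W / 2, half_pos hWS, fun w hw => S.sub w (by linarith), S.ortho⟩, ρ, R, η,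
    fun z => χ z • h (S.pt z), hρW, hR, hη, contDiff_cut χ hrW hhs,
    fun w hw => (hhc w hw).eq_of_nhds.symm, fun d hd hdη => ?_⟩, hSq,
    fun w hw => ?_⟩
  rotate_left
  · replace hw : ‖w‖ ≤ S.W / 2 := hw
    exact hSpt w (by linarith)
  filter_upwards [hole d hd hdη] with κ hκ
  filter_upwards [hκ] with a ha
  obtain ⟨haR, F, hF, hout, himm, hin, hshort⟩ := ha
  refine ⟨haR, F, hF, hout, himm, fun w hw hz => ⟨(hin w hz).1, fun s u => ?_⟩,
    fun w hw hz u hu => ?_⟩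
  · show _ + _ * (dform v (S.pt w) (S.push w s) * dform v (S.pt w) (S.push w u)) + _
      = g.inner (S.pt w) (S.push w s) (S.push w u)
    rw [hdv w (by linarith), hdv w (by linarith), ← hGe w (by linarith)]
    exact (hin w hz).2 s u
  · show _ + _ * dform v (S.pt w) (S.push w u) ^ 2 < g.inner (S.pt w) (S.push w u) (S.push w u)
    rw [hdv w (by linarith), ← hGe w (by linarith)]
    exact hshort w hw hz u hu

end

end Vale.Agent.P205.Full
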