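import Vale.Agent.P205.Full.Holes.Model
import Vale.Agent.P205.Full.Holes.Morse
import Vale.Agent.P205.Full.Holes.Site

/-!
# P205 holes: the starting state

`startStatement`: every metric on a closed surface has a starting state.  Holes are planted at the
finitely many critical points of a function; away from them the map is a small multiple of a map
into the unit sphere, so every direction has normal acceleration.
-/

namespace Vale.Agent.P205.Full

open Bundle Set Function Filter Metric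
open Vale.Agent.P205.Holes (bProf eProf prof_one Model ramp ramp_mem ramp_zero ramp_eq_zero_iff
  contDiff_ramp)
open scoped Manifold ContDiff Topology RealInnerProductSpace

noncomputable section

universe u

variable {M : Type u} [TopologicalSpace M] [ChartedSpace E2 M] [IsManifold (𝓡 2) ∞ M]

/-- The holes and the parameters of a starting state. -/
structure Layout (g : SurfaceMetric M) (h : M → E4) (v : M → ℝ) (ι : Type u) where
  /-- The holes. -/
  T : ι → Site g h v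
  /-- The scale of the map outside. -/
  t : ℝ
  /-- The amplitude of the rank one part. -/
  κ : ℝ
  /-- The scale of the holes. -/
  a : ℝ
  /-- The maps of the holes. -/
  Fh : ι → E2 → E4
  smooth_h : ContMDiff (𝓡 2) 𝓘(ℝ, E4) ∞ h
  unit : ∀ x, ‖h x‖ = 1
  pos_h : PosImmersion h
  smooth_v : ContMDiff (𝓡 2) 𝓘(ℝ) ∞ v
  crit : ∀ x, dform v x = 0 → ∃ i, x = (T i).S.q
  disj : ∀ i j, i ≠ j → ∀ w z, ‖w‖ ≤ (T i).S.W → ‖z‖ ≤ (T j).S.W → (T i).S.pt w ≠ (T j).S.pt z
  t_pos : 0 < t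
  κ_pos : 0 < κ
  a_pos : 0 < a
  aR : ∀ i, a * (T i).R < (T i).ρ
  hole : ∀ i, HoleAt (T i).S v (T i).ρ (T i).R (T i).hc t κ a (Fh i)
  outside : ∀ (x : M) (u : TangentSpace (𝓡 2) x), u ≠ 0 →
    t ^ 2 * pullInner h x u u + κ ^ 2 * dform v x u ^ 2 < g.inner x u u

namespace Layout

variable {g : SurfaceMetric M} {h : M → E4} {v : M → ℝ} {ι : Type u} (L : Layout g h v ι)

/-- The squared zoomed radius. -/
def zs (w : E2) : ℝ := ‖L.a⁻¹ • w‖ ^ 2

/-- The profile of the rank one amplitude in one hole. -/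
def bf (i : ι) (w : E2) : ℝ := bProf (L.T i).R (L.zs w)

/-- The profile of the positive amplitude in one hole. -/
def ef (i : ι) (w : E2) : ℝ := eProf (L.T i).R (L.zs w)

theorem contDiff_zs : ContDiff ℝ ∞ L.zs := (contDiff_id.const_smul L.a⁻¹).norm_sq ℝ

theorem contDiff_bf (i : ι) : ContDiff ℝ ∞ (L.bf i) := (contDiff_ramp _ _).comp L.contDiff_zs

theorem contDiff_ef (i : ι) : ContDiff ℝ ∞ (L.ef i) := (contDiff_ramp _ _).comp L.contDiff_zs

theorem ρ_pos (i : ι) : 0 < (L.T i).ρ := (mul_pos L.a_pos (L.T i).R_pos).trans (L.aR i)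

theorem zs_large {i : ι} {w : E2} (hw : (L.T i).ρ ≤ ‖w‖) : 3 * (L.T i).R ^ 2 / 8 ≤ L.zs w := by
  have hR := (L.T i).R_pos
  have h1 : (L.T i).R ≤ ‖L.a⁻¹ • w‖ := by
    rw [norm_smul, norm_inv, Real.norm_eq_abs, abs_of_pos L.a_pos, le_inv_mul_iff₀ L.a_pos]
    linarith [L.aR i]
  have h2 := pow_le_pow_left₀ hR.le h1 2
  rw [zs]
  nlinarith

theorem small {i : ι} {w : E2} (hz : L.zs w < 3 * (L.T i).R ^ 2 / 8) : ‖w‖ < (L.T i).ρ :=
  lt_of_not_ge fun h => (L.zs_large h).not_gt hz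

theorem prof_far {i : ι} {w : E2} (hz : 3 * (L.T i).R ^ 2 / 8 ≤ L.zs w) :
    L.bf i w = 1 ∧ L.ef i w = 1 := prof_one (L.T i).R_pos hz

theorem ef_zero {i : ι} {w : E2} (hz : L.zs w ≤ 2 * (L.T i).R ^ 2 / 8) : L.ef i w = 0 :=
  ramp_zero (by nlinarith [(L.T i).R_pos]) hz

theorem bf_zero {i : ι} {w : E2} : L.bf i w = 0 ↔ L.zs w ≤ (L.T i).R ^ 2 / 8 :=
  ramp_eq_zero_iff (by nlinarith [(L.T i).R_pos])

/-- The places outside all holes. -/
def off : Set M := ⋂ i, ((L.T i).S.pt '' closedBall (0 : E2) (L.T i).ρ)ᶜ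

theorem cases_point (x : M) :
    (∃ i w, ‖w‖ ≤ (L.T i).ρ ∧ ‖w‖ < (L.T i).S.W ∧ (L.T i).S.pt w = x) ∨ x ∈ L.off := by
  by_cases h : x ∈ L.off
  · exact Or.inr h
  · simp only [off, mem_iInter, mem_compl_iff, not_forall, not_not] at h
    obtain ⟨i, w, hw, rfl⟩ := h
    have hw' := mem_closedBall_zero_iff.1 hw
    exact Or.inl ⟨i, w, hw', hw'.trans_lt (L.T i).ρ_lt, rfl⟩

theorem b_zero (j : ι) (z : E2) (hz : (L.T j).ρ ≤ ‖z‖) : L.bf j z - 1 = 0 := by
  rw [(L.prof_far (L.zs_large hz)).1, sub_self]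

theorem e_zero (j : ι) (z : E2) (hz : (L.T j).ρ ≤ ‖z‖) : L.ef j z - 1 = 0 := by
  rw [(L.prof_far (L.zs_large hz)).2, sub_self]

theorem cf_zero (j : ι) (z : E2) (hz : (L.T j).ρ ≤ ‖z‖) : L.κ ^ 2 * (1 - L.ef j z ^ 2) = 0 := by
  rw [(L.prof_far (L.zs_large hz)).2]
  ring

variable [Fintype ι]

theorem lift_sum {U : Type*} [AddCommMonoid U] {u : ι → E2 → U}
    (h0 : ∀ j z, (L.T j).ρ ≤ ‖z‖ → u j z = 0) {i : ι} {w : E2} (hw : ‖w‖ ≤ (L.T i).S.W) :
    ∑ j, (L.T j).S.lift (u j) ((L.T i).S.pt w) = u i w := by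
  rw [Fintype.sum_eq_single i fun j hj => (L.T j).S.lift_off (h0 j) ?_, (L.T i).S.lift_pt _ hw]
  rintro ⟨z, hz, he⟩
  exact L.disj j i hj z w ((mem_closedBall_zero_iff.1 hz).trans (L.T j).ρ_lt.le) hw he

theorem lift_sum_off {U : Type*} [AddCommMonoid U] {u : ι → E2 → U}
    (h0 : ∀ j z, (L.T j).ρ ≤ ‖z‖ → u j z = 0) {x : M} (hx : x ∈ L.off) :
    ∑ j, (L.T j).S.lift (u j) x = 0 :=
  Finset.sum_eq_zero fun j _ => (L.T j).S.lift_off (h0 j) (mem_iInter.1 hx j)

/-- The map. -/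
def F (x : M) : E4 :=
  L.t • h x + ∑ i, (L.T i).S.lift (fun w => L.Fh i w - L.t • (L.T i).hc w) x

/-- The amplitude of the rank one part. -/
def β (x : M) : ℝ := L.κ * (1 + ∑ i, (L.T i).S.lift (fun w => L.bf i w - 1) x)

/-- The amplitude of the positive part. -/
def η (x : M) : ℝ := 1 + ∑ i, (L.T i).S.lift (fun w => L.ef i w - 1) x

theorem F_pt {i : ι} {w : E2} (hw : ‖w‖ < (L.T i).S.W) : L.F ((L.T i).S.pt w) = L.Fh i w := by
  rw [F, L.lift_sum (fun j z hz => by rw [(L.hole j).outer z hz, sub_self]) hw.le,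
    (L.T i).hc_eq w hw, add_sub_cancel]

theorem F_off {x : M} (hx : x ∈ L.off) : L.F x = L.t • h x := by
  rw [F, L.lift_sum_off (fun j z hz => by rw [(L.hole j).outer z hz, sub_self]) hx, add_zero]

theorem F_germ {i : ι} {w : E2} (hw : ‖w‖ < (L.T i).S.W) :
    (fun z => L.F ((L.T i).S.pt z)) =ᶠ[𝓝 w] L.Fh i := by
  filter_upwards [(isOpen_lt continuous_norm continuous_const).mem_nhds hw] with z hz
  exact L.F_pt hz

theorem β_pt {i : ι} {w : E2} (hw : ‖w‖ < (L.T i).S.W) :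
    L.β ((L.T i).S.pt w) = L.κ * L.bf i w := by
  rw [β, L.lift_sum L.b_zero hw.le, add_sub_cancel]

theorem η_pt {i : ι} {w : E2} (hw : ‖w‖ < (L.T i).S.W) : L.η ((L.T i).S.pt w) = L.ef i w := by
  rw [η, L.lift_sum L.e_zero hw.le, add_sub_cancel]

theorem β_off {x : M} (hx : x ∈ L.off) : L.β x = L.κ := by
  rw [β, L.lift_sum_off L.b_zero hx, add_zero, mul_one]

theorem η_off {x : M} (hx : x ∈ L.off) : L.η x = 1 := by
  rw [η, L.lift_sum_off L.e_zero hx, add_zero]

variable [T2Space M]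

theorem isOpen_off : IsOpen L.off :=
  isOpen_iInter_of_finite fun i =>
    ((L.T i).S.isCompact_image (L.T i).ρ_lt.le).isClosed.isOpen_compl

theorem smooth_F : ContMDiff (𝓡 2) 𝓘(ℝ, E4) ∞ L.F :=
  ((contDiff_id.const_smul L.t).contMDiff.comp L.smooth_h).add
    (contMDiff_finsetSum fun i _ => (L.T i).S.contMDiff_lift
      ((L.hole i).smooth.sub ((L.T i).smooth_hc.const_smul L.t)) (L.T i).ρ_lt.le
      fun z hz => by rw [(L.hole i).outer z hz, sub_self])

theorem smooth_β : ContMDiff (𝓡 2) 𝓘(ℝ) ∞ L.β :=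
  (contDiff_const.mul (contDiff_const.add contDiff_id)).contMDiff.comp
    (contMDiff_finsetSum fun i _ => (L.T i).S.contMDiff_lift
      ((L.contDiff_bf i).sub contDiff_const) (L.T i).ρ_lt.le (L.b_zero i))

theorem smooth_η : ContMDiff (𝓡 2) 𝓘(ℝ) ∞ L.η :=
  (contDiff_const.add contDiff_id).contMDiff.comp
    (contMDiff_finsetSum fun i _ => (L.T i).S.contMDiff_lift
      ((L.contDiff_ef i).sub contDiff_const) (L.T i).ρ_lt.le (L.e_zero i))

theorem pull_off {x : M} (hx : x ∈ L.off) (u w : TangentSpace (𝓡 2) x) :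
    pullInner L.F x u w = L.t ^ 2 * pullInner h x u w := by
  obtain ⟨x₀, y, hy, rfl⟩ : ∃ x₀ y, y ∈ (extChartAt (𝓡 2) x₀).target ∧
      (extChartAt (𝓡 2) x₀).symm y = x :=
    ⟨x, _, mem_extChartAt_target x, (extChartAt (𝓡 2) x).left_inv (mem_extChartAt_source x)⟩
  obtain ⟨u', rfl⟩ := surjective_chartDeriv hy u
  obtain ⟨w', rfl⟩ := surjective_chartDeriv hy w
  rw [pullInner_chartDeriv L.smooth_F hy, pullInner_chartDeriv L.smooth_h hy,
    (eventuallyEq_comp_chart hy (F := fun x => L.t • h x) ((L.isOpen_off.eventually_mem hx).mono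
      fun z hz => L.F_off hz)).fderiv_eq,
    show ((fun x => L.t • h x) ∘ (extChartAt (𝓡 2) x₀).symm)
      = fun z => L.t • (h ∘ (extChartAt (𝓡 2) x₀).symm) z from rfl,
    fderiv_fun_const_smul (((contDiffOn_comp_chart L.smooth_h x₀).contDiffAt
      ((isOpen_extChartAt_target x₀).mem_nhds hy)).differentiableAt (by simp))]
  simp only [_root_.smul_apply, inner_smul_left, inner_smul_right, conj_trivial]
  ring

theorem pos : PosImmersion L.F := fun x u hu => by
  rcases L.cases_point x with ⟨i, w, -, hW, rfl⟩ | hx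
  · exact (L.T i).S.posImmersion_push L.smooth_F hW.le (L.F_germ hW) ((L.hole i).imm w hW).1 hu
  · rw [L.pull_off hx]
    exact mul_pos (pow_pos L.t_pos 2) (L.pos_h x u hu)

/-- Every direction has normal acceleration, in every chart. -/
theorem accel {x₀ : M} {y : E2} (hy : y ∈ (extChartAt (𝓡 2) x₀).target) {u : E2} (hu : u ≠ 0) :
    NormalAccel (L.F ∘ (extChartAt (𝓡 2) x₀).symm) y u := by
  rcases L.cases_point ((extChartAt (𝓡 2) x₀).symm y) with ⟨i, w, -, hW, hx⟩ | hx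
  · exact (L.T i).S.normalAccel_pt L.smooth_F hW.le (L.F_germ hW) ((L.hole i).imm w hW).2 hy
      hx.symm hu
  · have hn := (isOpen_extChartAt_target (I := 𝓡 2) x₀).mem_nhds hy
    refine normalAccel_of_norm (c := L.t) ((contDiffOn_comp_chart L.smooth_F x₀).contDiffAt hn)
      ?_ fun h0 => hu (injective_fderiv_comp_chart L.smooth_F L.pos hy (h0.trans (map_zero _).symm))
    filter_upwards [((continuousOn_extChartAt_symm x₀).continuousAt hn).eventually
      (L.isOpen_off.eventually_mem hx)] with z hz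
    rw [comp_apply, L.F_off hz, norm_smul, L.unit, mul_one, Real.norm_eq_abs, abs_of_pos L.t_pos]

/-- The cut-off of the correction of the positive part. -/
def cf (i : ι) (x : M) : ℝ := (L.T i).S.lift (fun w => L.κ ^ 2 * (1 - L.ef i w ^ 2)) x

/-- The corrections of the positive part. -/
def corr (i : ι) : SymField M :=
  (L.T i).S.field (c := L.cf i) ((L.T i).S.contMDiff_lift
      (contDiff_const.mul (contDiff_const.sub ((L.contDiff_ef i).pow 2))) (L.T i).ρ_lt.le
      (L.cf_zero i)) (L.T i).ρ_lt.le fun _ hx => (L.T i).S.lift_off (L.cf_zero i) hx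

/-- The positive part. -/
def H : SymField M where
  val x := ((gapField g L.smooth_F).sub (sqDField L.smooth_v L.smooth_β)).val x
    + ∑ i, (L.corr i).val x
  symm x u w := by
    simp only [_root_.add_apply, _root_.sum_apply]
    rw [((gapField g L.smooth_F).sub (sqDField L.smooth_v L.smooth_β)).symm,
      Finset.sum_congr rfl fun i _ => (L.corr i).symm x u w]
  smooth x₀ u w := by
    simp only [_root_.add_apply, _root_.sum_apply]
    exact (((gapField g L.smooth_F).sub (sqDField L.smooth_v L.smooth_β)).smooth x₀ u w).add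
      (ContDiffOn.sum fun i _ => (L.corr i).smooth x₀ u w)

theorem H_val (x : M) (u w : TangentSpace (𝓡 2) x) :
    L.H.val x u w = g.inner x u w - pullInner L.F x u w
      - L.β x ^ 2 * (dform v x u * dform v x w) + ∑ i, (L.corr i).val x u w := by
  simp only [H, _root_.add_apply, _root_.sum_apply]
  rfl

theorem H_pt {i : ι} {w : E2} (hW : ‖w‖ < (L.T i).S.W) (s u : E2) :
    L.H.val ((L.T i).S.pt w) ((L.T i).S.push w s) ((L.T i).S.push w u)
      = g.inner ((L.T i).S.pt w) ((L.T i).S.push w s) ((L.T i).S.push w u)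
        - pullE2 (L.Fh i) w s u
        - (L.κ * L.bf i w) ^ 2
          * (dform v ((L.T i).S.pt w) ((L.T i).S.push w s)
            * dform v ((L.T i).S.pt w) ((L.T i).S.push w u))
        + L.κ ^ 2 * (1 - L.ef i w ^ 2) * ⟪s, u⟫ := by
  rw [L.H_val, L.β_pt hW, (L.T i).S.pullInner_push L.smooth_F hW.le (L.F_germ hW)]
  congr 1
  rw [Fintype.sum_eq_single i fun j hj => ?_]
  · refine ((L.T i).S.formCLM_push (L.cf i) hW.le s u).trans ?_
    rw [cf, (L.T i).S.lift_pt _ hW.le]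
  · show (L.T j).S.formCLM (L.cf j) _ _ _ = 0
    rw [(L.T j).S.formCLM_apply, cf, (L.T j).S.lift_off (L.cf_zero j), zero_mul]
    rintro ⟨z, hz, he⟩
    exact L.disj j i hj z w ((mem_closedBall_zero_iff.1 hz).trans (L.T j).ρ_lt.le) hW.le he

theorem H_off {x : M} (hx : x ∈ L.off) (u w : TangentSpace (𝓡 2) x) :
    L.H.val x u w = g.inner x u w - L.t ^ 2 * pullInner h x u w
      - L.κ ^ 2 * (dform v x u * dform v x w) := by
  rw [L.H_val, L.β_off hx, L.pull_off hx, Finset.sum_eq_zero fun j _ => ?_, add_zero]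
  show (L.T j).S.formCLM (L.cf j) _ _ _ = 0
  rw [(L.T j).S.formCLM_apply, cf, (L.T j).S.lift_off (L.cf_zero j) (mem_iInter.1 hx j), zero_mul]

theorem H_pos (x : M) (u : TangentSpace (𝓡 2) x) (hu : u ≠ 0) : 0 < L.H.val x u u := by
  rcases L.cases_point x with ⟨i, w, hw, hW, rfl⟩ | hx
  · obtain ⟨u, rfl⟩ := (L.T i).S.exists_push hW.le u
    have hu0 := (L.T i).S.push_ne hW.le hu
    rw [L.H_pt hW]
    rcases lt_or_ge (L.zs w) (3 * (L.T i).R ^ 2 / 8) with hz | hz
    · have he := ((L.hole i).exact_inner w hw hz).2 u u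
      simp only [bf, ef, zs] at he ⊢
      linarith [mul_pos (pow_pos L.κ_pos 2) (real_inner_self_pos.2 hu0),
        mul_pow L.κ (eProf (L.T i).R (‖L.a⁻¹ • w‖ ^ 2)) 2]
    · have hs := (L.hole i).short w hw hz u hu0
      rw [(L.prof_far hz).1, (L.prof_far hz).2]
      linarith
  · rw [L.H_off hx]
    linarith [L.outside x u hu]

theorem metric (x : M) (u w : TangentSpace (𝓡 2) x) :
    g.inner x u w = pullInner L.F x u w + L.β x ^ 2 * dform v x u * dform v x w
      + L.η x ^ 2 * L.H.val x u w := by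
  rcases L.cases_point x with ⟨i, z, hz', hW, rfl⟩ | hx
  · obtain ⟨u, rfl⟩ := (L.T i).S.exists_push hW.le u
    obtain ⟨w, rfl⟩ := (L.T i).S.exists_push hW.le w
    rw [L.H_pt hW, L.η_pt hW, L.β_pt hW, (L.T i).S.pullInner_push L.smooth_F hW.le (L.F_germ hW)]
    rcases lt_or_ge (L.zs z) (3 * (L.T i).R ^ 2 / 8) with hz | hz
    · have he := ((L.hole i).exact_inner z hz' hz).2 u w
      simp only [bf, ef, zs] at he ⊢
      linear_combination (eProf (L.T i).R (‖L.a⁻¹ • z‖ ^ 2) ^ 2 - 1) * he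
    · rw [(L.prof_far hz).1, (L.prof_far hz).2]
      ring
  · rw [L.H_off hx, L.η_off hx, L.β_off hx, L.pull_off hx]
    ring

omit [T2Space M] in
theorem η_nonneg (x : M) : 0 ≤ L.η x := by
  rcases L.cases_point x with ⟨i, w, -, hW, rfl⟩ | hx
  · rw [L.η_pt hW]
    exact (ramp_mem _ _ _).1
  · rw [L.η_off hx]
    exact zero_le_one

omit [T2Space M] in
theorem η_supp : tsupport L.η ⊆ {x | L.β x ≠ 0} := by
  intro x hx hβ
  refine (notMem_tsupport_iff_eventuallyEq.2 ?_) hx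
  rcases L.cases_point x with ⟨i, w, -, hW, rfl⟩ | hoff
  · rw [L.β_pt hW, mul_eq_zero, or_iff_right L.κ_pos.ne', L.bf_zero] at hβ
    have hev : ∀ᶠ z in 𝓝 w, L.zs z < 2 * (L.T i).R ^ 2 / 8 :=
      L.contDiff_zs.continuous.continuousAt.eventually
        (gt_mem_nhds (by nlinarith [(L.T i).R_pos]))
    filter_upwards [(L.T i).S.eventually_pt hW hev] with y hy
    obtain ⟨z, hzW, hz, rfl⟩ := hy
    rw [L.η_pt hzW, L.ef_zero hz.le]
    rfl
  · exact absurd ((L.β_off hoff).symm.trans hβ) L.κ_pos.ne'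

omit [T2Space M] in
theorem good_pt {i : ι} {w : E2} (hW : ‖w‖ < (L.T i).S.W)
    (hz : L.zs w < 3 * (L.T i).R ^ 2 / 8) : GoodM L.F ((L.T i).S.pt w) :=
  (L.T i).S.goodM_pt hW (fun _ hz' => L.F_pt hz') ((L.hole i).exact_inner w (L.small hz).le hz).1

omit [T2Space M] in
theorem center_notMem (i : ι) : (L.T i).S.q ∉ closure {x | L.β x ≠ 0} := by
  have hW : ‖(0 : E2)‖ < (L.T i).S.W := by simpa using (L.T i).S.W_pos
  have hev : ∀ᶠ z in 𝓝 (0 : E2), L.zs z < (L.T i).R ^ 2 / 8 :=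
    L.contDiff_zs.continuous.continuousAt.eventually
      (gt_mem_nhds (by simp [zs, (L.T i).R_pos]))
  intro hcl
  rw [← (L.T i).S.pt_zero] at hcl
  obtain ⟨y, hy, z, hzW, hz, rfl⟩ :=
    (mem_closure_iff_frequently.1 hcl).and_eventually ((L.T i).S.eventually_pt hW hev) |>.exists
  exact hy (by rw [L.β_pt hzW, L.bf_zero.2 hz.le, mul_zero])

/-- The starting state. -/
def starter : Starter g where
  F := L.F
  Ω := {x | L.β x ≠ 0}
  V := ⋃ i, (L.T i).S.pt '' {w | ‖w‖ < (L.T i).S.W ∧ L.zs w < 3 * (L.T i).R ^ 2 / 8}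
  v := v
  β := L.β
  η := L.η
  H := L.H
  isOpen_Ω := isOpen_ne_fun L.smooth_β.continuous continuous_const
  isOpen_V := isOpen_iUnion fun i => isOpen_iff_mem_nhds.2 fun x hx => by
    obtain ⟨w, ⟨hW, hz⟩, rfl⟩ := hx
    filter_upwards [(L.T i).S.eventually_pt hW
      ((isOpen_lt L.contDiff_zs.continuous continuous_const).mem_nhds hz)] with y hy
    obtain ⟨z, hzW, hz', rfl⟩ := hy
    exact ⟨z, ⟨hzW, hz'⟩, rfl⟩
  cover := eq_univ_of_forall fun x => by
    rcases L.cases_point x with ⟨i, w, -, hW, rfl⟩ | hx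
    · rcases lt_or_ge (L.zs w) (3 * (L.T i).R ^ 2 / 8) with hz | hz
      · exact Or.inl (mem_iUnion.2 ⟨i, w, ⟨hW, hz⟩, rfl⟩)
      · refine Or.inr ?_
        show L.β _ ≠ 0
        rw [L.β_pt hW, (L.prof_far hz).1, mul_one]
        exact L.κ_pos.ne'
    · exact Or.inr (show L.β x ≠ 0 by rw [L.β_off hx]; exact L.κ_pos.ne')
  smooth_F := L.smooth_F
  pos := L.pos
  good := fun x hx => by
    obtain ⟨i, w, ⟨hW, hz⟩, rfl⟩ := mem_iUnion.1 hx
    exact L.good_pt hW hz
  smooth_v := L.smooth_v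
  smooth_β := L.smooth_β
  smooth_η := L.smooth_η
  β_zero := fun _ hx => not_not.1 hx
  β_ne := fun _ hx => hx
  η_nonneg := L.η_nonneg
  η_supp := L.η_supp
  H_pos := fun x _ => L.H_pos x
  line := fun x₀ y hy hcl => ⟨fun h0 => by
    obtain ⟨i, hi⟩ := L.crit _ (ContinuousLinearMap.ext fun u => by
      obtain ⟨u', rfl⟩ := surjective_chartDeriv hy u
      rw [dform_chartDeriv L.smooth_v hy, h0]
      rfl)
    exact L.center_notMem i (hi ▸ hcl), fun u hu _ => L.accel hy hu⟩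
  metric := L.metric

end Layout

/-- Every metric on a closed surface has a starting state. -/
theorem startStatement : StartStatement.{u} := by
  intro M _ _ _ _ _ g
  classical
  obtain ⟨h, hh, h1, hpos⟩ := exists_sphere_immersion M
  obtain ⟨v, hv, hfin⟩ := exists_finite_crit (M := M)
  obtain ⟨φ, hφ, hn, hiso, -, hwsq, hcrit⟩ := Holes.exists_model
  obtain ⟨U, hU, hdisj⟩ := hfin.t2_separation
  have hT : ∀ x : {x | mfderiv (𝓡 2) 𝓘(ℝ) v x = 0}, ∃ T : Site g h v,
      T.S.q = (x : M) ∧ ∀ w, ‖w‖ ≤ T.S.W → T.S.pt w ∈ U x := fun x =>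
    exists_site ⟨φ, hφ, hn, hiso, hwsq, hcrit⟩ g hh h1 hpos hv x ((hU x).2.mem_nhds (hU x).1)
  choose T hTq hTU using hT
  have := hfin.fintype
  obtain ⟨C₁, hC₁, hdom₁⟩ := SymField.exists_dominated g ((metricField g).sub (gapField g hh))
  obtain ⟨C₂, hC₂, hdom₂⟩ := SymField.exists_dominated g
    (sqDField hv (contMDiff_const (c := (1 : ℝ))))
  obtain ⟨d, hd, hdη⟩ := ((show ∀ᶠ y in 𝓝[>] (1 : ℝ), y ∈ Ioi (1 : ℝ) from self_mem_nhdsWithin).and
    (eventually_all.2 fun i => (gt_mem_nhds (show (1 : ℝ) < 1 + (T i).η by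
      linarith [(T i).η_pos])).filter_mono nhdsWithin_le_nhds)).exists
  have hd1 : 1 < d := hd
  obtain ⟨κ, hκ, hκ1, hκC, hκT⟩ := ((show ∀ᶠ y in 𝓝[>] (0 : ℝ), y ∈ Ioi (0 : ℝ) from self_mem_nhdsWithin).and
    ((Holes.small_evt 1 one_pos).and ((Holes.small_evt C₂ (half_pos (one_pos (α := ℝ)))).and
      (eventually_all.2 fun i => (T i).hole d hd1 (hdη i))))).exists
  obtain ⟨a, ha, ha1, haC, haT⟩ := ((show ∀ᶠ y in 𝓝[>] (0 : ℝ), y ∈ Ioi (0 : ℝ) from self_mem_nhdsWithin).and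
    ((Holes.small_evt 1 one_pos).and ((Holes.small_evt C₁ (half_pos (one_pos (α := ℝ)))).and
      (eventually_all.2 hκT)))).exists
  rw [mem_Ioi] at ha hκ
  rw [mul_one] at ha1 hκ1
  choose haR Fh hFh using haT
  refine ⟨Layout.starter
    { T := T, t := a / √d, κ := κ, a := a, Fh := Fh
      smooth_h := hh, unit := h1, pos_h := hpos, smooth_v := hv
      crit := fun x hx => ⟨⟨x, hx⟩, (hTq ⟨x, hx⟩).symm⟩
      disj := fun i j hij w z hw hz he => ?_
      t_pos := by positivity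
      κ_pos := hκ, a_pos := ha, aR := haR, hole := hFh
      outside := fun x u hu => ?_ }⟩
  · exact (Set.disjoint_left.1 (hdisj i.2 j.2 (Subtype.coe_injective.ne hij))) (hTU i w hw)
      (he ▸ hTU j z hz)
  · have e1 := hdom₁ x u
    have e2 := hdom₂ x u
    rw [show ((metricField g).sub (gapField g hh)).val x u u
      = g.inner x u u - (g.inner x u u - pullInner h x u u) from rfl, sub_sub_cancel] at e1
    rw [sqDField_val, one_pow, one_mul, ← sq] at e2
    have hg := g.pos x u hu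
    have hP := (hpos x u hu).le
    have ht2 : (a / √d) ^ 2 ≤ a := by
      rw [div_pow, Real.sq_sqrt (by linarith), div_le_iff₀ (by linarith)]
      nlinarith
    have hκ2 : κ ^ 2 ≤ κ := by nlinarith
    nlinarith [mul_le_mul ht2 e1 hP ha.le, mul_le_mul hκ2 e2 (sq_nonneg (dform v x u)) hκ.le,
      mul_lt_mul_of_pos_right haC hg, mul_lt_mul_of_pos_right hκC hg]

end

end Vale.Agent.P205.Full
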